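import Vale.Agent.P237.Spec

/-!
# P237: behaviour of `pv`, `projBody` and `R` under linear maps, translations and inclusions
-/

namespace Vale.Agent.P237

open MeasureTheory Set Filter Topology
open scoped Pointwise RealInnerProductSpace ENNReal

variable {n : ℕ}

lemma vol_nonneg (K : Set (E n)) : 0 ≤ vol K := ENNReal.toReal_nonneg

lemma vol_vadd (a : E n) (K : Set (E n)) : vol (a +ᵥ K) = vol K := by
  simp [vol, measure_vadd]

lemma vol_smul (s : ℝ) (K : Set (E n)) : vol (s • K) = |s| ^ n * vol K := by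
  simp [vol, Measure.addHaar_smul, finrank_euclideanSpace, abs_pow, abs_nonneg]

lemma vol_linearImage (T : E n →ₗ[ℝ] E n) (K : Set (E n)) :
    vol (T '' K) = |LinearMap.det T| * vol K := by
  simp [vol, Measure.addHaar_image_linearMap, abs_nonneg]

lemma vol_mono {K L : Set (E n)} (hL : IsCompact L) (h : K ⊆ L) : vol K ≤ vol L :=
  ENNReal.toReal_mono hL.measure_lt_top.ne (measure_mono h)

lemma Body.vol_pos {K : Set (E n)} (hK : Body K) : 0 < vol K :=
  ENNReal.toReal_pos (Measure.measure_pos_of_nonempty_interior _ hK.interior_nonempty).ne'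
    hK.compact.measure_lt_top.ne

lemma Body.nonempty {K : Set (E n)} (hK : Body K) : K.Nonempty :=
  hK.interior_nonempty.mono interior_subset

lemma Body.image {K : Set (E n)} (hK : Body K) (T : E n ≃L[ℝ] E n) : Body (T '' K) where
  convex := hK.convex.linear_image T.toLinearEquiv.toLinearMap
  compact := hK.compact.image T.continuous
  interior_nonempty := by
    rw [show (T : E n → E n) = T.toHomeomorph from rfl, ← Homeomorph.image_interior]
    exact hK.interior_nonempty.image _

lemma SymBody.image {K : Set (E n)} (hK : SymBody K) (T : E n ≃L[ℝ] E n) :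
    SymBody (T '' K) where
  toBody := hK.toBody.image T
  neg_mem := by
    rintro _ ⟨x, hx, rfl⟩
    exact ⟨-x, hK.neg_mem x hx, map_neg T x⟩

lemma Body.vadd {K : Set (E n)} (hK : Body K) (a : E n) : Body (a +ᵥ K) where
  convex := hK.convex.vadd a
  compact := hK.compact.vadd a
  interior_nonempty := by
    rw [interior_vadd]
    exact hK.interior_nonempty.image _

/-- Translations do not change `pv`. -/
lemma pv_vadd (a : E n) (K : Set (E n)) : pv (a +ᵥ K) = pv K := by
  funext v
  have h : (a +ᵥ K) + segment ℝ 0 v = a +ᵥ (K + segment ℝ 0 v) := vadd_add_assoc a K _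
  simp [pv, h, vol_vadd]

/-- `pv` under a linear equivalence. -/
lemma pv_image (T : E n ≃L[ℝ] E n) (K : Set (E n)) (v : E n) :
    pv (T '' K) v = |LinearMap.det (T.toLinearEquiv.toLinearMap)| * pv K (T.symm v) := by
  set L := T.toLinearEquiv.toLinearMap with hL
  have e : ∀ S : Set (E n), T '' S = L '' S := fun S => rfl
  have h : T '' K + segment ℝ 0 v = L '' (K + segment ℝ 0 (T.symm v)) := by
    rw [Set.image_add, ← e K]
    congr 1
    have := (image_segment ℝ L.toAffineMap 0 (T.symm v))
    simpa [hL, LinearMap.coe_toAffineMap] using this.symm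
  rw [pv, pv, h, e K, vol_linearImage, vol_linearImage]
  ring

lemma projBody_vadd (a : E n) (K : Set (E n)) : projBody (a +ᵥ K) = projBody K := by
  simp [projBody, pv_vadd]

lemma det_ne_zero' (T : E n ≃L[ℝ] E n) : LinearMap.det T.toLinearEquiv.toLinearMap ≠ 0 :=
  T.toLinearEquiv.isUnit_det'.ne_zero

/-- `ΠTK = |det T| T^{-t} ΠK`. -/
lemma projBody_image (T : E n ≃L[ℝ] E n) (K : Set (E n)) :
    LinearMap.adjoint T.toLinearEquiv.toLinearMap '' projBody (T '' K) =
      |LinearMap.det T.toLinearEquiv.toLinearMap| • projBody K := by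
  set L := T.toLinearEquiv.toLinearMap with hL
  have hd : (0 : ℝ) < |LinearMap.det L| := abs_pos.2 (det_ne_zero' T)
  have key : ∀ y : E n, y ∈ projBody (T '' K) ↔
      |LinearMap.det L|⁻¹ • LinearMap.adjoint L y ∈ projBody K := by
    intro y
    simp only [projBody, mem_ofPred_eq, real_inner_smul_left, LinearMap.adjoint_inner_left,
      pv_image, ← hL]
    constructor
    · intro h w
      rw [inv_mul_le_iff₀ hd]
      simpa [hL] using h (T w)
    · intro h v
      have := h (T.symm v)
      rw [inv_mul_le_iff₀ hd] at this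
      simpa [hL] using this
  ext z
  rw [mem_smul_set_iff_inv_smul_mem₀ hd.ne']
  constructor
  · rintro ⟨y, hy, rfl⟩
    exact (key y).1 hy
  · intro hz
    refine ⟨LinearMap.adjoint T.symm.toLinearEquiv.toLinearMap z, ?_, ?_⟩
    · rw [key]
      convert hz using 2
      rw [← LinearMap.comp_apply, ← LinearMap.adjoint_comp]
      simp [hL]
    · rw [← LinearMap.comp_apply, ← LinearMap.adjoint_comp]
      simp [hL]

lemma det_adjoint (L : E n →ₗ[ℝ] E n) : LinearMap.det (LinearMap.adjoint L) = LinearMap.det L := by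
  let b := EuclideanSpace.basisFun (Fin n) ℝ
  rw [← LinearMap.det_toMatrix b.toBasis (LinearMap.adjoint L),
    LinearMap.toMatrix_adjoint, Matrix.det_conjTranspose, LinearMap.det_toMatrix]
  simp

lemma vol_projBody_image (hn : 1 ≤ n) (T : E n ≃L[ℝ] E n) (K : Set (E n)) :
    vol (projBody (T '' K)) =
      |LinearMap.det T.toLinearEquiv.toLinearMap| ^ (n - 1) * vol (projBody K) := by
  have h := congrArg vol (projBody_image T K)
  rw [vol_linearImage, det_adjoint, vol_smul, abs_abs] at h
  have hd : (0 : ℝ) < |LinearMap.det T.toLinearEquiv.toLinearMap| :=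
    abs_pos.2 (det_ne_zero' T)
  obtain ⟨m, rfl⟩ : ∃ m, n = m + 1 := ⟨n - 1, by omega⟩
  rw [Nat.add_sub_cancel]
  rw [pow_succ'] at h
  exact mul_left_cancel₀ hd.ne' (by rw [h]; ring)

/-- `R` is invariant under linear equivalences. -/
lemma R_image (hn : 1 ≤ n) (T : E n ≃L[ℝ] E n) (K : Set (E n)) : R (T '' K) = R K := by
  have hd : (0 : ℝ) < |LinearMap.det T.toLinearEquiv.toLinearMap| :=
    abs_pos.2 (det_ne_zero' T)
  have hv : vol (T '' K) = |LinearMap.det T.toLinearEquiv.toLinearMap| * vol K :=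
    vol_linearImage T.toLinearEquiv.toLinearMap K
  rw [R, R, vol_projBody_image hn T K, hv, mul_pow, mul_div_mul_left _ _ (pow_pos hd _).ne']

lemma R_vadd (a : E n) (K : Set (E n)) : R (a +ᵥ K) = R K := by
  simp [R, projBody_vadd, vol_vadd]

/-- Dilations as linear equivalences. -/
noncomputable def dil (s : ℝ) (hs : s ≠ 0) : E n ≃L[ℝ] E n :=
  ContinuousLinearEquiv.smulLeft (Units.mk0 s hs)

lemma dil_image (s : ℝ) (hs : s ≠ 0) (K : Set (E n)) : dil s hs '' K = s • K := rfl

lemma det_dil (s : ℝ) (hs : s ≠ 0) :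
    LinearMap.det (dil (n := n) s hs).toLinearEquiv.toLinearMap = s ^ n := by
  have : (dil (n := n) s hs).toLinearEquiv.toLinearMap = s • LinearMap.id := by ext; simp [dil, Units.smul_def]
  rw [this, LinearMap.det_smul, LinearMap.det_id, finrank_euclideanSpace_fin, mul_one]

lemma Body.smul {K : Set (E n)} (hK : Body K) {s : ℝ} (hs : s ≠ 0) : Body (s • K) :=
  dil_image s hs K ▸ hK.image (dil s hs)

lemma SymBody.smul {K : Set (E n)} (hK : SymBody K) {s : ℝ} (hs : s ≠ 0) : SymBody (s • K) :=
  dil_image s hs K ▸ hK.image (dil s hs)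

lemma pv_smul_body (hB : PvBasicSpec) (hn : 2 ≤ n) {K : Set (E n)} (hK : Body K) {s : ℝ}
    (hs : 0 < s) (v : E n) : pv (s • K) v = s ^ (n - 1) * pv K v := by
  rw [← dil_image s hs.ne', pv_image, det_dil, abs_of_pos (pow_pos hs n)]
  have e : (dil (n := n) s hs.ne').symm v = s⁻¹ • v := by
    simp [dil, ContinuousLinearEquiv.symm, Units.smul_def]
  rw [e, (hB n K hn hK).2.1, abs_of_pos (inv_pos.2 hs)]
  obtain ⟨m, rfl⟩ : ∃ m, n = m + 1 := ⟨n - 1, by omega⟩
  rw [Nat.add_sub_cancel, pow_succ]
  field_simp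

lemma projBody_mono (hB : PvBasicSpec) (hn : 2 ≤ n) {K L : Set (E n)} (hK : Body K) (hL : Body L)
    (h : K ⊆ L) : projBody K ⊆ projBody L :=
  fun _ hy v => (hy v).trans ((hB n K hn hK).2.2.2.2 L hL h v)

lemma R_nonneg (K : Set (E n)) : 0 ≤ R K :=
  div_nonneg (vol_nonneg _) (pow_nonneg (vol_nonneg _) _)

end Vale.Agent.P237
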