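import Vale.Agent.P237.Defs

/-!
# P237: interfaces between the modules

Each `…Spec` is a `Prop`; the module named in the comment proves it as a theorem
(`theorem bmSpec : BMSpec`, etc.).  No result may keep one of these as a hypothesis.
-/

namespace Vale.Agent.P237

open MeasureTheory Set Filter Topology
open scoped Pointwise RealInnerProductSpace ENNReal

/-! ### A. `BrunnMinkowski.lean` (helper95) -/

/-- Brunn–Minkowski for nonempty compact convex sets. -/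
def BMSpec : Prop :=
  ∀ (n : ℕ) (A B : Set (E n)), 0 < n → Convex ℝ A → IsCompact A → A.Nonempty →
    Convex ℝ B → IsCompact B → B.Nonempty →
    vol A ^ (1 / (n : ℝ)) + vol B ^ (1 / (n : ℝ)) ≤ vol (A + B) ^ (1 / (n : ℝ))

/-- Equality in Brunn–Minkowski forces homothety. -/
def BMEqSpec : Prop :=
  ∀ (n : ℕ) (K L : Set (E n)), 2 ≤ n → Body K → Body L →
    vol (K + L) ^ (1 / (n : ℝ)) = vol K ^ (1 / (n : ℝ)) + vol L ^ (1 / (n : ℝ)) →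
    ∃ (a : E n) (c : ℝ), 0 < c ∧ K = a +ᵥ c • L

/-! ### B. `ProjVol.lean` (helper92) -/

/-- `pv` is the projection volume, extended positively homogeneously. -/
def PvProjSpec : Prop :=
  ∀ (n : ℕ) (K : Set (E n)) (v : E n), 2 ≤ n → Body K →
    pv K v = ‖v‖ * projVol K (‖v‖⁻¹ • v)

/-- `pv K` is sublinear and positive, and monotone in `K`. -/
def PvBasicSpec : Prop :=
  ∀ (n : ℕ) (K : Set (E n)), 2 ≤ n → Body K →
    (∀ v, v ≠ 0 → 0 < pv K v) ∧ (∀ v (s : ℝ), pv K (s • v) = |s| * pv K v) ∧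
    (∀ v w, pv K (v + w) ≤ pv K v + pv K w) ∧ Continuous (pv K) ∧
    (∀ L, Body L → K ⊆ L → ∀ v, pv K v ≤ pv L v)

/-- The projection body is a symmetric body with support function `pv K`. -/
def ProjBodySpec : Prop :=
  ∀ (n : ℕ) (K : Set (E n)), 2 ≤ n → Body K →
    SymBody (projBody K) ∧ ∀ v, IsGreatest ((fun y => ⟪y, v⟫) '' projBody K) (pv K v)

/-- The projection function is a cosine transform. -/
def PvRepSpec : Prop :=
  ∀ (n : ℕ) (K : Set (E n)), 2 ≤ n → Body K →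
    ∃ μ : Measure (E n), IsFiniteMeasure μ ∧ (∃ r : ℝ, ∀ᵐ w ∂μ, ‖w‖ ≤ r) ∧
      ∀ v, pv K v = (1 / 2) * ∫ w, |⟪v, w⟫| ∂μ

/-! ### Z. `Zonoid.lean` (helper46) -/

/-- First variation of volume in the direction of a zonoid. -/
def ZonVarSpec : Prop :=
  ∀ (n : ℕ) (K : Set (E n)) (μ : Measure (E n)), 2 ≤ n → Body K → IsFiniteMeasure μ →
    (∃ r : ℝ, ∀ᵐ w ∂μ, ‖w‖ ≤ r) → Body (zon μ) →
    Tendsto (fun ε => (vol (K + ε • zon μ) - vol K) / ε) (𝓝[>] (0 : ℝ))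
      (𝓝 (∫ w, pv K w ∂μ))

/-- The volume of a zonoid by Euler's identity. -/
def ZonEulerSpec : Prop :=
  ∀ (n : ℕ) (μ : Measure (E n)), 2 ≤ n → IsFiniteMeasure μ →
    (∃ r : ℝ, ∀ᵐ w ∂μ, ‖w‖ ≤ r) → Body (zon μ) →
    ∫ w, pv (zon μ) w ∂μ = n * vol (zon μ)

/-! ### C. `Slice.lean` (helper97) -/

/-- Elementary facts about the sections of a symmetric body in `E 3`; here `h_K(u) = 1`. -/
def SliceSpec : Prop :=
  ∀ (K : Set (E 3)) (u : E 3), SymBody K → ‖u‖ = 1 →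
    (∀ x ∈ K, ⟪x, u⟫ ≤ 1) → Metric.closedBall 0 1 ⊆ K →
    ConcaveOn ℝ (Icc (-1 : ℝ) 1) (fun t => √(sliceVol K u t)) ∧
    (∀ t, sliceVol K u (-t) = sliceVol K u t) ∧
    (∀ t, 0 ≤ sliceVol K u t) ∧
    (∀ t ∈ Icc (-1 : ℝ) 1, Real.pi * (1 - t ^ 2) ≤ sliceVol K u t) ∧
    (∫ t in (-1 : ℝ)..1, sliceVol K u t) = vol K ∧
    (∫ t in (-1 : ℝ)..1, t ^ 2 * sliceVol K u t) = ∫ x in K, ⟪x, u⟫ ^ 2

/-- The slicing lower bound for the second projection body in `E 3` (uses `R₂ ≥ 4`). -/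
def SliceBoundSpec : Prop :=
  ∀ (K : Set (E 3)) (u : E 3), SymBody K → ‖u‖ = 1 →
    (∀ x ∈ K, ⟪x, u⟫ ≤ 1) → Metric.closedBall 0 1 ⊆ K →
    4 * (∫ t in (-1 : ℝ)..1, √(sliceVol K u t)) ^ 2 ≤ pv (projBody K) u

/-! ### J. `John.lean` (helper44) -/

/-- John position of a symmetric body. -/
def JohnSpec : Prop :=
  ∀ (n : ℕ) (K : Set (E n)), 2 ≤ n → SymBody K →
    ∃ (T : E n ≃L[ℝ] E n) (N : ℕ) (u : Fin N → E n) (c : Fin N → ℝ),
      Metric.closedBall 0 1 ⊆ T '' K ∧ (∀ i, 0 ≤ c i) ∧ (∀ i, ‖u i‖ = 1) ∧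
      (∀ i, ∀ x ∈ T '' K, ⟪x, u i⟫ ≤ 1) ∧
      ∀ x : E n, ∑ i, c i * ⟪x, u i⟫ ^ 2 = ‖x‖ ^ 2

/-! ### G. `OneDim.lean` (helper65) -/

/-- The one-dimensional inequality. -/
def OneDimSpec : Prop :=
  ∀ f : ℝ → ℝ, ConcaveOn ℝ (Icc (-1 : ℝ) 1) f → (∀ t, f (-t) = f t) →
    f 0 ≤ 7 / 4 →
    (∀ t ∈ Icc (-1 : ℝ) 1, √(1 - t ^ 2) ≤ f t) →
    3 * Real.pi ^ 2 / 16 * (∫ t in (-1 : ℝ)..1, f t ^ 2) +
        7 / 5 * ((∫ t in (-1 : ℝ)..1, f t ^ 2 * (t ^ 2 - 1 / 3)) + 8 / 45) ≤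
      (∫ t in (-1 : ℝ)..1, f t) ^ 2

end Vale.Agent.P237
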