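import Mathlib
import Vale.Agent.P237.Spec

/-!
John position of a symmetric convex body: after a linear change of variables the unit ball is
inscribed and the identity is a positive combination of contact forms.
-/

open Set Filter Topology Metric
open scoped RealInnerProductSpace Pointwise Matrix

namespace Vale.Agent.P237

variable {n : ℕ}


lemma zero_mem_interior_of_symm {E : Type*} [NormedAddCommGroup E] [NormedSpace ℝ E] {K : Set E}
    (hc : Convex ℝ K) (hs : ∀ x ∈ K, -x ∈ K) (hi : (interior K).Nonempty) :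
    (0 : E) ∈ interior K := by
  obtain ⟨x, hx⟩ := hi
  have hx' : -x ∈ interior K := by
    have e : -K = K := Set.ext fun y =>
      ⟨fun h => by simpa using hs _ h, fun h => by simpa using hs _ h⟩
    have : -interior K = interior K := by
      conv_rhs => rw [← e]
      exact ((Homeomorph.neg E).preimage_interior K)
    rw [← this]; simpa using hx
  have := hc.interior hx hx' (by norm_num : (0:ℝ) ≤ 1/2) (by norm_num : (0:ℝ) ≤ 1/2) (by norm_num)
  simpa using this

lemma isCompact_convexHull_of_compact {E : Type*} [NormedAddCommGroup E] [NormedSpace ℝ E]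
    [FiniteDimensional ℝ E] {s : Set E} (hs : IsCompact s) : IsCompact (convexHull ℝ s) := by
  rcases s.eq_empty_or_nonempty with rfl | ⟨z₀, hz₀⟩
  · simp
  let N := Module.finrank ℝ E + 1
  let f : (Fin N → ℝ) × (Fin N → E) → E := fun p => ∑ i, p.1 i • p.2 i
  have hf : Continuous f := by fun_prop
  have hc := ((isCompact_stdSimplex ℝ (Fin N)).prod
    (isCompact_univ_pi (fun _ : Fin N => hs))).image hf
  suffices e : convexHull ℝ s = f '' (stdSimplex ℝ (Fin N) ×ˢ Set.univ.pi fun _ => s) by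
    rw [e]; exact hc
  ext x
  constructor
  · intro hx
    obtain ⟨κ, hκ, z, w, hz, hind, hw0, hw1, hwx⟩ := eq_pos_convex_span_of_mem_convexHull hx
    have hcard : Fintype.card κ ≤ N :=
      hind.card_le_finrank_succ.trans (Nat.add_le_add_right (Submodule.finrank_le _) 1)
    let j : κ → Fin N := fun k => Fin.castLE hcard (Fintype.equivFin κ k)
    have hj : Function.Injective j :=
      (Fin.castLE_injective hcard).comp (Fintype.equivFin κ).injective
    have hsum : ∑ i, Function.extend j w 0 i = ∑ k, w k := by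
      refine (Fintype.sum_of_injective j hj _ _ (fun i hi => ?_) fun k => ?_).symm
      · exact Function.extend_apply' _ _ _ (by simpa using hi)
      · exact (hj.extend_apply _ _ k).symm
    refine ⟨(Function.extend j w 0, Function.extend j z (fun _ => z₀)), ⟨⟨?_, ?_⟩, ?_⟩, ?_⟩
    · intro i
      simp only
      by_cases hi : ∃ k, j k = i
      · obtain ⟨k, rfl⟩ := hi
        rw [hj.extend_apply]; exact (hw0 k).le
      · rw [Function.extend_apply' _ _ _ hi]; rfl
    · simp only; rw [hsum, hw1]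
    · intro i _
      by_cases hi : ∃ k, j k = i
      · obtain ⟨k, rfl⟩ := hi
        simp only [hj.extend_apply]; exact hz (mem_range_self k)
      · simp only [Function.extend_apply' _ _ _ hi]; exact hz₀
    · show ∑ i, Function.extend j w 0 i • Function.extend j z (fun _ => z₀) i = x
      rw [← hwx]
      refine (Fintype.sum_of_injective j hj _ _ (fun i hi => ?_) fun k => ?_).symm
      · simp [Function.extend_apply' w _ _ (by simpa using hi : ¬ ∃ k, j k = i)]
      · simp [hj.extend_apply]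
  · rintro ⟨⟨w, z⟩, ⟨⟨hw0, hw1⟩, hz⟩, rfl⟩
    exact mem_convexHull_of_exists_fintype w z hw0 hw1 (fun i => hz i (mem_univ i)) rfl

lemma inner_eq_sum (x y : (EuclideanSpace ℝ (Fin n))) : ⟪x, y⟫ = ∑ i, x i * y i := by
  simp [PiLp.inner_apply, mul_comm]

/-- The unit ball is a maximal inscribed ellipsoid, so contact points decompose the identity. -/
theorem contacts_of_maximal {K : Set (EuclideanSpace ℝ (Fin n))} (hK : IsCompact K) (hc : Convex ℝ K)
    (hs : ∀ x ∈ K, -x ∈ K) (hball : closedBall (0 : (EuclideanSpace ℝ (Fin n))) 1 ⊆ K)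
    (hmax : ∀ P : (EuclideanSpace ℝ (Fin n)) →L[ℝ] (EuclideanSpace ℝ (Fin n)), MapsTo P (closedBall 0 1) K → |P.det| ≤ 1) :
    ∃ (ι : Type) (_ : Fintype ι) (c : ι → ℝ) (u : ι → (EuclideanSpace ℝ (Fin n))), (∀ i, 0 ≤ c i) ∧ (∀ i, ‖u i‖ = 1) ∧
      (∀ i, ∀ x ∈ K, ⟪x, u i⟫ ≤ 1) ∧ ∀ x, ∑ i, c i * ⟪x, u i⟫ ^ 2 = ‖x‖ ^ 2 := by
  rcases Nat.eq_zero_or_pos n with rfl | hn
  · refine ⟨PEmpty, inferInstance, fun i => i.elim, fun i => i.elim, fun i => i.elim,
      fun i => i.elim, fun i => i.elim, fun x => ?_⟩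
    simp [Subsingleton.elim x 0]
  have hn' : (0:ℝ) < n := Nat.cast_pos.2 hn
  let C : Set (EuclideanSpace ℝ (Fin n)) := sphere 0 1 ∩ ⋂ x ∈ K, {u | ⟪x, u⟫ ≤ 1}
  have hC : IsCompact C := (isCompact_sphere 0 1).inter_right
    (isClosed_biInter fun x _ => isClosed_le (by fun_prop) continuous_const)
  let q : (EuclideanSpace ℝ (Fin n)) → (Fin n → Fin n → ℝ) := fun u i j => u i * u j
  let P₀ : Fin n → Fin n → ℝ := fun i j => if i = j then (n:ℝ)⁻¹ else 0
  by_cases hP : P₀ ∈ convexHull ℝ (q '' C)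
  · obtain ⟨ι, fι, a, z, ha0, ha1, hz, hzP⟩ := mem_convexHull_iff_exists_fintype.1 hP
    choose u hu hue using hz
    refine ⟨ι, fι, fun t => n * a t, u, fun t => mul_nonneg hn'.le (ha0 t),
      fun t => mem_sphere_zero_iff_norm.1 (hu t).1,
      fun t x hx => mem_iInter₂.1 (hu t).2 x hx, fun x => ?_⟩
    have e : ∀ i j, ∑ t, a t * (u t i * u t j) = P₀ i j := by
      intro i j
      have h1 := congrFun (congrFun hzP i) j
      simp only [Finset.sum_apply, Pi.smul_apply, smul_eq_mul, ← hue, q] at h1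
      exact h1
    calc ∑ t, n * a t * ⟪x, u t⟫ ^ 2
        = ∑ i, ∑ j, n * (x i * x j) * ∑ t, a t * (u t i * u t j) := by
          have h2 : ∀ t, n * a t * ⟪x, u t⟫ ^ 2
              = ∑ i, ∑ j, n * (x i * x j) * (a t * (u t i * u t j)) := by
            intro t
            rw [sq, inner_eq_sum, Finset.sum_mul_sum, Finset.mul_sum]
            refine Finset.sum_congr rfl fun i _ => ?_
            rw [Finset.mul_sum]
            exact Finset.sum_congr rfl fun j _ => by ring
          simp only [h2, Finset.mul_sum]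
          rw [Finset.sum_comm]
          exact Finset.sum_congr rfl fun i _ => Finset.sum_comm
      _ = ‖x‖ ^ 2 := by
          simp only [e, P₀, mul_ite, mul_zero, Finset.sum_ite_eq, Finset.mem_univ, if_true]
          rw [← real_inner_self_eq_norm_sq, inner_eq_sum]
          exact Finset.sum_congr rfl fun i _ => by field_simp
  exfalso
  obtain ⟨φ, s, hφs, hφP⟩ := geometric_hahn_banach_closed_point (convex_convexHull ℝ _)
    (isCompact_convexHull_of_compact (hC.image (f := q) (by fun_prop))).isClosed hP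
  let c : Fin n → Fin n → ℝ := fun i j => φ (Pi.single i (Pi.single j 1))
  have hφ : ∀ A : Fin n → Fin n → ℝ, φ A = ∑ i, ∑ j, A i j * c i j := by
    intro A
    have e : A = ∑ i, ∑ j, A i j • (Pi.single i (Pi.single j (1:ℝ)) : Fin n → Fin n → ℝ) := by
      ext a b
      simp [Pi.single_apply, Finset.sum_apply, ite_apply, mul_ite, Finset.sum_ite_eq]
    conv_lhs => rw [e]
    simp [map_sum, map_smul, c]
  let H : Matrix (Fin n) (Fin n) ℝ :=
    Matrix.of fun i j => (c i j + c j i) / 2 - if i = j then s else 0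
  let Hc : (EuclideanSpace ℝ (Fin n)) →L[ℝ] (EuclideanSpace ℝ (Fin n)) := Matrix.toEuclideanCLM (𝕜 := ℝ) H
  have hquad : ∀ x y : (EuclideanSpace ℝ (Fin n)), ⟪x, Hc y⟫ = ∑ i, ∑ j, x i * H i j * y j := by
    intro x y
    rw [Matrix.inner_toEuclideanCLM]
    simp [dotProduct, Matrix.mulVec, Finset.mul_sum, mul_assoc]
  have hsymm : ∀ x y : (EuclideanSpace ℝ (Fin n)), ⟪x, Hc y⟫ = ⟪Hc x, y⟫ := by
    intro x y
    rw [real_inner_comm y (Hc x), hquad, hquad, Finset.sum_comm]
    refine Finset.sum_congr rfl fun i _ => Finset.sum_congr rfl fun j _ => ?_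
    simp only [H, Matrix.of_apply]
    by_cases h : i = j
    · subst h; ring
    · rw [if_neg h, if_neg (Ne.symm h)]; ring
  have hHC : ∀ u ∈ C, ⟪u, Hc u⟫ < 0 := by
    intro u hu
    have h := hφs _ (subset_convexHull ℝ _ ⟨u, hu, rfl⟩)
    rw [hφ] at h
    have h1 : ⟪u, u⟫ = 1 := by
      rw [real_inner_self_eq_norm_sq, mem_sphere_zero_iff_norm.1 hu.1, one_pow]
    rw [inner_eq_sum] at h1
    have hsw : ∑ i, ∑ j, u i * c j i * u j = ∑ i, ∑ j, q u i j * c i j := by
      rw [Finset.sum_comm]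
      exact Finset.sum_congr rfl fun i _ => Finset.sum_congr rfl fun j _ => by simp only [q]; ring
    have e : ⟪u, Hc u⟫ = (∑ i, ∑ j, q u i j * c i j) - s := by
      rw [hquad]
      have : ∀ i j, u i * H i j * u j = (1/2) * (u i * u j * c i j) + (1/2) * (u i * c j i * u j)
          - if i = j then s * (u i * u i) else 0 := by
        intro i j
        simp only [H, Matrix.of_apply]
        split_ifs with h
        · subst h; ring
        · ring
      simp only [this, Finset.sum_sub_distrib, Finset.sum_add_distrib, ← Finset.mul_sum, hsw,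
        Finset.sum_ite_eq, Finset.mem_univ, if_true, h1, mul_one]
      simp only [q]; ring
    rw [e]; linarith
  have htr : 0 < H.trace := by
    rw [hφ] at hφP
    simp only [P₀, ite_mul, zero_mul, Finset.sum_ite_eq, Finset.mem_univ, if_true,
      ← Finset.mul_sum] at hφP
    have : H.trace = ∑ i, c i i - n * s := by
      simp [Matrix.trace, Matrix.diag, H, Finset.sum_sub_distrib]
    rw [this]
    have := mul_lt_mul_of_pos_left hφP hn'
    rw [mul_inv_cancel_left₀ hn'.ne'] at this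
    linarith
  let e : ℕ → ℝ := fun k => 1 / ((k:ℝ) + 1)
  have he : Tendsto e atTop (𝓝 0) := tendsto_one_div_add_atTop_nhds_zero_nat
  have hepos : ∀ k, 0 < e k := fun k => by simp only [e]; positivity
  have hbig : ∀ᶠ k in atTop, 1 < (1 + e k • Hc).det := by
    have hdet : ∀ r : ℝ, (1 + r • Hc).det = (1 + r • H).det := by
      intro r
      have : (1 + r • Hc) = Matrix.toEuclideanCLM (𝕜 := ℝ) (1 + r • H) := by simp [Hc]
      rw [this]
      show LinearMap.det _ = _
      rw [Matrix.coe_toEuclideanCLM_eq_toEuclideanLin]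
      exact (congrArg (fun f => LinearMap.det (f (1 + r • H)))
        (Matrix.toLpLin_eq_toLin (R := ℝ) 2 2)).trans (LinearMap.det_toLin _ _)
    let R : ℝ → ℝ := fun r => H.trace +
      (Matrix.det (1 + (Polynomial.X : Polynomial ℝ) • H.map Polynomial.C)).divX.divX.eval r * r
    have hR : Tendsto R (𝓝 0) (𝓝 H.trace) := by
      have hcR : Continuous R := by fun_prop
      simpa [R] using hcR.tendsto 0
    filter_upwards [(hR.comp he).eventually (eventually_gt_nhds htr)] with k hk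
    rw [hdet, Matrix.det_one_add_smul]
    have := mul_pos (hepos k) hk
    simp only [R, Function.comp_apply] at this
    nlinarith
  have hfail : ∀ᶠ k in atTop, ∃ u : (EuclideanSpace ℝ (Fin n)), ‖u‖ = 1 ∧ 1 < ‖u + e k • Hc u‖ ∧
      ∀ x ∈ K, ⟪x, u⟫ ≤ ‖u + e k • Hc u‖ := by
    filter_upwards [hbig] with k hk
    have hnot : ¬ MapsTo (1 + e k • Hc : (EuclideanSpace ℝ (Fin n)) →L[ℝ] (EuclideanSpace ℝ (Fin n))) (closedBall 0 1) K := fun h =>
      absurd (hmax _ h) (not_le.2 (lt_of_lt_of_le hk (le_abs_self _)))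
    simp only [MapsTo, not_forall] at hnot
    obtain ⟨z, hz, hzK⟩ := hnot
    obtain ⟨f, s', hfs, hfz⟩ := geometric_hahn_banach_closed_point hc hK.isClosed hzK
    set a := (InnerProductSpace.toDual ℝ (EuclideanSpace ℝ (Fin n))).symm f with hadef
    have hf : ∀ x, f x = ⟪a, x⟫ := fun x => (InnerProductSpace.toDual_symm_apply).symm
    simp only [hf] at hfs hfz
    have hs0 : 0 < s' := by simpa using hfs 0 (hball (by simp))
    have ha : a ≠ 0 := by
      intro h0; rw [h0, inner_zero_left] at hfz; linarith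
    have hapos : 0 < ‖a‖ := norm_pos_iff.2 ha
    refine ⟨‖a‖⁻¹ • a, ?_⟩
    have hu : ‖‖a‖⁻¹ • a‖ = 1 := norm_smul_inv_norm ha
    have h1 : ‖a‖ < s' := by
      have := hfs _ (hball (mem_closedBall_zero_iff.2 hu.le))
      rwa [real_inner_smul_right, real_inner_self_eq_norm_sq, sq, inv_mul_cancel_left₀ hapos.ne'] at this
    have h2 : s' / ‖a‖ < ‖‖a‖⁻¹ • a + e k • Hc (‖a‖⁻¹ • a)‖ := by
      rw [div_lt_iff₀ hapos]
      refine hfz.trans_le ?_
      have e1 : ⟪a, (1 + e k • Hc : (EuclideanSpace ℝ (Fin n)) →L[ℝ] (EuclideanSpace ℝ (Fin n))) z⟫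
          = ‖a‖ * ⟪‖a‖⁻¹ • a + e k • Hc (‖a‖⁻¹ • a), z⟫ := by
        simp only [add_apply, one_apply_eq_self, FunLike.coe_smul, Pi.smul_apply,
          inner_add_left, inner_add_right, real_inner_smul_left, real_inner_smul_right, map_smul,
          hsymm a z]
        field_simp
      rw [e1, mul_comm _ ‖a‖]
      refine mul_le_mul_of_nonneg_left ?_ (norm_nonneg _)
      refine (real_inner_le_norm _ _).trans ?_
      exact mul_le_of_le_one_right (norm_nonneg _) (mem_closedBall_zero_iff.1 hz)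
    refine ⟨hu, ?_, fun x hx => ?_⟩
    · exact lt_trans (by rw [lt_div_iff₀ hapos, one_mul]; exact h1) h2
    · rw [real_inner_smul_right, real_inner_comm]
      refine le_trans ?_ h2.le
      rw [inv_mul_eq_div]
      exact div_le_div_of_nonneg_right (hfs x hx).le hapos.le
  obtain ⟨g, hg, hg1⟩ := extraction_of_eventually_atTop hfail
  choose uu huu1 huu2 huu3 using hg1
  obtain ⟨u, hu, g2, hg2, hlim⟩ := (isCompact_sphere (0:(EuclideanSpace ℝ (Fin n))) 1).tendsto_subseq
    (x := uu) fun k => mem_sphere_zero_iff_norm.2 (huu1 k)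
  have he' : Tendsto (fun k => e (g (g2 k))) atTop (𝓝 0) :=
    he.comp ((hg.comp hg2).tendsto_atTop)
  have huC : u ∈ C := by
    refine ⟨hu, mem_iInter₂.2 fun x hx => ?_⟩
    have hc2 : Continuous fun p : (EuclideanSpace ℝ (Fin n)) × ℝ => ‖p.1 + p.2 • Hc p.1‖ := by fun_prop
    have l1 := ((by fun_prop : Continuous fun v : (EuclideanSpace ℝ (Fin n)) => ⟪x, v⟫).tendsto u).comp hlim
    have l2 := (hc2.tendsto (u, 0)).comp (hlim.prodMk_nhds he')
    have := le_of_tendsto_of_tendsto' l1 l2 fun k => huu3 (g2 k) x hx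
    simpa [mem_sphere_zero_iff_norm.1 hu] using this
  have hq : ∀ k, 0 ≤ 2 * ⟪uu (g2 k), Hc (uu (g2 k))⟫ + e (g (g2 k)) * ‖Hc (uu (g2 k))‖ ^ 2 := by
    intro k
    have h := huu2 (g2 k)
    have h' : 1 < ‖uu (g2 k) + e (g (g2 k)) • Hc (uu (g2 k))‖ ^ 2 := one_lt_pow₀ h (by norm_num)
    rw [norm_add_sq_real, huu1, real_inner_smul_right, norm_smul, Real.norm_of_nonneg (hepos _).le] at h'
    by_contra hneg
    nlinarith [mul_neg_of_pos_of_neg (hepos (g (g2 k))) (not_le.1 hneg)]
  have hc3 : Continuous fun p : (EuclideanSpace ℝ (Fin n)) × ℝ => 2 * ⟪p.1, Hc p.1⟫ + p.2 * ‖Hc p.1‖ ^ 2 := by fun_prop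
  have := ge_of_tendsto' ((hc3.tendsto (u, 0)).comp (hlim.prodMk_nhds he')) hq
  simp only [zero_mul, add_zero] at this
  linarith [hHC u huC]

/-- A symmetric convex body has a linear image in John position. -/
theorem exists_john {K : Set (EuclideanSpace ℝ (Fin n))} (hK : IsCompact K) (hc : Convex ℝ K)
    (hs : ∀ x ∈ K, -x ∈ K) (hi : (interior K).Nonempty) :
    ∃ T : (EuclideanSpace ℝ (Fin n)) ≃L[ℝ] (EuclideanSpace ℝ (Fin n)), closedBall (0 : (EuclideanSpace ℝ (Fin n))) 1 ⊆ T '' K ∧ T '' K ⊆ closedBall 0 (Real.sqrt n) ∧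
      ∃ (ι : Type) (_ : Fintype ι) (c : ι → ℝ) (u : ι → (EuclideanSpace ℝ (Fin n))), (∀ i, 0 ≤ c i) ∧
        ∑ i, c i = n ∧ (∀ i, ‖u i‖ = 1) ∧ (∀ i, ∀ x ∈ T '' K, ⟪x, u i⟫ ≤ 1) ∧
        ∀ x, ∑ i, c i * ⟪x, u i⟫ ^ 2 = ‖x‖ ^ 2 := by
  obtain ⟨r, hr, hrK⟩ := nhds_basis_closedBall.mem_iff.1
    (mem_interior_iff_mem_nhds.1 (zero_mem_interior_of_symm hc hs hi))
  let A : Set ((EuclideanSpace ℝ (Fin n)) →L[ℝ] (EuclideanSpace ℝ (Fin n))) := {L | MapsTo L (closedBall 0 1) K}
  have hAc : IsClosed A := by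
    have e : A = ⋂ y ∈ closedBall (0:(EuclideanSpace ℝ (Fin n))) 1, (fun L : (EuclideanSpace ℝ (Fin n)) →L[ℝ] (EuclideanSpace ℝ (Fin n)) => L y) ⁻¹' K := by
      ext L; simp [A, MapsTo]
    rw [e]
    exact isClosed_biInter fun y _ => hK.isClosed.preimage (by fun_prop)
  obtain ⟨R, hR⟩ := hK.isBounded.exists_norm_le
  have hR0 : 0 ≤ R := le_trans (norm_nonneg (0:(EuclideanSpace ℝ (Fin n)))) (hR 0 (hrK (by simp [hr.le])))
  have hA : IsCompact A := by
    refine (isCompact_closedBall (0 : (EuclideanSpace ℝ (Fin n)) →L[ℝ] (EuclideanSpace ℝ (Fin n))) R).of_isClosed_subset hAc fun L hL => ?_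
    rw [mem_closedBall_zero_iff]
    exact L.opNorm_le_of_unit_norm hR0 fun x hx => hR _ (hL (by simp [hx]))
  have hrA : r • (1 : (EuclideanSpace ℝ (Fin n)) →L[ℝ] (EuclideanSpace ℝ (Fin n))) ∈ A := fun y hy => hrK (by
    simpa [norm_smul, Real.norm_of_nonneg hr.le] using
      mul_le_of_le_one_right hr.le (mem_closedBall_zero_iff.1 hy))
  obtain ⟨L, hL, hmax⟩ := hA.exists_isMaxOn ⟨_, hrA⟩
    (ContinuousLinearMap.continuous_det.abs).continuousOn
  have hLdet : L.det ≠ 0 := by
    intro h0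
    have : |(r • (1 : (EuclideanSpace ℝ (Fin n)) →L[ℝ] (EuclideanSpace ℝ (Fin n)))).det| ≤ |L.det| := hmax hrA
    rw [h0, abs_zero] at this
    have e : (r • (1 : (EuclideanSpace ℝ (Fin n)) →L[ℝ] (EuclideanSpace ℝ (Fin n)))).det = r ^ n := by
      show LinearMap.det (r • (LinearMap.id : (EuclideanSpace ℝ (Fin n)) →ₗ[ℝ] (EuclideanSpace ℝ (Fin n)))) = _
      simp
    rw [e] at this
    exact absurd this (not_le.2 (abs_pos.2 (pow_ne_zero _ hr.ne')))
  let Le : (EuclideanSpace ℝ (Fin n)) ≃L[ℝ] (EuclideanSpace ℝ (Fin n)) := L.toContinuousLinearEquivOfDetNeZero hLdet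
  have hLe : ∀ x, Le x = L x := fun x =>
    L.toContinuousLinearEquivOfDetNeZero_apply hLdet x
  set K' : Set (EuclideanSpace ℝ (Fin n)) := Le.symm '' K with hK'
  have hmem : ∀ y, y ∈ K' ↔ L y ∈ K := by
    intro y
    constructor
    · rintro ⟨x, hx, rfl⟩; rw [← hLe, Le.apply_symm_apply]; exact hx
    · exact fun h => ⟨L y, h, by rw [← hLe, Le.symm_apply_apply]⟩
  have hball : closedBall (0 : (EuclideanSpace ℝ (Fin n))) 1 ⊆ K' := fun y hy => (hmem y).2 (hL hy)
  obtain ⟨ι, fι, c, u, hc0, hu, hcon, hid⟩ := contacts_of_maximal (hK.image Le.symm.continuous)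
    (hc.linear_image (Le.symm.toLinearEquiv : (EuclideanSpace ℝ (Fin n)) →ₗ[ℝ] (EuclideanSpace ℝ (Fin n))))
    (fun y hy => (hmem _).2 (by rw [map_neg]; exact hs _ ((hmem y).1 hy))) hball
    (fun P hP => by
      have hLP : L * P ∈ A := fun y hy => (hmem _).1 (hP hy)
      have h : |(L * P).det| ≤ |L.det| := hmax hLP
      have e : (L * P).det = L.det * P.det := map_mul LinearMap.det (L : (EuclideanSpace ℝ (Fin n)) →ₗ[ℝ] (EuclideanSpace ℝ (Fin n))) P
      rw [e, abs_mul] at h
      exact (mul_le_iff_le_one_right (abs_pos.2 hLdet)).1 h)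
  have hsum : ∑ i, c i = n := by
    let b := EuclideanSpace.basisFun (Fin n) ℝ
    calc ∑ i, c i = ∑ i, c i * ∑ j, ⟪b j, u i⟫ ^ 2 := by
          refine Finset.sum_congr rfl fun i _ => ?_
          have : ∑ j, ⟪b j, u i⟫ ^ 2 = ‖u i‖ ^ 2 := by
            rw [← b.sum_sq_norm_inner_right]; simp
          rw [this, hu, one_pow, mul_one]
      _ = ∑ j, ‖b j‖ ^ 2 := by
          simp only [Finset.mul_sum]
          rw [Finset.sum_comm]
          exact Finset.sum_congr rfl fun j _ => hid (b j)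
      _ = n := by simp [b.orthonormal.1]
  refine ⟨Le.symm, hball, fun y hy => ?_, ι, fι, c, u, hc0, hsum, hu, hcon, hid⟩
  rw [mem_closedBall_zero_iff]
  refine Real.le_sqrt_of_sq_le ?_
  rw [← hid y, ← hsum]
  refine Finset.sum_le_sum fun i _ => ?_
  have h1 := hcon i y hy
  have h2 := hcon i (-y) ((hmem _).2 (by rw [map_neg]; exact hs _ ((hmem y).1 hy)))
  rw [inner_neg_left] at h2
  have : ⟪y, u i⟫ ^ 2 ≤ 1 := by nlinarith
  nlinarith [hc0 i]

/-- John position in the form required by the Petty argument. -/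
theorem johnSpec : JohnSpec := by
  intro n K _ hK
  obtain ⟨T, hT, -, ι, _, c, u, hc, -, hu, hcon, hid⟩ :=
    exists_john hK.compact hK.convex hK.neg_mem hK.interior_nonempty
  let e := (Fintype.equivFin ι).symm
  refine ⟨T, Fintype.card ι, u ∘ e, c ∘ e, hT, fun i => hc _, fun i => hu _,
    fun i => hcon (e i), fun x => ?_⟩
  rw [← hid x]
  exact e.sum_comp fun i => c i * ⟪x, u i⟫ ^ 2

end Vale.Agent.P237
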