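import Vale.Agent.P237.Basics

/-!
# P237: the class reduction `R (ΠK) ≤ R K`, with its equality case
-/

namespace Vale.Agent.P237

open MeasureTheory Set Filter Topology
open scoped Pointwise RealInnerProductSpace ENNReal

variable {n : ℕ}

/-- The specifications needed for the class reduction. -/
structure DualityHyps : Prop where
  bm : BMSpec
  bmEq : BMEqSpec
  basic : PvBasicSpec
  projBody : ProjBodySpec
  rep : PvRepSpec
  zonVar : ZonVarSpec
  zonEuler : ZonEulerSpec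

lemma zon_eq_projBody {K : Set (E n)} {μ : Measure (E n)}
    (hμ : ∀ v, pv K v = (1 / 2) * ∫ w, |⟪v, w⟫| ∂μ) : zon μ = projBody K := by
  ext y
  simp [zon, projBody, hμ]

lemma integrable_absInner {μ ν : Measure (E n)} [IsFiniteMeasure μ] [IsFiniteMeasure ν] {r s : ℝ}
    (hr : ∀ᵐ w ∂μ, ‖w‖ ≤ r) (hs : ∀ᵐ w ∂ν, ‖w‖ ≤ s) :
    Integrable (fun p : E n × E n => |⟪p.1, p.2⟫|) (μ.prod ν) := by
  refine (integrable_const (|r| * |s|)).mono' (by fun_prop) ?_
  have h1 := (Measure.quasiMeasurePreserving_fst (μ := μ) (ν := ν)).ae hr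
  have h2 := (Measure.quasiMeasurePreserving_snd (μ := μ) (ν := ν)).ae hs
  filter_upwards [h1, h2] with p hp hq
  rw [Real.norm_eq_abs, abs_abs]
  exact (abs_real_inner_le_norm _ _).trans
    (mul_le_mul (hp.trans (le_abs_self r)) (hq.trans (le_abs_self s)) (norm_nonneg _)
      (abs_nonneg r))

/-- `∫ pv K dμ_{ΠK} = n |ΠK|`, in the form of a one-sided derivative. -/
lemma tendsto_var (H : DualityHyps) (hn : 2 ≤ n) {K : Set (E n)} (hK : Body K) :
    Tendsto (fun ε => (vol (K + ε • projBody (projBody K)) - vol K) / ε) (𝓝[>] (0 : ℝ))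
      (𝓝 (n * vol (projBody K))) := by
  obtain ⟨hZ, -⟩ := H.projBody n K hn hK
  obtain ⟨hL, -⟩ := H.projBody n _ hn hZ.toBody
  obtain ⟨μ, hμf, ⟨r, hr⟩, hμ⟩ := H.rep n K hn hK
  obtain ⟨ν, hνf, ⟨s, hs⟩, hν⟩ := H.rep n _ hn hZ.toBody
  have hzμ := zon_eq_projBody hμ
  have hzν := zon_eq_projBody hν
  have he := H.zonEuler n μ hn hμf ⟨r, hr⟩ (hzμ ▸ hZ.toBody)
  rw [hzμ] at he
  have hlim := H.zonVar n K ν hn hK hνf ⟨s, hs⟩ (hzν ▸ hL.toBody)
  rw [hzν] at hlim
  suffices h : ∫ w, pv K w ∂ν = ∫ w, pv (Vale.Agent.P237.projBody K) w ∂μ by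
    rwa [h, he] at hlim
  simp only [hμ, hν, integral_const_mul]
  congr 1
  rw [integral_integral_swap (integrable_absInner hs hr)]
  simp only [real_inner_comm]

lemma pow_add_ge {a h : ℝ} (ha : 0 < a) (hh : 0 ≤ h) (m : ℕ) :
    a ^ m + m * a ^ (m - 1) * h ≤ (a + h) ^ m := by
  have h1 := one_add_mul_le_pow (a := h / a) (by have := div_nonneg hh ha.le; linarith) m
  have h2 := mul_le_mul_of_nonneg_left h1 (pow_nonneg ha.le m)
  rw [← mul_pow, mul_one_add, mul_one_add, mul_div_cancel₀ _ ha.ne'] at h2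
  rcases m with _ | m
  · simp
  · rw [Nat.add_sub_cancel]
    refine le_trans (le_of_eq ?_) h2
    rw [pow_succ]
    field_simp

lemma rpow_pow_inv {x : ℝ} (hx : 0 ≤ x) (hn : 1 ≤ n) : (x ^ (1 / (n : ℝ))) ^ n = x := by
  rw [one_div]
  exact Real.rpow_inv_natCast_pow hx (by omega)

lemma rpow_mul_pow {x t : ℝ} (hx : 0 ≤ x) (ht : 0 ≤ t) (hn : 1 ≤ n) :
    (t ^ n * x) ^ (1 / (n : ℝ)) = t * x ^ (1 / (n : ℝ)) := by
  rw [Real.mul_rpow (pow_nonneg ht _) hx, one_div, Real.pow_rpow_inv_natCast ht (by omega)]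

lemma vol_smul_root (hn : 1 ≤ n) {t : ℝ} (ht : 0 ≤ t) (L : Set (E n)) :
    vol (t • L) ^ (1 / (n : ℝ)) = t * vol L ^ (1 / (n : ℝ)) := by
  rw [vol_smul, abs_of_nonneg ht, rpow_mul_pow (vol_nonneg L) ht hn]

/-- Minkowski's first inequality for `K` and `ΠΠK`, with its equality case. -/
lemma minkowski (H : DualityHyps) (hn : 2 ≤ n) {K : Set (E n)} (hK : Body K) :
    vol K ^ (n - 1) * vol (projBody (projBody K)) ≤ vol (projBody K) ^ n ∧
    (vol (projBody K) ^ n ≤ vol K ^ (n - 1) * vol (projBody (projBody K)) →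
      ∃ a : E n, K = a +ᵥ (vol K / vol (projBody K)) • projBody (projBody K)) := by
  obtain ⟨hZ, -⟩ := H.projBody n K hn hK
  obtain ⟨hL, -⟩ := H.projBody n _ hn hZ.toBody
  set L := projBody (projBody K) with hLd
  set Z := vol (projBody K) with hZd
  set a := vol K ^ (1 / (n : ℝ)) with had
  set b := vol L ^ (1 / (n : ℝ)) with hbd
  set c := vol (K + L) ^ (1 / (n : ℝ)) with hcd
  have hn1 : 1 ≤ n := by omega
  have hn0 : (0 : ℝ) < n := by exact_mod_cast (show 0 < n by omega)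
  have ha : 0 < a := Real.rpow_pos_of_pos hK.vol_pos _
  have hb : 0 < b := Real.rpow_pos_of_pos hL.toBody.vol_pos _
  have han : a ^ n = vol K := rpow_pow_inv (vol_nonneg _) hn1
  have hbn : b ^ n = vol L := rpow_pow_inv (vol_nonneg _) hn1
  have hcpt : IsCompact (K + L) := hK.compact.add hL.toBody.compact
  have hab : a + b ≤ c := H.bm n K L (by omega) hK.convex hK.compact hK.nonempty
    hL.toBody.convex hL.toBody.compact hL.toBody.nonempty
  have step : ∀ ε ∈ Ioo (0 : ℝ) 1, n * a ^ (n - 1) * (c - a) ≤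
      (vol (K + ε • L) - vol K) / ε := by
    rintro ε ⟨h0, h1⟩
    have e : (1 - ε) • K + ε • (K + L) = K + ε • L := by
      rw [smul_add, ← add_assoc, ← hK.convex.add_smul (by linarith) h0.le]
      norm_num
    have h2 := H.bm n ((1 - ε) • K) (ε • (K + L)) (by omega) (hK.convex.smul _)
      (hK.compact.smul _) hK.nonempty.smul_set ((hK.convex.add hL.toBody.convex).smul _)
      (hcpt.smul _) (hK.nonempty.add hL.toBody.nonempty).smul_set
    rw [e, vol_smul_root hn1 (by linarith), vol_smul_root hn1 h0.le] at h2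
    have h3 : a + ε * (c - a) ≤ vol (K + ε • L) ^ (1 / (n : ℝ)) := by
      refine le_trans (le_of_eq ?_) h2
      ring
    have h4 := pow_le_pow_left₀ (by nlinarith) h3 n
    rw [rpow_pow_inv (vol_nonneg _) hn1] at h4
    have h5 := (pow_add_ge ha (by nlinarith : 0 ≤ ε * (c - a)) n).trans h4
    rw [han] at h5
    rw [le_div_iff₀ h0]
    nlinarith
  have hD : n * a ^ (n - 1) * (c - a) ≤ n * Z := by
    refine ge_of_tendsto (tendsto_var H hn hK) ?_
    filter_upwards [Ioo_mem_nhdsGT (zero_lt_one' ℝ)] with ε hε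
    exact step ε hε
  have hD' : a ^ (n - 1) * (c - a) ≤ Z :=
    le_of_mul_le_mul_left (by linarith) hn0
  have hab' : a ^ (n - 1) * b ≤ Z :=
    le_trans (mul_le_mul_of_nonneg_left (by linarith) (pow_nonneg ha.le _)) hD'
  have hpow : (a ^ (n - 1) * b) ^ n = vol K ^ (n - 1) * vol L := by
    rw [mul_pow, ← pow_mul, mul_comm (n - 1), pow_mul, han, hbn]
  refine ⟨hpow ▸ pow_le_pow_left₀ (by positivity) hab' n, fun heq => ?_⟩
  have hZe : Z = a ^ (n - 1) * b :=
    le_antisymm (le_of_pow_le_pow_left₀ (by omega) (by positivity) (hpow ▸ heq)) hab'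
  have hca : c = a + b := by
    refine le_antisymm ?_ hab
    have := le_of_mul_le_mul_left (hZe ▸ hD') (pow_pos ha (n - 1))
    linarith
  obtain ⟨x, t, ht, hKe⟩ := H.bmEq n K L hn hK hL.toBody hca
  refine ⟨x, ?_⟩
  have hat : a = t * b := by rw [had, hKe, vol_vadd, vol_smul_root hn1 ht.le]
  have hti : vol K / Z = t := by
    have h : a ^ n = a ^ (n - 1) * a := by
      rw [← pow_succ]; congr 1; omega
    rw [hZe, ← han, h, mul_div_mul_left _ _ (pow_pos ha (n - 1)).ne', hat,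
      mul_div_assoc, div_self hb.ne', mul_one]
  rwa [hti]

/-- The class reduction. -/
lemma R_projBody_le (H : DualityHyps) (hn : 2 ≤ n) {K : Set (E n)} (hK : Body K) :
    R (projBody K) ≤ R K := by
  have hZ := (H.projBody n K hn hK).1.toBody.vol_pos
  have h := (minkowski H hn hK).1
  rw [R, R, div_le_div_iff₀ (pow_pos hZ _) (pow_pos hK.vol_pos _)]
  calc vol (projBody (projBody K)) * vol K ^ (n - 1) ≤ vol (projBody K) ^ n := by linarith
    _ = vol (projBody K) * vol (projBody K) ^ (n - 1) := by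
      rw [← pow_succ']; congr 1; omega

/-- If `R` does not drop, then `K` is a translate of a multiple of `ΠΠK`. -/
lemma eq_of_R_le (H : DualityHyps) (hn : 2 ≤ n) {K : Set (E n)} (hK : Body K)
    (h : R K ≤ R (projBody K)) :
    ∃ a : E n, K = a +ᵥ (vol K / vol (projBody K)) • projBody (projBody K) := by
  refine (minkowski H hn hK).2 ?_
  have hZ := (H.projBody n K hn hK).1.toBody.vol_pos
  rw [R, R, div_le_div_iff₀ (pow_pos hK.vol_pos _) (pow_pos hZ _), ← pow_succ',
    show n - 1 + 1 = n by omega] at h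
  linarith

/-- A symmetric body at which `R` does not drop satisfies `h_{ΠΠK} = (|ΠK|/|K|) h_K`. -/
lemma pv_proj_le_of_R_le (H : DualityHyps) (hn : 2 ≤ n) {K : Set (E n)} (hK : SymBody K)
    (h : R K ≤ R (projBody K)) {u : E n} {s : ℝ} (hu : ∀ x ∈ K, ⟪x, u⟫ ≤ s) :
    pv (projBody K) u ≤ vol (projBody K) / vol K * s := by
  obtain ⟨a, ha⟩ := eq_of_R_le H hn hK.toBody h
  set c := vol K / vol (projBody K) with hc
  have hZ := (H.projBody n K hn hK.toBody).1
  have hc0 : 0 < c := div_pos hK.toBody.vol_pos hZ.toBody.vol_pos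
  obtain ⟨hL, hsup⟩ := H.projBody n _ hn hZ.toBody
  obtain ⟨y, hy, hyu⟩ := (hsup u).1
  have h1 : a + c • y ∈ K := by rw [ha]; exact ⟨c • y, ⟨y, hy, rfl⟩, rfl⟩
  have h2 : -(a + c • -y) ∈ K := by
    refine hK.neg_mem _ ?_
    rw [ha]
    exact ⟨c • -y, ⟨-y, hL.neg_mem y hy, rfl⟩, rfl⟩
  have i1 := hu _ h1
  have i2 := hu _ h2
  simp only [smul_neg, inner_neg_left, inner_add_left, real_inner_smul_left] at i1 i2
  have : pv (projBody K) u * c ≤ s := by
    simp only at hyu
    rw [hyu] at i1 i2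
    nlinarith
  rw [show vol (projBody K) / vol K = 1 / c by rw [hc, one_div_div], one_div,
    ← div_eq_inv_mul, le_div_iff₀ hc0]
  exact this

end Vale.Agent.P237
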