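import Vale.Agent.P237.SliceGen
import Vale.Agent.P237.Duality
import Vale.Agent.P237.JohnPos

/-!
# P237: sections orthogonal to an arbitrary vector

The statements of `SliceGen` with the ball replaced by `u ∈ K` and `0` interior, and the slicing
bound for a vector `u` with `h_K(u) = 1`, after a shear and a dilation.
-/

namespace Vale.Agent.P237

open MeasureTheory Set Filter Topology
open scoped Pointwise RealInnerProductSpace ENNReal

namespace SliceTop

open SliceGen (sect vol_sect sect_add_segment isCompact_sect comb_sect convex_sect isometry_sect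
  integrable_sliceVol integral_sliceVol pv_nonneg' exists_sum_body exponent_nonneg)

variable {m : ℕ} {K : Set (E (m + 1))} {u : E (m + 1)}

/-- The standing hypotheses. -/
structure Adm (K : Set (E (m + 1))) (u : E (m + 1)) : Prop where
  body : SymBody K
  norm_u : ‖u‖ = 1
  le_one : ∀ x ∈ K, ⟪x, u⟫ ≤ 1
  top : u ∈ K

variable {e : Perp u ≃ₗᵢ[ℝ] E m}

lemma smul_mem_interior (h : Adm K u) {t : ℝ} (ht : t ∈ Ioo (-1 : ℝ) 1) : t • u ∈ interior K := by
  have h0 : (0 : E (m + 1)) ∈ interior K := zero_mem_interior_of_symm h.body.convex h.body.neg_mem h.body.interior_nonempty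
  rcases le_total 0 t with h1 | h1
  · have := h.body.convex.combo_interior_self_mem_interior h0 h.top
      (show 0 < 1 - t by linarith [ht.2]) h1 (by ring)
    simpa using this
  · have := h.body.convex.combo_interior_self_mem_interior h0 (h.body.neg_mem _ h.top)
      (show 0 < 1 + t by linarith [ht.1]) (show 0 ≤ -t by linarith) (by ring)
    simpa using this

lemma zero_mem_sect (h : Adm K u) (e : Perp u ≃ₗᵢ[ℝ] E m) {t : ℝ} (ht : t ∈ Icc (-1 : ℝ) 1) :
    (0 : E m) ∈ sect e K t := by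
  show t • u + ((e.symm 0 : Perp u) : E (m + 1)) ∈ K
  have := h.body.convex h.top (h.body.neg_mem _ h.top) (show 0 ≤ (1 + t) / 2 by linarith [ht.1])
    (show 0 ≤ (1 - t) / 2 by linarith [ht.2]) (by ring)
  convert this using 1
  simp only [map_zero, Submodule.coe_zero]
  module

lemma body_sect (h : Adm K u) (e : Perp u ≃ₗᵢ[ℝ] E m) {t : ℝ} (ht : t ∈ Ioo (-1 : ℝ) 1) :
    Body (sect e K t) where
  convex := convex_sect h.body.convex t
  compact := isCompact_sect h.body.compact t
  interior_nonempty := ⟨0, (mem_interior_iff_mem_nhds.2 (((isometry_sect e t).continuous.continuousAt (x := (0 : E m)))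
      ((mem_interior_iff_mem_nhds.1 (by simpa using smul_mem_interior h ht)))))⟩

lemma abs_le (h : Adm K u) {x : E (m + 1)} (hx : x ∈ K) : |⟪x, u⟫| ≤ 1 := by
  have := h.le_one (-x) (h.body.neg_mem x hx)
  rw [inner_neg_left] at this
  exact _root_.abs_le.2 ⟨by linarith, h.le_one x hx⟩


lemma smul_mem_sect (h : Adm K u) {δ t τ θ : ℝ} (hδ : 0 < δ)
    (ht : t ∈ Icc (-1 + δ) (1 - δ)) (hτ : τ ∈ Icc (-1 + δ) (1 - δ)) (hθ : 0 ≤ θ)
    (hle : θ ≤ 1 - |t - τ| / δ) : θ • sect e K τ ⊆ sect e K t := by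
  have ht' : t ∈ Icc (-1 : ℝ) 1 := ⟨by linarith [ht.1], by linarith [ht.2]⟩
  -- the largest factor
  obtain ⟨θ₀, s, h0, h1, hs, hts, hθ₀⟩ : ∃ θ₀ s : ℝ, 0 ≤ θ₀ ∧ θ₀ ≤ 1 ∧ s ∈ Icc (-1 : ℝ) 1 ∧
      θ₀ * τ + (1 - θ₀) * s = t ∧ 1 - |t - τ| / δ ≤ θ₀ := by
    rcases le_total τ t with hle' | hle'
    · have hd : 0 < 1 - τ := by linarith [hτ.2]
      refine ⟨(1 - t) / (1 - τ), 1, div_nonneg (by linarith [ht'.2]) hd.le,
        (div_le_one hd).2 (by linarith), by simp, by field_simp; ring, ?_⟩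
      have e1 : (1 - t) / (1 - τ) = 1 - |t - τ| / (1 - τ) := by
        rw [abs_of_nonneg (by linarith)]; field_simp; ring
      rw [e1]
      have := div_le_div_of_nonneg_left (abs_nonneg (t - τ)) hδ
        (show δ ≤ 1 - τ by linarith [hτ.2])
      linarith
    · have hd : 0 < 1 + τ := by linarith [hτ.1]
      refine ⟨(1 + t) / (1 + τ), -1, div_nonneg (by linarith [ht'.1]) hd.le,
        (div_le_one hd).2 (by linarith), by simp, by field_simp; ring, ?_⟩
      have e1 : (1 + t) / (1 + τ) = 1 - |t - τ| / (1 + τ) := by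
        rw [abs_of_nonpos (by linarith)]; field_simp; ring
      rw [e1]
      have := div_le_div_of_nonneg_left (abs_nonneg (t - τ)) hδ
        (show δ ≤ 1 + τ by linarith [hτ.1])
      linarith
  rintro _ ⟨p, hp, rfl⟩
  have hθle : θ ≤ θ₀ := hle.trans hθ₀
  have hbig : θ₀ • p ∈ sect e K t := by
    have := comb_sect (e := e) h.body.convex h0 (sub_nonneg.2 h1) (add_sub_cancel _ _) τ s
      (Set.add_mem_add (smul_mem_smul_set hp) (smul_mem_smul_set (zero_mem_sect h e hs)))
    rwa [smul_zero, add_zero, hts] at this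
  rcases h0.eq_or_lt with h00 | h00
  · have : θ = 0 := le_antisymm (h00 ▸ hθle) hθ
    simp only [this, zero_smul]
    exact zero_mem_sect h e ht'
  · have := (convex_sect (e := e) h.body.convex t).smul_mem_of_zero_mem (zero_mem_sect h e ht')
      hbig ⟨div_nonneg hθ h00.le, (div_le_one h00).2 hθle⟩
    rwa [smul_smul, div_mul_cancel₀ _ h00.ne'] at this


lemma sliceVol_eq_zero (h : Adm K u) {t : ℝ} (ht : t ∉ Icc (-1 : ℝ) 1) : sliceVol K u t = 0 := by
  have : {y : Perp u | t • u + (y : E (m + 1)) ∈ K} = ∅ := by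
    refine eq_empty_iff_forall_notMem.2 fun y hy => ht ?_
    have := abs_le h hy
    rw [show t • u + (y : E (m + 1)) = perpCoord u (t, y) from rfl,
      inner_perpCoord h.norm_u] at this
    exact _root_.abs_le.1 this
  simp [sliceVol, this]

/-- `pv` of the body is the integral of `pv` of its slices. -/
lemma pv_eq_integral (h : Adm K u) (e : Perp u ≃ₗᵢ[ℝ] E m) (v : E m) :
    Integrable (fun t => pv (sect e K t) v) ∧
      pv K ((e.symm v : Perp u) : E (m + 1)) = ∫ t, pv (sect e K t) v := by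
  set v' : E (m + 1) := ((e.symm v : Perp u) : E (m + 1))
  have hK' : IsCompact (K + segment ℝ 0 v') := by
    refine h.body.compact.add ?_
    rw [segment_eq_image]
    exact isCompact_Icc.image (by fun_prop)
  have e1 : (fun t => pv (sect e K t) v) =
      fun t => sliceVol (K + segment ℝ 0 v') u t - sliceVol K u t := by
    funext t
    rw [pv, ← sect_add_segment h.norm_u, vol_sect hK', vol_sect h.body.compact]
  have i1 := integrable_sliceVol hK' h.norm_u
  have i2 := integrable_sliceVol h.body.compact h.norm_u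
  rw [e1]
  refine ⟨i1.sub i2, ?_⟩
  rw [integral_sub i1 i2, integral_sliceVol hK' h.norm_u,
    integral_sliceVol h.body.compact h.norm_u, pv]


lemma intervalIntegrable_rpow (h : Adm K u) (hm : 2 ≤ m) (a b : ℝ) :
    IntervalIntegrable (fun t => sliceVol K u t ^ (((m : ℝ) - 1) / m)) volume a b := by
  have hi := integrable_sliceVol h.body.compact h.norm_u
  refine ((intervalIntegrable_const (c := (1 : ℝ))).add hi.intervalIntegrable).mono_fun'
    (hi.1.aemeasurable.pow_const _).aestronglyMeasurable.restrict (.of_forall fun t => ?_)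
  have h0 : 0 ≤ sliceVol K u t := ENNReal.toReal_nonneg
  simp only [Real.norm_of_nonneg (Real.rpow_nonneg h0 _)]
  rcases le_total (sliceVol K u t) 1 with h1 | h1
  · linarith [Real.rpow_le_one h0 h1 (exponent_nonneg hm)]
  · have : ((m : ℝ) - 1) / m ≤ 1 := (div_le_one (by positivity)).2 (by linarith)
    have := Real.rpow_le_rpow_of_exponent_le h1 this
    rw [Real.rpow_one] at this
    linarith

/-- The bound from a fixed partition. -/
lemma partition_bound (hPP : PvProjSpec) (hB : PvBasicSpec) (hP : ProjBodySpec) (hm : 2 ≤ m)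
    (h : Adm K u) {r : ℝ} (hr : 0 ≤ r)
    (hR : ∀ C : Set (E m), Body C → r * vol C ^ (m - 1) ≤ vol (projBody C))
    {δ : ℝ} (hδ : 0 < δ) (hδ1 : δ < 1) {N : ℕ} (hN : 0 < N)
    (hsmall : (2 - 2 * δ) / N < δ) :
    (1 - (2 - 2 * δ) / N / δ) ^ (2 * (m - 1)) * (r ^ (1 / (m : ℝ)) *
        ∫ t in (-1 + δ)..(1 - δ), sliceVol K u t ^ (((m : ℝ) - 1) / m)) ≤
      pv (projBody K) u ^ (1 / (m : ℝ)) := by
  obtain ⟨e⟩ := exists_perpIso h.norm_u
  set p : ℝ := ((m : ℝ) - 1) / m with hp
  set w : ℝ := (2 - 2 * δ) / N with hwd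
  set θ : ℝ := 1 - w / δ with hθd
  have hNr : (0 : ℝ) < N := by exact_mod_cast hN
  have hw : 0 < w := div_pos (by linarith) hNr
  have hθ : 0 < θ := by rw [hθd, sub_pos, div_lt_one hδ]; exact hsmall
  set τ : ℕ → ℝ := fun i => -1 + δ + i * w with hτd
  have hNw : (N : ℝ) * w = 2 - 2 * δ := by rw [hwd]; field_simp
  have hτmem : ∀ i ≤ N, τ i ∈ Icc (-1 + δ) (1 - δ) := fun i hi => by
    have h1 : (i : ℝ) * w ≤ N * w := by gcongr
    have h2 : 0 ≤ (i : ℝ) * w := by positivity
    simp only [hτd, mem_Icc]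
    constructor <;> linarith
  have hτIoo : ∀ i ≤ N, τ i ∈ Ioo (-1 : ℝ) 1 := fun i hi =>
    ⟨by linarith [(hτmem i hi).1], by linarith [(hτmem i hi).2]⟩
  have hτ0 : τ 0 = -1 + δ := by simp [hτd]
  have hτN : τ N = 1 - δ := by simp only [hτd]; rw [hNw]; ring
  have hτs : ∀ i, τ (i + 1) = τ i + w := fun i => by simp only [hτd]; push_cast; ring
  -- `θ • C (τ i) ⊆ C t` and back, on the `i`-th interval
  have hnear : ∀ i < N, ∀ t ∈ Icc (τ i) (τ (i + 1)), t ∈ Icc (-1 + δ) (1 - δ) ∧
      θ • sect e K (τ i) ⊆ sect e K t ∧ θ • sect e K t ⊆ sect e K (τ i) := by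
    intro i hi t ht
    have ht' : t ∈ Icc (-1 + δ) (1 - δ) :=
      ⟨(hτmem i hi.le).1.trans ht.1, ht.2.trans (hτmem (i + 1) hi).2⟩
    have hd : |t - τ i| / δ ≤ w / δ := by
      rw [abs_of_nonneg (by linarith [ht.1]), div_le_div_iff_of_pos_right hδ]
      linarith [ht.2, hτs i]
    refine ⟨ht', smul_mem_sect h hδ ht' (hτmem i hi.le) hθ.le (by linarith),
      smul_mem_sect h hδ (hτmem i hi.le) ht' hθ.le ?_⟩
    rw [abs_sub_comm]
    linarith
  have hbody : ∀ i < N, Body (sect e K (τ i)) := fun i hi => body_sect h e (hτIoo i hi.le)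
  -- the finite sum lies in the projection of the projection body
  obtain ⟨S, hSc, hSk, hSn, hS1, hS2⟩ := exists_sum_body hP hm (fun i => sect e K (τ i))
    (w := θ ^ (m - 1) * w) (by positivity) N hbody
  have hle : ∀ y ∈ S, ∀ v, ⟪y, v⟫ ≤ pv K ((e.symm v : Perp u) : E (m + 1)) := by
    intro y hy v
    obtain ⟨hint, heq⟩ := pv_eq_integral h e v
    refine (hS1 y hy v).trans ?_
    rw [heq]
    calc ∑ i ∈ Finset.range N, θ ^ (m - 1) * w * pv (sect e K (τ i)) v
        ≤ ∑ i ∈ Finset.range N, ∫ t in τ i..τ (i + 1), pv (sect e K t) v := by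
          refine Finset.sum_le_sum fun i hi => ?_
          have hi := Finset.mem_range.1 hi
          have hmono : ∀ t ∈ Icc (τ i) (τ (i + 1)),
              θ ^ (m - 1) * pv (sect e K (τ i)) v ≤ pv (sect e K t) v := by
            intro t ht
            obtain ⟨ht', hsub, -⟩ := hnear i hi t ht
            rw [← pv_smul_body hB hm (hbody i hi) hθ]
            exact (hB m _ hm ((hbody i hi).smul hθ.ne')).2.2.2.2 _
              (body_sect h e ⟨by linarith [ht'.1], by linarith [ht'.2]⟩) hsub v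
          calc θ ^ (m - 1) * w * pv (sect e K (τ i)) v
              = ∫ _ in τ i..τ (i + 1), θ ^ (m - 1) * pv (sect e K (τ i)) v := by
                rw [intervalIntegral.integral_const, hτs, smul_eq_mul]; ring
            _ ≤ _ := intervalIntegral.integral_mono_on (by linarith [hτs i])
                intervalIntegrable_const hint.intervalIntegrable hmono
      _ = ∫ t in (-1 + δ)..(1 - δ), pv (sect e K t) v := by
          rw [intervalIntegral.sum_integral_adjacent_intervals fun i _ => hint.intervalIntegrable,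
            hτ0, hτN]
      _ ≤ _ := by
          rw [intervalIntegral.integral_of_le (by linarith)]
          exact setIntegral_le_integral hint
            (.of_forall fun t => pv_nonneg' (isCompact_sect h.body.compact t) v)
  have hbodyK : Body K := h.body.toBody
  obtain ⟨hPK, hsupK⟩ := hP (m + 1) K (by omega) hbodyK
  set P := (Perp u).orthogonalProjectionOnto '' projBody K with hPd
  have hPc : IsCompact P := hPK.compact.image ((Perp u).orthogonalProjectionOnto).continuous
  have hSP : S ⊆ e.symm ⁻¹' P := by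
    intro y hy
    by_contra hyP
    obtain ⟨f, s, hfP, hfy⟩ := geometric_hahn_banach_closed_point
      (hPK.convex.linear_image (Perp u).orthogonalProjectionOnto.toLinearMap) hPc.isClosed hyP
    set q : Perp u := (InnerProductSpace.toDual ℝ (Perp u)).symm f with hq
    have hfq : ∀ z, f z = ⟪q, z⟫ := fun z => by
      rw [hq, InnerProductSpace.toDual_symm_apply]
    obtain ⟨z, hz, hzv⟩ := (hsupK (q : E (m + 1))).1
    have hproj : f ((Perp u).orthogonalProjectionOnto z) = ⟪z, (q : E (m + 1))⟫ := by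
      rw [hfq, real_inner_comm]
      exact Submodule.inner_orthogonalProjectionOnto_eq_of_mem_right q z
    have h1 := hfP _ (mem_image_of_mem _ hz)
    have h2 := hle y hy (e q)
    rw [LinearIsometryEquiv.symm_apply_apply] at h2
    have h3 : f (e.symm y) = ⟪y, e q⟫ := by
      rw [hfq, real_inner_comm, ← e.inner_map_map, LinearIsometryEquiv.apply_symm_apply]
    have h1' : f ((Perp u).orthogonalProjectionOnto z) < s := h1
    rw [hproj] at h1'
    change ⟪z, (q : E (m + 1))⟫ = _ at hzv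
    linarith
  have hvolS : vol S ≤ pv (projBody K) u := by
    rw [hPP (m + 1) (projBody K) u (by omega) hPK.toBody, h.norm_u, one_mul, inv_one, one_smul,
      projVol, ← hPd]
    have hpre := e.symm.measurePreserving.measure_preimage hPc.measurableSet.nullMeasurableSet
    rw [← hpre]
    refine ENNReal.toReal_mono ?_ (measure_mono hSP)
    rw [hpre]
    exact hPc.measure_lt_top.ne
  -- compare with the integral
  have hmp : (m : ℝ) * p = ((m - 1 : ℕ) : ℝ) := by
    rw [hp, Nat.cast_sub (by omega)]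
    have : (m : ℝ) ≠ 0 := by positivity
    field_simp
    simp
  have hterm : ∀ i < N, r ^ (1 / (m : ℝ)) * θ ^ (m - 1) *
      (∫ t in τ i..τ (i + 1), sliceVol K u t ^ p) ≤
      w * vol (projBody (sect e K (τ i))) ^ (1 / (m : ℝ)) := by
    intro i hi
    have hV : r ^ (1 / (m : ℝ)) * sliceVol K u (τ i) ^ p ≤
        vol (projBody (sect e K (τ i))) ^ (1 / (m : ℝ)) := by
      have := Real.rpow_le_rpow (mul_nonneg hr (pow_nonneg (vol_nonneg _) _)) (hR _ (hbody i hi))
        (show (0 : ℝ) ≤ 1 / (m : ℝ) by positivity)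
      rw [Real.mul_rpow hr (pow_nonneg (vol_nonneg _) _), ← Real.rpow_natCast,
        ← Real.rpow_mul (vol_nonneg _), vol_sect h.body.compact, ← hmp] at this
      rwa [show (m : ℝ) * p * (1 / (m : ℝ)) = p by field_simp] at this
    have hpt : ∀ t ∈ Icc (τ i) (τ (i + 1)),
        θ ^ (m - 1) * sliceVol K u t ^ p ≤ sliceVol K u (τ i) ^ p := by
      intro t ht
      obtain ⟨-, -, hsub⟩ := hnear i hi t ht
      have h1 := vol_mono (isCompact_sect h.body.compact _) hsub
      rw [vol_smul, abs_of_pos hθ, vol_sect h.body.compact, vol_sect h.body.compact] at h1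
      have h2 := Real.rpow_le_rpow (mul_nonneg (by positivity) ENNReal.toReal_nonneg) h1
        (exponent_nonneg hm)
      rw [← hp, Real.mul_rpow (by positivity) ENNReal.toReal_nonneg, ← Real.rpow_natCast θ m,
        ← Real.rpow_mul hθ.le, hmp, Real.rpow_natCast] at h2
      exact h2
    have h3 : θ ^ (m - 1) * (∫ t in τ i..τ (i + 1), sliceVol K u t ^ p) ≤
        w * sliceVol K u (τ i) ^ p := by
      rw [← intervalIntegral.integral_const_mul,
        show w * sliceVol K u (τ i) ^ p = ∫ _ in τ i..τ (i + 1), sliceVol K u (τ i) ^ p by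
          rw [intervalIntegral.integral_const, hτs, smul_eq_mul]; ring]
      exact intervalIntegral.integral_mono_on (by linarith [hτs i])
        ((intervalIntegrable_rpow h hm _ _).const_mul _) intervalIntegrable_const hpt
    calc r ^ (1 / (m : ℝ)) * θ ^ (m - 1) * (∫ t in τ i..τ (i + 1), sliceVol K u t ^ p)
        ≤ r ^ (1 / (m : ℝ)) * (w * sliceVol K u (τ i) ^ p) := by
          rw [mul_assoc]
          exact mul_le_mul_of_nonneg_left h3 (Real.rpow_nonneg hr _)
      _ = w * (r ^ (1 / (m : ℝ)) * sliceVol K u (τ i) ^ p) := by ring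
      _ ≤ _ := mul_le_mul_of_nonneg_left hV hw.le
  calc θ ^ (2 * (m - 1)) * (r ^ (1 / (m : ℝ)) * ∫ t in (-1 + δ)..(1 - δ), sliceVol K u t ^ p)
      = θ ^ (m - 1) *
          ∑ i ∈ Finset.range N, r ^ (1 / (m : ℝ)) * θ ^ (m - 1) *
            ∫ t in τ i..τ (i + 1), sliceVol K u t ^ p := by
        rw [← Finset.mul_sum,
          intervalIntegral.sum_integral_adjacent_intervals fun i _ => intervalIntegrable_rpow h hm _ _,
          hτ0, hτN, two_mul, pow_add]
        ring
    _ ≤ θ ^ (m - 1) * ∑ i ∈ Finset.range N, w * vol (projBody (sect e K (τ i))) ^ (1 / (m : ℝ)) :=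
        mul_le_mul_of_nonneg_left
          (Finset.sum_le_sum fun i hi => hterm i (Finset.mem_range.1 hi)) (by positivity)
    _ = ∑ i ∈ Finset.range N,
          θ ^ (m - 1) * w * vol (projBody (sect e K (τ i))) ^ (1 / (m : ℝ)) := by
        rw [Finset.mul_sum]
        simp only [mul_assoc]
    _ ≤ _ := hS2.trans (Real.rpow_le_rpow (vol_nonneg _) hvolS (by positivity))


/-- Elementary facts about the sections. -/
theorem facts (hm : 2 ≤ m) (h : Adm K u) :
    ConcaveOn ℝ (Icc (-1 : ℝ) 1) (fun t => sliceVol K u t ^ (1 / (m : ℝ))) ∧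
    (∀ t, sliceVol K u (-t) = sliceVol K u t) ∧
    (∀ t, 0 ≤ sliceVol K u t) ∧
    (∫ t in (-1 : ℝ)..1, sliceVol K u t) = vol K := by
  obtain ⟨e⟩ := exists_perpIso h.norm_u
  have hK := h.body
  have hu := h.norm_u
  refine ⟨⟨convex_Icc _ _, fun s hs t ht a b ha hb' hab => ?_⟩, fun t => ?_,
    fun t => ENNReal.toReal_nonneg, ?_⟩
  · simp only [smul_eq_mul, ← vol_sect (e := e) hK.compact]
    have hne : ∀ {r : ℝ}, r ∈ Icc (-1 : ℝ) 1 → (sect e K r).Nonempty :=
      fun hr => ⟨0, zero_mem_sect h e hr⟩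
    refine le_trans ?_ (Real.rpow_le_rpow (vol_nonneg _)
      (vol_mono (isCompact_sect hK.compact _) (comb_sect hK.convex ha hb' hab s t))
      (by positivity))
    refine le_trans (le_of_eq ?_) (bmSpec m _ _ (by omega) ((convex_sect hK.convex s).smul a)
      ((isCompact_sect hK.compact s).smul a) (hne hs).smul_set ((convex_sect hK.convex t).smul b)
      ((isCompact_sect hK.compact t).smul b) (hne ht).smul_set)
    rw [vol_smul, vol_smul, abs_of_nonneg ha, abs_of_nonneg hb',
      Real.mul_rpow (by positivity) (vol_nonneg _), Real.mul_rpow (by positivity) (vol_nonneg _),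
      one_div, Real.pow_rpow_inv_natCast ha (by omega), Real.pow_rpow_inv_natCast hb' (by omega)]
  · have hneg : sect e K (-t) = -sect e K t := by
      ext z
      simp only [sect, mem_ofPred_eq, Set.mem_neg, map_neg, Submodule.coe_neg]
      constructor <;> intro hz <;>
        · have := hK.neg_mem _ hz
          convert this using 1
          module
    rw [← vol_sect (e := e) hK.compact, ← vol_sect (e := e) hK.compact, hneg, vol, vol,
      Measure.measure_neg]
  · rw [intervalIntegral.integral_of_le (by norm_num), ← integral_Icc_eq_integral_Ioc,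
      setIntegral_eq_integral_of_forall_compl_eq_zero fun t ht => sliceVol_eq_zero h ht,
      integral_sliceVol hK.compact hu]

/-- The slicing bound. -/
theorem bound (hPP : PvProjSpec) (hB : PvBasicSpec) (hP : ProjBodySpec)
    (hm : 2 ≤ m) {r : ℝ} (hr : 0 ≤ r)
    (hR : ∀ C : Set (E m), Body C → r * vol C ^ (m - 1) ≤ vol (projBody C)) (h : Adm K u) :
    r * (∫ t in (-1 : ℝ)..1, sliceVol K u t ^ (((m : ℝ) - 1) / m)) ^ m ≤
      pv (projBody K) u := by
  have hK := h.body
  set p : ℝ := ((m : ℝ) - 1) / m with hp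
  set G : ℝ → ℝ := fun x => ∫ t in (0 : ℝ)..x, sliceVol K u t ^ p with hG
  have hGc : Continuous G := intervalIntegral.continuous_primitive (intervalIntegrable_rpow h hm) 0
  set V := pv (projBody K) u with hV
  have hV0 : 0 ≤ V := pv_nonneg' (hP (m + 1) K (by omega) hK.toBody).1.compact u
  have hfix : ∀ δ ∈ Ioo (0 : ℝ) 1, r ^ (1 / (m : ℝ)) * (G (1 - δ) - G (-1 + δ)) ≤
      V ^ (1 / (m : ℝ)) := by
    intro δ hδ
    have hI : G (1 - δ) - G (-1 + δ) = ∫ t in (-1 + δ)..(1 - δ), sliceVol K u t ^ p :=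
      intervalIntegral.integral_interval_sub_left (intervalIntegrable_rpow h hm _ _)
        (intervalIntegrable_rpow h hm _ _)
    rw [hI]
    have hlim : Tendsto (fun N : ℕ => (1 - (2 - 2 * δ) / N / δ) ^ (2 * (m - 1)) *
        (r ^ (1 / (m : ℝ)) * ∫ t in (-1 + δ)..(1 - δ), sliceVol K u t ^ p)) atTop
        (𝓝 ((1 - 0 / δ) ^ (2 * (m - 1)) *
        (r ^ (1 / (m : ℝ)) * ∫ t in (-1 + δ)..(1 - δ), sliceVol K u t ^ p))) :=
      ((((tendsto_const_div_atTop_nhds_zero_nat (2 - 2 * δ)).div_const δ).const_sub 1).pow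
        _).mul_const _
    rw [zero_div, sub_zero, one_pow, one_mul] at hlim
    refine le_of_tendsto hlim ?_
    filter_upwards [(tendsto_const_div_atTop_nhds_zero_nat (2 - 2 * δ)).eventually_lt_const hδ.1,
      eventually_gt_atTop 0] with N hN hN0
    exact partition_bound hPP hB hP hm h hr hR hδ.1 hδ.2 hN0 hN
  have hlim : r ^ (1 / (m : ℝ)) * (G (1 - 0) - G (-1 + 0)) ≤ V ^ (1 / (m : ℝ)) := by
    refine le_of_tendsto (f := fun δ : ℝ => r ^ (1 / (m : ℝ)) * (G (1 - δ) - G (-1 + δ)))
      (x := 𝓝[>] (0 : ℝ)) ?_ ?_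
    · exact ((Continuous.tendsto (by fun_prop) 0).mono_left nhdsWithin_le_nhds)
    · filter_upwards [Ioo_mem_nhdsGT one_pos] with δ hδ using hfix δ hδ
  have hI : G 1 - G (-1) = ∫ t in (-1 : ℝ)..1, sliceVol K u t ^ p :=
    intervalIntegral.integral_interval_sub_left (intervalIntegrable_rpow h hm _ _)
      (intervalIntegrable_rpow h hm _ _)
  rw [sub_zero, add_zero, hI] at hlim
  have hI0 : 0 ≤ ∫ t in (-1 : ℝ)..1, sliceVol K u t ^ p :=
    intervalIntegral.integral_nonneg (by norm_num) fun t _ =>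
      Real.rpow_nonneg ENNReal.toReal_nonneg _
  have := pow_le_pow_left₀ (by positivity) hlim m
  rwa [mul_pow, one_div, Real.rpow_inv_natCast_pow hr (by omega),
    Real.rpow_inv_natCast_pow hV0 (by omega)] at this


/-- The shear `x ↦ x + ⟪x, u⟫ w`, `⟪w, u⟫ = 0`. -/
noncomputable def shear {n : ℕ} (u w : E n) (hw : ⟪w, u⟫ = 0) : E n ≃L[ℝ] E n :=
  LinearEquiv.toContinuousLinearEquiv
    { toFun := fun x => x + ⟪x, u⟫ • w
      invFun := fun x => x - ⟪x, u⟫ • w
      left_inv := fun x => by simp [inner_add_left, real_inner_smul_left, hw]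
      right_inv := fun x => by simp [inner_sub_left, real_inner_smul_left, hw]
      map_add' := fun x y => by simp only [inner_add_left]; module
      map_smul' := fun c x => by simp only [real_inner_smul_left, RingHom.id_apply]; module }

lemma shear_apply {n : ℕ} (u w : E n) (hw : ⟪w, u⟫ = 0) (x : E n) :
    shear u w hw x = x + ⟪x, u⟫ • w := rfl

/-- A shear translates every section. -/
lemma sliceVol_shear {n : ℕ} (K : Set (E n)) {u w : E n} (hu : ‖u‖ = 1) (hw : ⟪w, u⟫ = 0) (t : ℝ) :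
    sliceVol (shear u w hw '' K) u t = sliceVol K u t := by
  have hwm : w ∈ Perp u := Submodule.mem_orthogonal_singleton_iff_inner_left.2 hw
  set w' : Perp u := ⟨w, hwm⟩
  rw [sliceVol, sliceVol, ← measure_preimage_add (volume : Measure (Perp u)) (t • w')]
  congr 2
  ext y
  have e : ∀ z : Perp u, ⟪t • u + (z : E n), u⟫ = t := fun z => inner_perpCoord hu (t, z)
  simp only [mem_preimage, mem_ofPred_eq, mem_image, shear_apply]
  constructor
  · rintro ⟨x, hx, hxe⟩
    have ht : ⟪x, u⟫ = t := by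
      calc ⟪x, u⟫ = ⟪x + ⟪x, u⟫ • w, u⟫ := by
            rw [inner_add_left, real_inner_smul_left, hw, mul_zero, add_zero]
        _ = t := by rw [hxe]; exact e _
    rw [ht, Submodule.coe_add, Submodule.coe_smul] at hxe
    convert hx using 1
    linear_combination (norm := module) -hxe
  · intro hy
    refine ⟨_, hy, ?_⟩
    rw [e, Submodule.coe_add, Submodule.coe_smul]
    module

end SliceTop

/-- The section function of `K` in the direction of `u`, on the scale where `⟪x, u⟫` is the height. -/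
noncomputable def affSlice {n : ℕ} (K : Set (E n)) (u : E n) (t : ℝ) : ℝ :=
  sliceVol (‖u‖ • K) (‖u‖⁻¹ • u) t

open SliceTop in
/-- The facts about `affSlice`. -/
theorem affSlice_facts {m : ℕ} {K : Set (E (m + 1))} (hK : SymBody K)
    {u : E (m + 1)} (h1 : ∀ x ∈ K, ⟪x, u⟫ ≤ 1) {x₀ : E (m + 1)} (hx₀ : x₀ ∈ K)
    (hux : ⟪x₀, u⟫ = 1) :
    ∃ T : E (m + 1) ≃L[ℝ] E (m + 1), Adm (T '' K) (‖u‖⁻¹ • u) ∧
      (∀ t, sliceVol (T '' K) (‖u‖⁻¹ • u) t = affSlice K u t) := by
  have hu0 : u ≠ 0 := by rintro rfl; simp at hux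
  set s := ‖u‖ with hs
  have hs0 : 0 < s := norm_pos_iff.2 hu0
  set v := s⁻¹ • u with hv
  have hv1 : ‖v‖ = 1 := norm_smul_inv_norm hu0
  have hsv : ∀ x : E (m + 1), ⟪s • x, v⟫ = ⟪x, u⟫ := fun x => by
    rw [hv, real_inner_smul_left, real_inner_smul_right, ← mul_assoc, mul_inv_cancel₀ hs0.ne', one_mul]
  have hw : ⟪v - s • x₀, v⟫ = 0 := by
    rw [inner_sub_left, hsv, hux, real_inner_self_eq_norm_sq, hv1]; norm_num
  set D : E (m + 1) ≃L[ℝ] E (m + 1) :=
    ContinuousLinearEquiv.smulLeft (Units.mk0 s hs0.ne')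
  refine ⟨D.trans (shear v (v - s • x₀) hw), ?_, ?_⟩
  · refine ⟨hK.image _, hv1, ?_, ?_⟩
    · rintro _ ⟨x, hx, rfl⟩
      show ⟪shear v _ hw (s • x), v⟫ ≤ 1
      rw [shear_apply, inner_add_left, real_inner_smul_left (v - s • x₀), hw, mul_zero, add_zero, hsv]
      exact h1 x hx
    · refine ⟨x₀, hx₀, ?_⟩
      show shear v _ hw (s • x₀) = v
      rw [shear_apply, hsv, hux]
      module
  · intro t
    rw [show (D.trans (shear v (v - s • x₀) hw)) '' K = shear v _ hw '' (s • K) from
      (image_image (shear v (v - s • x₀) hw) (fun x => s • x) K).symm, sliceVol_shear _ hv1 hw]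
    rfl

open SliceTop in
/-- Concavity, symmetry and nonnegativity of the affine section function. -/
theorem affSlice_profile {m : ℕ} (hm : 2 ≤ m) {K : Set (E (m + 1))} (hK : SymBody K)
    {u : E (m + 1)} (h1 : ∀ x ∈ K, ⟪x, u⟫ ≤ 1) {x₀ : E (m + 1)} (hx₀ : x₀ ∈ K)
    (hux : ⟪x₀, u⟫ = 1) :
    ConcaveOn ℝ (Icc (-1 : ℝ) 1) (fun t => affSlice K u t ^ (1 / (m : ℝ))) ∧
    (∀ t, affSlice K u (-t) = affSlice K u t) ∧
    (∀ t, 0 ≤ affSlice K u t) ∧
    0 < ∫ t in (-1 : ℝ)..1, affSlice K u t := by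
  obtain ⟨T, hA, he⟩ := affSlice_facts hK h1 hx₀ hux
  obtain ⟨a, b, c, d⟩ := SliceTop.facts hm hA
  simp only [he] at a b c d
  exact ⟨a, b, c, d.symm ▸ hA.body.toBody.vol_pos⟩

open SliceTop in
/-- Moments of `⟪·, u⟫` on `K` through the affine section function. -/
theorem integral_affSlice {n : ℕ} {K : Set (E n)} (hK : SymBody K)
    {u : E n} (hu : u ≠ 0) (h1 : ∀ x ∈ K, ⟪x, u⟫ ≤ 1) {g : ℝ → ℝ} (hg : Continuous g) :
    ∫ t in (-1 : ℝ)..1, g t * affSlice K u t = ‖u‖ ^ n * ∫ x in K, g ⟪x, u⟫ := by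
  have hs0 : 0 < ‖u‖ := norm_pos_iff.2 hu
  have h := setIntegral_inner_eq (K := ‖u‖ • K) (hK.compact.smul ‖u‖) (norm_smul_inv_norm (𝕜 := ℝ) hu) hg
  simp only [RCLike.ofReal_real_eq_id, id_eq] at h
  rw [intervalIntegral.integral_of_le (by norm_num), ← integral_Icc_eq_integral_Ioc,
    setIntegral_eq_integral_of_forall_compl_eq_zero, ← (show _ = ∫ t, g t * affSlice K u t from h)]
  · have h2 := Measure.setIntegral_comp_smul_of_pos (volume : Measure (E n))
      (fun y => g ⟪y, ‖u‖⁻¹ • u⟫) K hs0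
    simp only [real_inner_smul_left, real_inner_smul_right, finrank_euclideanSpace_fin,
      smul_eq_mul, ← mul_assoc, inv_mul_cancel₀ hs0.ne', one_mul] at h2
    simp only [real_inner_smul_right]
    rw [h2, ← mul_assoc, mul_inv_cancel₀ (pow_pos hs0 n).ne', one_mul]
  · intro t ht
    have he : {y : Perp (‖u‖⁻¹ • u) | t • ‖u‖⁻¹ • u + (y : E n) ∈ ‖u‖ • K} = ∅ := by
      refine eq_empty_iff_forall_notMem.2 fun y hy => ht ?_
      obtain ⟨x, hx, hxe⟩ := hy
      have hnorm : ‖(‖u‖⁻¹ • u : E n)‖ = 1 := norm_smul_inv_norm hu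
      have e : ⟪‖u‖ • x, ‖u‖⁻¹ • u⟫ = t := by
        rw [show ‖u‖ • x = _ from hxe]
        exact inner_perpCoord hnorm (t, y)
      rw [real_inner_smul_left, real_inner_smul_right, ← mul_assoc,
        mul_inv_cancel₀ hs0.ne', one_mul] at e
      have h2 := h1 (-x) (hK.neg_mem x hx)
      rw [inner_neg_left] at h2
      exact ⟨by linarith, e ▸ h1 x hx⟩
    rw [affSlice, sliceVol, he, measure_empty, ENNReal.toReal_zero, mul_zero]

open SliceTop in
/-- The slicing bound at a minimiser, for every `u` with `h_K(u) = 1`. -/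
theorem affine_slice_bound (H : DualityHyps) (hPP : PvProjSpec) (hB : PvBasicSpec)
    (hP : ProjBodySpec) {m : ℕ} (hm : 2 ≤ m) {r : ℝ} (hr : 0 ≤ r)
    (hR : ∀ C : Set (E m), Body C → r * vol C ^ (m - 1) ≤ vol (projBody C))
    {K : Set (E (m + 1))} (hK : SymBody K) (hmin : ∀ L : Set (E (m + 1)), Body L → R K ≤ R L)
    {u : E (m + 1)} (h1 : ∀ x ∈ K, ⟪x, u⟫ ≤ 1) {x₀ : E (m + 1)} (hx₀ : x₀ ∈ K)
    (hux : ⟪x₀, u⟫ = 1) :
    r * ((∫ t in (-1 : ℝ)..1, affSlice K u t ^ (((m : ℝ) - 1) / m)) ^ m /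
      (∫ t in (-1 : ℝ)..1, affSlice K u t) ^ (m - 1)) ≤ R K := by
  obtain ⟨T, hA, he⟩ := affSlice_facts hK h1 hx₀ hux
  set M := T '' K
  have hRT : R M = R K := R_image (by omega : 1 ≤ m + 1) T K
  have hle := bound hPP hB hP hm hr hR hA
  have hV := (SliceTop.facts hm hA).2.2.2
  simp only [he] at hle hV
  have h2 := pv_proj_le_of_R_le H (by omega) hA.body
    (hRT ▸ hmin _ (hP (m + 1) M (by omega) hA.body.toBody).1.toBody) hA.le_one
  have hV0 := hA.body.toBody.vol_pos
  rw [hV, ← hRT, R, Nat.add_sub_cancel, ← mul_div_assoc,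
    div_le_div_iff₀ (pow_pos hV0 _) (pow_pos hV0 _)]
  rw [mul_one, le_div_iff₀ hV0] at h2
  have h3 := (mul_le_mul_of_nonneg_right hle hV0.le).trans h2
  calc _ = r * (∫ t in (-1 : ℝ)..1, affSlice K u t ^ (((m : ℝ) - 1) / m)) ^ m * vol M *
        vol M ^ (m - 1) := by
        have e : vol M ^ m = vol M ^ (m - 1) * vol M := by rw [← pow_succ]; congr 1; omega
        rw [e]; ring
    _ ≤ _ := mul_le_mul_of_nonneg_right h3 (pow_nonneg hV0.le _)

end Vale.Agent.P237
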