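import Vale.Agent.P237.Fisher
import Vale.Agent.P237.JohnPos
import Vale.Agent.P237.Basics
import Vale.Agent.P237.SliceTop

/-!
# P237: the affine form of the divergence test

With `w` the gauge, `ξ = ∇w` and `B(v, w) = ∫_K ⟪ξ, v⟫ ⟪ξ, w⟫`: for every `u` the divergence
functional of `⟪·, u⟫` is at most `n |K| / S(u)`, where `S` is a positive quadratic form of mean `n`
for `u = ξ`.
-/

namespace Vale.Agent.P237

open MeasureTheory Set Filter Topology Metric
open scoped Pointwise RealInnerProductSpace ENNReal NNReal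

namespace Fisher

variable {n : ℕ} {K : Set (E n)}

/-- `n ∫ g (t/w) ∂ᵥw = ⟪u, v⟫ ∫ g'(t)`. -/
theorem normal_identity' (hK : Body K) (h0 : (0 : E n) ∈ interior K) (u v : E n) {g : ℝ → ℝ}
    (hg : ContDiff ℝ 1 g) :
    (n : ℝ) * ∫ x in K, g (⟪x, u⟫ / gauge K x) * fderiv ℝ (gauge K) x v =
      ∫ x in K, deriv g ⟪x, u⟫ * ⟪u, v⟫ := by
  obtain ⟨L, hL⟩ := hK.convex.lipschitz_gauge (nhds_zero h0)
  obtain ⟨R, hR0, hR, hRs⟩ := exists_ratio_bound hK h0 u
  obtain ⟨C, hC0, hC⟩ := exists_lip hg (2 * R + 1)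
  obtain ⟨B, hB0, hB⟩ := bdd_ratio hK h0 hg.continuous u
  obtain ⟨D, hD0, hD⟩ := exists_bound (hg.continuous_deriv le_rfl) (2 * R)
  have hdir : ∀ x, |fderiv ℝ (gauge K) x v| ≤ L * ‖v‖ := fun x => by
    rw [← Real.norm_eq_abs]
    exact ((fderiv ℝ (gauge K) x).le_opNorm v).trans
      (mul_le_mul_of_nonneg_right (norm_fderiv_le_of_lipschitz ℝ hL) (norm_nonneg v))
  have hmd : Measurable fun x => fderiv ℝ (gauge K) x v := measurable_fderiv_apply_const ℝ _ v
  have hlim := tendsto_shell hK h0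
    (F := fun x => g (⟪x, u⟫ / gauge K x) * fderiv ℝ (gauge K) x v)
    (P := fun x => g ⟪x, u⟫ * fderiv ℝ (gauge K) x v) (M := B * (L * ‖v‖)) (C := C * R * (L * ‖v‖))
    (fun c hc x => by rw [ratio_smul g hc, fderiv_gauge_smul hc])
    ((measurable_ratio hK h0 hg.continuous u).mul hmd)
    (fun x => by rw [abs_mul]; exact mul_le_mul (hB x) (hdir x) (abs_nonneg _) hB0)
    ((hg.continuous.measurable.comp (measurable_id.inner measurable_const)).mul hmd)
    fun ε hε x hx => by
      have hh := hRs ε hε x hx.1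
      rw [← sub_mul, abs_mul]
      have h1 : |g ⟪x, u⟫ - g (⟪x, u⟫ / gauge K x)| ≤ C * R * ε := by
        refine (hC _ (abs_le.1 (hh.1.trans (by linarith))) _
          (abs_le.1 ((hR x).trans (by linarith)))).trans ?_
        rw [mul_assoc]
        exact mul_le_mul_of_nonneg_left (hh.2 hx.2) hC0
      calc _ ≤ C * R * ε * (L * ‖v‖) := mul_le_mul h1 (hdir x) (abs_nonneg _)
            (mul_nonneg (mul_nonneg hC0 hR0) hε.1.le)
        _ = C * R * (L * ‖v‖) * ε := by ring
  refine tendsto_nhds_unique hlim ?_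
  -- a globally Lipschitz test agreeing with `g ⟪·, u⟫` near `2 K`
  set f : E n → ℝ := fun x => g (max (-(2 * R + 1)) (min (2 * R + 1) ⟪x, u⟫)) with hf
  have hfeq : ∀ x, |⟪x, u⟫| ≤ 2 * R + 1 → f x = g ⟪x, u⟫ := fun x hx => by
    rw [hf]
    simp only
    rw [min_eq_right (abs_le.1 hx).2, max_eq_right (abs_le.1 hx).1]
  have hmem : ∀ y : ℝ, max (-(2 * R + 1)) (min (2 * R + 1) y) ∈ Icc (-(2 * R + 1)) (2 * R + 1) :=
    fun y => ⟨le_max_left _ _, max_le (by linarith) (min_le_left _ _)⟩
  have hflip : LipschitzWith ⟨C * ‖u‖, mul_nonneg hC0 (norm_nonneg u)⟩ f := LipschitzWith.of_dist_le_mul fun x y => by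
    rw [Real.dist_eq, dist_eq_norm]
    refine (hC _ (hmem _) _ (hmem _)).trans ?_
    show _ ≤ C * ‖u‖ * ‖x - y‖
    rw [mul_assoc]
    refine mul_le_mul_of_nonneg_left ?_ hC0
    refine (abs_max_sub_max_le_max _ _ _ _).trans ?_
    rw [sub_self, abs_zero, max_eq_right (abs_nonneg _)]
    refine (abs_min_sub_min_le_max _ _ _ _).trans ?_
    rw [sub_self, abs_zero, max_eq_right (abs_nonneg _), ← inner_sub_left]
    rw [mul_comm]
    exact abs_real_inner_le_norm (x - y) u
  have hderivf : ∀ x, |⟪x, u⟫| ≤ 2 * R → lineDeriv ℝ f x v = deriv g ⟪x, u⟫ * ⟪u, v⟫ := fun x hx => by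
    have e : (fun s : ℝ => f (x + s • v)) =ᶠ[𝓝 0] fun s => g (⟪x, u⟫ + s * ⟪u, v⟫) := by
      filter_upwards [Metric.ball_mem_nhds (0 : ℝ) (show (0 : ℝ) < 1 / (|⟪u, v⟫| + 1) by positivity)]
        with s hs
      rw [Metric.mem_ball, dist_zero_right, Real.norm_eq_abs] at hs
      have e' : ⟪x + s • v, u⟫ = ⟪x, u⟫ + s * ⟪u, v⟫ := by
        rw [inner_add_left, real_inner_smul_left, real_inner_comm v u]
      have hb : |s * ⟪u, v⟫| ≤ 1 := by
        rw [lt_div_iff₀ (by positivity)] at hs
        rw [abs_mul]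
        nlinarith [abs_nonneg s, abs_nonneg ⟪u, v⟫]
      rw [hfeq _ (by rw [e']; exact (abs_add_le _ _).trans (by linarith)), e']
    rw [lineDeriv, e.deriv_eq]
    have h1 := ((hg.differentiable one_ne_zero) (⟪x, u⟫ + 0 * ⟪u, v⟫)).hasDerivAt.comp (0 : ℝ)
      (((hasDerivAt_id (0 : ℝ)).mul_const ⟪u, v⟫).const_add ⟪x, u⟫)
    simpa [Function.comp_def] using h1.deriv
  have hnull1 : volume (frontier K) = 0 := hK.convex.addHaar_frontier volume
  have hgm : Measurable fun x : E n => deriv g ⟪x, u⟫ :=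
    (hg.continuous_deriv le_rfl).measurable.comp (measurable_id.inner measurable_const)
  have key : ∀ ε ∈ Ioc (0 : ℝ) 1,
      |ε⁻¹ * (∫ x in ((1 + ε) • K) \ K, g ⟪x, u⟫ * fderiv ℝ (gauge K) x v) -
        ∫ x in K, deriv g ⟪x, u⟫ * ⟪u, v⟫| ≤ D * |⟪u, v⟫| * (((1 + ε) ^ n - 1) * vol K) := by
    intro ε hε
    have hp : (0 : ℝ) < 1 + ε := by linarith [hε.1]
    set S := ((1 + ε) • K) \ K with hS
    set ρ : E n → ℝ := fun x => max 0 (min 1 (1 + (1 - gauge K x) / ε)) with hρ
    have hρlip : LipschitzWith ⟨L / ε, by have := hε.1; positivity⟩ ρ :=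
      LipschitzWith.of_dist_le_mul fun x y => by
        rw [Real.dist_eq]
        refine (abs_max_sub_max_le_max _ _ _ _).trans ?_
        rw [sub_self, abs_zero, max_eq_right (abs_nonneg _)]
        refine (abs_min_sub_min_le_max _ _ _ _).trans ?_
        rw [sub_self, abs_zero, max_eq_right (abs_nonneg _)]
        have h := hL.dist_le_mul x y
        rw [Real.dist_eq] at h
        have e : 1 + (1 - gauge K x) / ε - (1 + (1 - gauge K y) / ε) =
            (gauge K y - gauge K x) / ε := by ring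
        rw [e, abs_div, abs_of_pos hε.1, abs_sub_comm]
        show _ ≤ (L : ℝ) / ε * dist x y
        rw [div_mul_eq_mul_div]
        exact div_le_div_of_nonneg_right h hε.1.le
    have hSc : IsCompact ((1 + ε) • K) := hK.compact.smul (1 + ε)
    have hout : ∀ x, x ∉ (1 + ε) • K → ρ x = 0 := fun x hx => by
      have : 1 + ε < gauge K x := by
        by_contra h; exact hx ((gauge_le_iff hK h0 hp x).1 (not_lt.1 h))
      refine max_eq_left ((min_le_right _ _).trans ?_)
      rw [one_add_div hε.1.ne']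
      exact div_nonpos_of_nonpos_of_nonneg (by linarith) hε.1.le
    have hin : ∀ x ∈ K, ρ x = 1 := fun x hx => by
      rw [hρ]
      simp only
      rw [min_eq_left (by
        have : 0 ≤ (1 - gauge K x) / ε := div_nonneg (sub_nonneg.2 (gauge_le_one_of_mem hx)) hε.1.le
        linarith), max_eq_right zero_le_one]
    have hρsupp : HasCompactSupport ρ := HasCompactSupport.intro hSc hout
    have hparts := LipschitzWith.integral_lineDeriv_mul_eq (μ := (volume : Measure (E n))) hflip hρlip hρsupp v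
    have hnull2 : volume (frontier ((1 + ε) • K)) = 0 :=
      (hK.convex.smul (1 + ε)).addHaar_frontier volume
    have hinS : ∀ x ∈ (1 + ε) • K, |⟪x, u⟫| ≤ 2 * R := fun x hx => (hRs ε hε x hx).1
    have hLHS : ∫ x, lineDeriv ℝ f x v * ρ x =
        (∫ x in K, deriv g ⟪x, u⟫ * ⟪u, v⟫) + ∫ x in S, deriv g ⟪x, u⟫ * ⟪u, v⟫ * ρ x := by
      rw [← setIntegral_eq_integral_of_forall_compl_eq_zero (s := (1 + ε) • K)
        (fun x hx => by rw [hout x hx, mul_zero]),
        setIntegral_congr_fun hSc.isClosed.measurableSet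
          (fun x hx => by simp only; rw [hderivf x (hinS x hx)] :
            EqOn (fun x => lineDeriv ℝ f x v * ρ x) (fun x => deriv g ⟪x, u⟫ * ⟪u, v⟫ * ρ x) _)]
      have hint : IntegrableOn (fun x => deriv g ⟪x, u⟫ * ⟪u, v⟫ * ρ x) ((1 + ε) • K) :=
        ((((hg.continuous_deriv le_rfl).comp (continuous_id.inner continuous_const)).mul
          continuous_const).mul hρlip.continuous).continuousOn.integrableOn_compact hSc
      rw [setIntegral_congr_fun (g := fun x => deriv g ⟪x, u⟫ * ⟪u, v⟫ * ρ x)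
          hK.compact.isClosed.measurableSet (fun x hx => by simp [hin x hx] :
            EqOn (fun x => deriv g ⟪x, u⟫ * ⟪u, v⟫) (fun x => deriv g ⟪x, u⟫ * ⟪u, v⟫ * ρ x) K), hS,
        setIntegral_sdiff hK.compact.isClosed.measurableSet hint (smul_subset hK h0 hε.1.le)]
      ring
    have hRHS : ∫ x, lineDeriv ℝ ρ x (-v) * f x =
        ε⁻¹ * ∫ x in S, g ⟪x, u⟫ * fderiv ℝ (gauge K) x v := by
      have hSm : MeasurableSet S := hSc.isClosed.measurableSet.diff hK.compact.isClosed.measurableSet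
      rw [← integral_const_mul, ← integral_indicator hSm]
      refine integral_congr_ae ?_
      filter_upwards [measure_eq_zero_iff_ae_notMem.1 hnull1,
        measure_eq_zero_iff_ae_notMem.1 hnull2, hL.ae_differentiableAt] with x hx1 hx2 hxd
      have hKs : x ∈ K → x ∈ interior K := fun h => by
        by_contra hh; exact hx1 ⟨subset_closure h, hh⟩
      have hS2 : x ∈ (1 + ε) • K → x ∈ interior ((1 + ε) • K) := fun h => by
        by_contra hh; exact hx2 ⟨subset_closure h, hh⟩
      have line : ∀ {φ : E n → ℝ}, ρ =ᶠ[𝓝 x] φ → ∀ v, lineDeriv ℝ ρ x v = lineDeriv ℝ φ x v :=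
        fun hφ v => hφ.lineDeriv_eq
      by_cases hxK : x ∈ K
      · rw [indicator_of_notMem (fun h => h.2 hxK),
          line (φ := fun _ => 1) (eventually_of_mem (isOpen_interior.mem_nhds (hKs hxK))
            fun y hy => hin y (interior_subset hy)), lineDeriv, deriv_const, zero_mul]
      by_cases hxS : x ∈ (1 + ε) • K
      · rw [indicator_of_mem (show x ∈ S from ⟨hxS, hxK⟩)]
        have hev : ρ =ᶠ[𝓝 x] fun y => 1 + (1 - gauge K y) / ε := by
          filter_upwards [isOpen_interior.mem_nhds (hS2 hxS),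
            hK.compact.isClosed.isOpen_compl.mem_nhds hxK] with y hy hyK
          have h1 : gauge K y ≤ 1 + ε := (gauge_le_iff hK h0 hp y).2 (interior_subset hy)
          have h2 : 1 < gauge K y := by
            by_contra h; exact hyK (by simpa using (gauge_le_iff hK h0 one_pos y).1 (not_lt.1 h))
          have h3 : 0 ≤ 1 + (1 - gauge K y) / ε := by
            rw [one_add_div hε.1.ne']; exact div_nonneg (by linarith) hε.1.le
          have h4 : 1 + (1 - gauge K y) / ε ≤ 1 := by
            have := div_nonpos_of_nonpos_of_nonneg (by linarith : 1 - gauge K y ≤ 0) hε.1.le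
            linarith
          rw [hρ]
          simp only
          rw [min_eq_right h4, max_eq_right h3]
        have hd : HasFDerivAt (fun y => 1 + (1 - gauge K y) / ε)
            (-(ε⁻¹ • fderiv ℝ (gauge K) x)) x := by
          have := ((hxd.hasFDerivAt.const_sub 1).const_smul ε⁻¹).const_add (1 : ℝ)
          simpa [div_eq_inv_mul, smul_eq_mul, smul_neg] using this
        rw [line hev, hd.differentiableAt.lineDeriv_eq_fderiv, hd.fderiv,
          hfeq x ((hinS x hxS).trans (by linarith))]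
        simp
        ring
      · rw [indicator_of_notMem (fun h => hxS h.1),
          line (φ := fun _ => 0) (eventually_of_mem (hSc.isClosed.isOpen_compl.mem_nhds hxS)
            fun y hy => hout y hy), lineDeriv, deriv_const, zero_mul]
    rw [← hRHS, ← hparts, hLHS, add_sub_cancel_left, ← Real.norm_eq_abs]
    have hfin : volume S < ⊤ := (measure_mono sdiff_subset).trans_lt hSc.measure_lt_top
    refine (norm_setIntegral_le_of_norm_le_const hfin (C := D * |⟪u, v⟫|) fun x hx => ?_).trans (le_of_eq ?_)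
    · have hρ01 : |ρ x| ≤ 1 := by
        rw [hρ]
        exact abs_le.2 ⟨by linarith [le_max_left (0 : ℝ) (min 1 (1 + (1 - gauge K x) / ε))],
          max_le zero_le_one (min_le_left _ _)⟩
      rw [Real.norm_eq_abs, abs_mul, abs_mul]
      simpa using mul_le_mul (mul_le_mul_of_nonneg_right (hD _ (abs_le.1 (hinS x hx.1)))
        (abs_nonneg ⟪u, v⟫)) hρ01 (abs_nonneg _) (mul_nonneg hD0 (abs_nonneg _))
    · have := shell_eq hK h0 (F := fun _ => (1 : ℝ)) (fun _ _ _ => rfl) measurable_const (M := 1)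
        (fun _ => by simp) hε.1.le
      simp only [setIntegral_const, smul_eq_mul, mul_one] at this
      rw [this, vol, Measure.real]
  refine tendsto_iff_norm_sub_tendsto_zero.2 (squeeze_zero' (Eventually.of_forall fun _ => norm_nonneg _)
    (g := fun ε : ℝ => D * |⟪u, v⟫| * (((1 + ε) ^ n - 1) * vol K)) ?_ ?_)
  · filter_upwards [Ioc_mem_nhdsGT one_pos] with ε hε
    simpa [Real.norm_eq_abs] using key ε hε
  · have : Tendsto (fun ε : ℝ => D * |⟪u, v⟫| * (((1 + ε) ^ n - 1) * vol K)) (𝓝 0)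
        (𝓝 (D * |⟪u, v⟫| * (((1 + 0) ^ n - 1) * vol K))) := (by fun_prop : Continuous _).tendsto 0
    simpa using this.mono_left nhdsWithin_le_nhds

end Fisher

/-- The normal field `∇ (gauge K)`. -/
noncomputable def normalField {n : ℕ} (K : Set (E n)) (x : E n) : E n := gradient (gauge K) x

lemma inner_normalField {n : ℕ} (K : Set (E n)) (x v : E n) :
    ⟪normalField K x, v⟫ = fderiv ℝ (gauge K) x v := inner_gradient_left

open Fisher in
/-- Almost everywhere the normal field has support value `1`. -/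
theorem normalField_support {n : ℕ} (hn : 0 < n) {K : Set (E n)} (hK : SymBody K) :
    ∀ᵐ x, (∀ y ∈ K, ⟪y, normalField K x⟫ ≤ 1) ∧ ∃ y ∈ K, ⟪y, normalField K x⟫ = 1 := by
  have h0 := zero_mem_interior_of_symm hK.convex hK.neg_mem hK.interior_nonempty
  obtain ⟨L, hL⟩ := hK.convex.lipschitz_gauge (nhds_zero h0)
  have habs : Absorbent ℝ K := absorbent_nhds_zero (nhds_zero h0)
  have : Nonempty (Fin n) := ⟨⟨0, hn⟩⟩
  filter_upwards [hL.ae_differentiableAt,
    (Measure.ae_ne volume (0 : E n))] with x hd hx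
  have hlim : ∀ v, Tendsto (fun t : ℝ => t⁻¹ • (gauge K (x + t • v) - gauge K x)) (𝓝[>] 0)
      (𝓝 (⟪v, normalField K x⟫)) := fun v => by
    rw [real_inner_comm, inner_normalField]
    exact (hd.hasFDerivAt.hasLineDerivAt v).tendsto_slope_zero_right
  refine ⟨fun y hy => le_of_tendsto (hlim y) ?_, (gauge K x)⁻¹ • x, ?_, ?_⟩
  · filter_upwards [self_mem_nhdsWithin] with t (ht : 0 < t)
    have h1 := gauge_add_le hK.convex habs x (t • y)
    rw [gauge_smul_of_nonneg ht.le, smul_eq_mul] at h1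
    rw [smul_eq_mul, inv_mul_le_iff₀ ht]
    nlinarith [gauge_le_one_of_mem (s := K) hy]
  · have hp : 0 < gauge K x :=
      (gauge_pos habs ((NormedSpace.isVonNBounded_iff ℝ).2 hK.compact.isBounded)).2 hx
    exact (gauge_le_iff hK.toBody h0 one_pos _).1 (by
      rw [gauge_smul_of_nonneg (inv_nonneg.2 hp.le), smul_eq_mul, inv_mul_cancel₀ hp.ne']) |> fun h =>
        by simpa using h
  · have hp : 0 < gauge K x :=
      (gauge_pos habs ((NormedSpace.isVonNBounded_iff ℝ).2 hK.compact.isBounded)).2 hx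
    have hx1 : ⟪x, normalField K x⟫ = gauge K x := by
      refine tendsto_nhds_unique (hlim x) (tendsto_const_nhds.congr' ?_)
      filter_upwards [self_mem_nhdsWithin] with t (ht : 0 < t)
      rw [show x + t • x = (1 + t) • x by module, gauge_smul_of_nonneg (by linarith), smul_eq_mul,
        smul_eq_mul]
      field_simp
      ring
    rw [real_inner_smul_left, hx1, inv_mul_cancel₀ hp.ne']

/-- The affine divergence functional of `⟪·, u⟫` with the test `g`. -/
noncomputable def divTest {n : ℕ} (K : Set (E n)) (u : E n) (g : ℝ → ℝ) : ℝ :=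
  ∫ x in K, (2 * deriv g ⟪x, u⟫ - n * g ⟪x, u⟫ ^ 2 - 2 * ⟪x, u⟫ * g ⟪x, u⟫ * deriv g ⟪x, u⟫)

open Fisher in
/-- The affine form of the divergence test. -/
theorem affine_fisher {n : ℕ} {K : Set (E n)} (hK : SymBody K) :
    ∃ v : Fin n → E n,
      (∀ (u : E n) (g : ℝ → ℝ), ContDiff ℝ 1 g →
        divTest K u g * ∑ k, ⟪u, v k⟫ ^ 2 ≤ n * vol K) ∧
      IntegrableOn (fun x => ∑ k, ⟪normalField K x, v k⟫ ^ 2) K ∧
      ∫ x in K, ∑ k, ⟪normalField K x, v k⟫ ^ 2 = n * vol K := by
  have h0 := zero_mem_interior_of_symm hK.convex hK.neg_mem hK.interior_nonempty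
  obtain ⟨L, hL⟩ := hK.convex.lipschitz_gauge (nhds_zero h0)
  set d : E n → E n → ℝ := fun x v => fderiv ℝ (gauge K) x v with hd
  have hdm : ∀ v, Measurable fun x => d x v := fun v => measurable_fderiv_apply_const ℝ _ v
  have hdb : ∀ x v, |d x v| ≤ L * ‖v‖ := fun x v =>
    ((fderiv ℝ (gauge K) x).le_opNorm v).trans
      (mul_le_mul_of_nonneg_right (norm_fderiv_le_of_lipschitz ℝ hL) (norm_nonneg v))
  have hint : ∀ v w, IntegrableOn (fun x => d x v * d x w) K := fun v w =>
    integrableOn_of_bdd hK.compact ((hdm v).mul (hdm w)) (M := L * ‖v‖ * (L * ‖w‖)) fun x _ => by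
      rw [abs_mul]; exact mul_le_mul (hdb x v) (hdb x w) (abs_nonneg _) (by positivity)
  let B : LinearMap.BilinForm ℝ (E n) := LinearMap.mk₂ ℝ (fun v w => ∫ x in K, d x v * d x w)
    (fun a b w => by
      rw [← integral_add (hint a w) (hint b w)]
      exact integral_congr_ae (ae_of_all _ fun x => by simp [hd, add_mul]))
    (fun c a w => by
      rw [smul_eq_mul, ← integral_const_mul]
      exact integral_congr_ae (ae_of_all _ fun x => by simp [hd, mul_assoc]))
    (fun a w w' => by
      rw [← integral_add (hint a w) (hint a w')]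
      exact integral_congr_ae (ae_of_all _ fun x => by simp [hd, mul_add]))
    (fun c a w => by
      rw [smul_eq_mul, ← integral_const_mul]
      exact integral_congr_ae (ae_of_all _ fun x => by simp [hd, mul_left_comm]))
  have hsymm : LinearMap.IsSymm B := ⟨fun v w => by simp [B, mul_comm]⟩
  have hV : 0 < vol K := hK.toBody.vol_pos
  have key : ∀ (u v : E n) (g : ℝ → ℝ), ContDiff ℝ 1 g →
      ∫ x in K, (2 * deriv g ⟪x, u⟫ * ⟪u, v⟫ - n * g ⟪x, u⟫ ^ 2
        - 2 * ⟪x, u⟫ * g ⟪x, u⟫ * deriv g ⟪x, u⟫) ≤ n * B v v := by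
    intro u v g hg
    have hgc := hg.continuous
    have hgd := hg.continuous_deriv le_rfl
    obtain ⟨M, hM0, hM⟩ := bdd_ratio hK.toBody h0 hgc u
    have hma := measurable_ratio hK.toBody h0 hgc u
    have i1 : IntegrableOn (fun x => g (⟪x, u⟫ / gauge K x) * d x v) K :=
      integrableOn_of_bdd hK.compact (hma.mul (hdm v)) (M := M * (L * ‖v‖))
        fun x _ => by rw [abs_mul]; exact mul_le_mul (hM x) (hdb x v) (abs_nonneg _) hM0
    have i2 : IntegrableOn (fun x => g (⟪x, u⟫ / gauge K x) ^ 2) K :=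
      integrableOn_of_bdd hK.compact (hma.pow_const 2) (M := M ^ 2)
        fun x _ => by rw [abs_pow]; exact pow_le_pow_left₀ (abs_nonneg _) (hM x) 2
    have e1 := normal_identity' hK.toBody h0 u v hg
    have e2 := ray_identity hK.toBody h0 (G := fun s => g s ^ 2) (hg.pow 2) u
    have j1 : IntegrableOn (fun x => deriv g ⟪x, u⟫ * ⟪u, v⟫) K :=
      Continuous.continuousOn (by fun_prop) |>.integrableOn_compact hK.compact
    have j2 : IntegrableOn (fun x => (n : ℝ) * g ⟪x, u⟫ ^ 2
        + ⟪x, u⟫ * deriv (fun s => g s ^ 2) ⟪x, u⟫) K :=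
      Continuous.continuousOn (by
        have : Continuous (deriv fun s => g s ^ 2) := (hg.pow 2).continuous_deriv le_rfl
        fun_prop) |>.integrableOn_compact hK.compact
    have e3 : ∫ x in K, (2 * deriv g ⟪x, u⟫ * ⟪u, v⟫ - n * g ⟪x, u⟫ ^ 2
        - 2 * ⟪x, u⟫ * g ⟪x, u⟫ * deriv g ⟪x, u⟫) =
        2 * (∫ x in K, deriv g ⟪x, u⟫ * ⟪u, v⟫) -
          ∫ x in K, ((n : ℝ) * g ⟪x, u⟫ ^ 2 + ⟪x, u⟫ * deriv (fun s => g s ^ 2) ⟪x, u⟫) := by
      rw [← integral_const_mul, ← integral_sub (j1.const_mul 2) j2]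
      refine integral_congr_ae (ae_of_all _ fun x => ?_)
      simp only
      rw [deriv_fun_pow ((hg.differentiable one_ne_zero) _) 2]
      simp
      ring
    rw [e3, ← e1, ← e2]
    show _ ≤ (n : ℝ) * ∫ x in K, d x v * d x v
    rw [mul_left_comm, ← mul_sub, ← integral_const_mul, ← integral_sub (i1.const_mul 2) i2]
    refine mul_le_mul_of_nonneg_left (integral_mono ((i1.const_mul 2).sub i2) (hint v v) fun x => ?_)
      n.cast_nonneg
    simp only
    nlinarith [sq_nonneg (g (⟪x, u⟫ / gauge K x) - d x v)]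
  have hBpos : ∀ v, v ≠ 0 → 0 < B v v := fun v hv => by
    rcases (Nat.eq_zero_or_pos n) with hn | hn
    · subst hn; exact absurd (Subsingleton.elim v 0) hv
    set a := ‖v‖ ^ 2 with ha
    have ha0 : 0 < a := by positivity
    set P := ∫ x in K, ((n : ℝ) + 2) * ⟪x, v⟫ ^ 2 with hP
    have hP0 : 0 ≤ P := integral_nonneg fun x => by positivity
    have hk := key v v (fun t => a * vol K / (P + 1) * t) (contDiff_const.mul contDiff_id)
    have hi : IntegrableOn (fun x => ((n : ℝ) + 2) * ⟪x, v⟫ ^ 2) K :=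
      Continuous.continuousOn (by fun_prop) |>.integrableOn_compact hK.compact
    have hdv : deriv (fun t => a * vol K / (P + 1) * t) = fun _ => a * vol K / (P + 1) := by
      funext t
      simpa using ((hasDerivAt_id t).const_mul (a * vol K / (P + 1))).deriv
    simp only [hdv, real_inner_self_eq_norm_sq, ← ha] at hk
    have e : ∫ x in K, (2 * (a * vol K / (P + 1)) * a - n * (a * vol K / (P + 1) * ⟪x, v⟫) ^ 2
        - 2 * ⟪x, v⟫ * (a * vol K / (P + 1) * ⟪x, v⟫) * (a * vol K / (P + 1))) =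
        2 * (a * vol K / (P + 1)) * a * vol K - (a * vol K / (P + 1)) ^ 2 * P := by
      rw [hP, ← integral_const_mul, show 2 * (a * vol K / (P + 1)) * a * vol K =
        ∫ _ in K, 2 * (a * vol K / (P + 1)) * a by simp [setIntegral_const, Measure.real, vol, mul_comm],
        ← integral_sub ((continuous_const : Continuous fun _ : E n => 2 * (a * vol K / (P + 1)) * a).continuousOn.integrableOn_compact hK.compact) (hi.const_mul _)]
      exact integral_congr_ae (ae_of_all _ fun x => by simp only; ring)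
    rw [e] at hk
    have : 0 < 2 * (a * vol K / (P + 1)) * a * vol K - (a * vol K / (P + 1)) ^ 2 * P := by
      have : (a * vol K / (P + 1)) ^ 2 * P ≤ (a * vol K / (P + 1)) * (a * vol K) := by
        rw [sq, mul_assoc]
        refine mul_le_mul_of_nonneg_left ?_ (by positivity)
        rw [div_mul_eq_mul_div, div_le_iff₀ (by linarith)]
        nlinarith [mul_pos ha0 hV]
      nlinarith [show 0 < (a * vol K / (P + 1)) * (a * vol K) by positivity]
    exact (mul_pos_iff_of_pos_left (by exact_mod_cast hn)).1 (this.trans_le hk)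
  obtain ⟨b, hb⟩ := LinearMap.BilinForm.exists_orthogonal_basis hsymm
  have hcard : Module.finrank ℝ (E n) = n := finrank_euclideanSpace_fin
  let e : Fin n → E n := fun k => b (Fin.cast hcard.symm k)
  have hee : ∀ k l, k ≠ l → B (e k) (e l) = 0 := fun k l h =>
    hb fun h' => h (Fin.cast_injective _ h')
  have hep : ∀ k, 0 < B (e k) (e k) := fun k => hBpos _ (b.ne_zero _)
  let v : Fin n → E n := fun k => √(vol K / B (e k) (e k)) • e k
  have hvv : ∀ k l, B (v k) (v l) = if k = l then vol K else 0 := fun k l => by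
    simp only [v, map_smul, LinearMap.smul_apply, smul_eq_mul]
    split_ifs with h
    · subst h
      rw [← mul_assoc, ← sq, Real.sq_sqrt (div_nonneg hV.le (hep k).le),
        div_mul_cancel₀ _ (hep k).ne']
    · rw [hee k l h, mul_zero, mul_zero]
  refine ⟨v, fun u g hg => ?_, ?_, ?_⟩
  · set S := ∑ k, ⟪u, v k⟫ ^ 2 with hS
    rcases (Finset.sum_nonneg fun k _ => sq_nonneg ⟪u, v k⟫ : 0 ≤ S).eq_or_lt with h | h
    · rw [show S = 0 from h.symm, mul_zero]; positivity
    have hS0 : S ≠ 0 := h.ne'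
    set w := S⁻¹ • ∑ k, ⟪u, v k⟫ • v k with hw
    have h1 : ⟪u, w⟫ = 1 := by
      rw [hw, real_inner_smul_right, inner_sum]
      simp only [real_inner_smul_right, ← sq, ← hS]
      exact inv_mul_cancel₀ h.ne'
    have h2 : B w w = S⁻¹ * vol K := by
      simp only [hw, map_smul, map_sum, LinearMap.smul_apply, LinearMap.coe_sum, Finset.sum_apply,
        smul_eq_mul, hvv, mul_ite, mul_zero, Finset.sum_ite_eq, Finset.sum_ite_eq', Finset.mem_univ,
        if_true, ← mul_assoc, ← sq, ← Finset.sum_mul, ← hS]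
      field_simp
      rw [← Finset.sum_div, ← hS, div_self hS0]
    have hk := key u w g hg
    simp only [h1, mul_one, h2] at hk
    calc divTest K u g * S ≤ n * (S⁻¹ * vol K) * S := mul_le_mul_of_nonneg_right hk h.le
      _ = n * vol K := by field_simp
  · simp only [inner_normalField]
    exact integrable_finsetSum _ fun k _ => by simpa [IntegrableOn, sq, hd] using hint (v k) (v k)
  · simp only [inner_normalField]
    rw [integral_finsetSum _ fun k _ => by simpa [IntegrableOn, sq, hd] using hint (v k) (v k)]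
    have : ∀ k, ∫ x in K, fderiv ℝ (gauge K) x (v k) ^ 2 = vol K := fun k => by
      simpa [B, hd, sq] using hvv k k
    simp [this]

/-- The affine divergence test on the section functions: a continuous weight `σ ≥ 0` of cone mean
`1` with `(∫ test · a_u) σ(u) ≤ ∫ a_u`, that is `σ(u) ≤ 1 / J(a_u)`. -/
theorem affine_fisher_slice {n : ℕ} (hn : 0 < n) {K : Set (E n)} (hK : SymBody K) :
    ∃ σ : E n → ℝ, Continuous σ ∧ (∀ u, 0 ≤ σ u) ∧
      IntegrableOn (fun x => σ (normalField K x)) K ∧
      ∫ x in K, σ (normalField K x) = vol K ∧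
      ∀ u : E n, u ≠ 0 → (∀ x ∈ K, ⟪x, u⟫ ≤ 1) → ∀ g : ℝ → ℝ, ContDiff ℝ 1 g →
        (∫ t in (-1 : ℝ)..1,
            (2 * deriv g t - n * g t ^ 2 - 2 * t * g t * deriv g t) * affSlice K u t) * σ u ≤
          ∫ t in (-1 : ℝ)..1, affSlice K u t := by
  obtain ⟨v, h1, h2, h3⟩ := affine_fisher hK
  have hn' : (0 : ℝ) < n := by exact_mod_cast hn
  refine ⟨fun u => (∑ k, ⟪u, v k⟫ ^ 2) / n, by fun_prop, fun u => by positivity, h2.div_const _, ?_, ?_⟩
  · rw [integral_div, h3, mul_div_cancel_left₀ _ hn'.ne']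
  · intro u hu hle g hg
    have hgc := hg.continuous
    have hgd := hg.continuous_deriv le_rfl
    rw [integral_affSlice hK hu hle (by fun_prop : Continuous fun t =>
      2 * deriv g t - (n : ℝ) * g t ^ 2 - 2 * t * g t * deriv g t)]
    have e := integral_affSlice hK hu hle (continuous_const (y := (1 : ℝ)))
    simp only [one_mul, setIntegral_const, smul_eq_mul, mul_one] at e
    rw [e, mul_assoc]
    refine mul_le_mul_of_nonneg_left ?_ (by positivity)
    rw [mul_div_assoc', div_le_iff₀ hn', mul_comm _ (n : ℝ)]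
    exact h1 u g hg

end Vale.Agent.P237
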