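import Vale.Agent.P237.Duality

/-!
# P237: existence of a minimiser of `R`
-/

namespace Vale.Agent.P237

open MeasureTheory Set Filter Topology TopologicalSpace
open scoped Pointwise RealInnerProductSpace ENNReal

variable {n : ℕ}

lemma john_weight {N : ℕ} {u : Fin N → E n} {c : Fin N → ℝ} (hu : ∀ i, ‖u i‖ = 1)
    (h : ∀ x : E n, ∑ i, c i * ⟪x, u i⟫ ^ 2 = ‖x‖ ^ 2) : ∑ i, c i = n := by
  let b := EuclideanSpace.basisFun (Fin n) ℝ
  have h1 : ∀ i, ∑ j, ⟪b j, u i⟫ ^ 2 = 1 := by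
    intro i
    have := b.sum_sq_inner_right (u i)
    rwa [hu i, one_pow] at this
  calc ∑ i, c i = ∑ i, c i * ∑ j, ⟪b j, u i⟫ ^ 2 := by simp [h1]
    _ = ∑ j, ∑ i, c i * ⟪b j, u i⟫ ^ 2 := by rw [Finset.sum_comm]; simp [Finset.mul_sum]
    _ = n := by simp [h, b.orthonormal.1]

lemma john_norm_le {N : ℕ} {u : Fin N → E n} {c : Fin N → ℝ} {K : Set (E n)}
    (hK : ∀ x ∈ K, -x ∈ K) (hc : ∀ i, 0 ≤ c i) (hu : ∀ i, ‖u i‖ = 1)
    (hle : ∀ i, ∀ x ∈ K, ⟪x, u i⟫ ≤ 1)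
    (h : ∀ x : E n, ∑ i, c i * ⟪x, u i⟫ ^ 2 = ‖x‖ ^ 2) : K ⊆ Metric.closedBall 0 √n := by
  intro x hx
  rw [mem_closedBall_zero_iff]
  refine Real.le_sqrt_of_sq_le ?_
  rw [← h x, ← john_weight hu h]
  refine Finset.sum_le_sum fun i _ => mul_le_of_le_one_right (hc i) ?_
  have h1 := hle i x hx
  have h2 := hle i (-x) (hK x hx)
  rw [inner_neg_left] at h2
  nlinarith

/-- Symmetric bodies in normalised position. -/
def Normal (K : Set (E n)) : Prop :=
  SymBody K ∧ Metric.closedBall 0 1 ⊆ K ∧ K ⊆ Metric.closedBall 0 √n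

lemma body_of_ball_subset {K : Set (E n)} (hc : Convex ℝ K) (hk : IsCompact K)
    (hb : Metric.closedBall 0 1 ⊆ K) : Body K :=
  ⟨hc, hk, ⟨0, interior_mono (Metric.ball_subset_closedBall.trans hb)
    (by rw [Metric.isOpen_ball.interior_eq]; exact Metric.mem_ball_self one_pos)⟩⟩

lemma exists_normal (hJ : JohnSpec) (hn : 2 ≤ n) {K : Set (E n)} (hK : SymBody K) :
    ∃ K' : Set (E n), Normal K' ∧ R K' = R K := by
  obtain ⟨T, N, u, c, hb, hc, hu, hle, hsum⟩ := hJ n K hn hK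
  exact ⟨T '' K, ⟨hK.image T, hb, john_norm_le (hK.image T).neg_mem hc hu hle hsum⟩,
    R_image (by omega) T K⟩

lemma subset_dilate {K L : Set (E n)} {δ : ℝ} (hL : Convex ℝ L) (hδ : 0 ≤ δ)
    (hb : Metric.closedBall 0 1 ⊆ L) (h : ∀ x ∈ K, ∃ y ∈ L, ‖x - y‖ ≤ δ) :
    K ⊆ (1 + δ) • L := by
  intro x hx
  obtain ⟨y, hy, hxy⟩ := h x hx
  rw [hL.add_smul zero_le_one hδ, one_smul]
  refine ⟨y, hy, x - y, ?_, by simp⟩
  rcases hδ.eq_or_lt with rfl | hδ'
  · rw [norm_le_zero_iff] at hxy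
    exact hxy ▸ ⟨0, hb (by simp), by simp⟩
  · refine ⟨δ⁻¹ • (x - y), hb ?_, smul_inv_smul₀ hδ'.ne' _⟩
    rw [mem_closedBall_zero_iff, norm_smul, Real.norm_of_nonneg (inv_nonneg.2 hδ),
      inv_mul_le_iff₀ hδ', mul_one]
    exact hxy

lemma vol_projBody_smul (hn : 1 ≤ n) {s : ℝ} (hs : 0 < s) (K : Set (E n)) :
    vol (projBody (s • K)) = (s ^ n) ^ (n - 1) * vol (projBody K) := by
  rw [← dil_image s hs.ne', vol_projBody_image hn, det_dil, abs_of_pos (pow_pos hs n)]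

lemma R_sandwich (hB : PvBasicSpec) (hP : ProjBodySpec) (hn : 2 ≤ n) {K L : Set (E n)}
    (hK : Body K) (hL : Body L) {s : ℝ} (hs : 0 < s) (h1 : K ⊆ s • L) (h2 : L ⊆ s • K) :
    R K ≤ ((s ^ n) ^ (n - 1)) ^ 2 * R L := by
  have hsn : 0 < s ^ n := pow_pos hs n
  have i1 : vol (projBody K) ≤ (s ^ n) ^ (n - 1) * vol (projBody L) := by
    rw [← vol_projBody_smul (by omega) hs]
    exact vol_mono (hP n _ hn (hL.smul hs.ne')).1.toBody.compact
      (projBody_mono hB hn hK (hL.smul hs.ne') h1)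
  have i2 : vol L ≤ s ^ n * vol K := by
    have := vol_mono (hK.compact.smul s) h2
    rwa [vol_smul, abs_of_pos hs] at this
  rw [R, R, div_le_iff₀ (pow_pos hK.vol_pos _)]
  calc vol (projBody K) ≤ (s ^ n) ^ (n - 1) * vol (projBody L) := i1
    _ = (s ^ n) ^ (n - 1) * (vol (projBody L) / vol L ^ (n - 1)) * vol L ^ (n - 1) := by
      rw [mul_assoc, div_mul_cancel₀ _ (pow_pos hL.vol_pos _).ne']
    _ ≤ (s ^ n) ^ (n - 1) * (vol (projBody L) / vol L ^ (n - 1)) * (s ^ n * vol K) ^ (n - 1) := by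
      refine mul_le_mul_of_nonneg_left (pow_le_pow_left₀ (vol_nonneg L) i2 _) ?_
      exact mul_nonneg (pow_nonneg hsn.le _) (R_nonneg L)
    _ = _ := by rw [mul_pow (s ^ n) (vol K)]; ring

/-- A symmetric minimiser of `R` among all convex bodies. -/
theorem exists_minimizer (H : DualityHyps) (hJ : JohnSpec) (hn : 2 ≤ n) :
    ∃ K : Set (E n), Normal K ∧ ∀ L : Set (E n), Body L → R K ≤ R L := by
  have hball : Normal (Metric.closedBall (0 : E n) 1) := by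
    refine ⟨⟨body_of_ball_subset (convex_closedBall _ _) (isCompact_closedBall _ _) subset_rfl,
      fun x hx => by simpa using hx⟩, subset_rfl, Metric.closedBall_subset_closedBall ?_⟩
    exact Real.one_le_sqrt.2 (by exact_mod_cast (show 1 ≤ n by omega))
  let S : Set ℝ := R '' {K : Set (E n) | Normal K}
  have hSn : S.Nonempty := ⟨_, ⟨_, hball, rfl⟩⟩
  have hSb : BddBelow S := ⟨0, by rintro _ ⟨K, -, rfl⟩; exact R_nonneg K⟩
  have hall : ∀ L : Set (E n), Body L → sInf S ≤ R L := by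
    intro L hL
    obtain ⟨hPL, -⟩ := H.projBody n L hn hL
    obtain ⟨K', hK', hR⟩ := exists_normal hJ hn hPL
    exact (csInf_le hSb ⟨K', hK', rfl⟩).trans (hR ▸ R_projBody_le H hn hL)
  obtain ⟨r, -, hr, hrS⟩ := exists_seq_tendsto_sInf hSn hSb
  choose K hK hKr using hrS
  let C : ℕ → NonemptyCompacts (E n) :=
    fun j => ⟨⟨K j, (hK j).1.toBody.compact⟩, (hK j).1.toBody.nonempty⟩
  have hC : ∀ j, C j ∈ {L : NonemptyCompacts (E n) | ↑L ⊆ Metric.closedBall (0 : E n) √n} :=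
    fun j => (hK j).2.2
  obtain ⟨L, hLmem, φ, hφ, hlim⟩ := (NonemptyCompacts.isCompact_subsets_of_isCompact
    (isCompact_closedBall (0 : E n) √n)).tendsto_subseq hC
  have hclose : ∀ δ : ℝ, 0 < δ → ∀ᶠ j in atTop,
      (∀ x ∈ (L : Set (E n)), ∃ y ∈ K (φ j), ‖x - y‖ ≤ δ) ∧
      (∀ y ∈ K (φ j), ∃ x ∈ (L : Set (E n)), ‖y - x‖ ≤ δ) := by
    intro δ hδ
    filter_upwards [Metric.tendsto_nhds.1 hlim δ hδ] with j hj
    rw [Metric.NonemptyCompacts.dist_eq] at hj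
    have hfin : Metric.hausdorffEDist (C (φ j) : Set (E n)) (L : Set (E n)) ≠ ⊤ :=
      Metric.hausdorffEDist_ne_top_of_nonempty_of_bounded (C (φ j)).nonempty L.nonempty
        (C (φ j)).isCompact.isBounded L.isCompact.isBounded
    constructor
    · intro x hx
      obtain ⟨y, hy, hxy⟩ := Metric.exists_dist_lt_of_hausdorffDist_lt' hx hj hfin
      exact ⟨y, hy, by rw [← dist_eq_norm, dist_comm]; exact hxy.le⟩
    · intro y hy
      obtain ⟨x, hx, hxy⟩ := Metric.exists_dist_lt_of_hausdorffDist_lt hy hj hfin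
      exact ⟨x, hx, by rw [← dist_eq_norm]; exact hxy.le⟩
  have hcl : ∀ z : E n, (∀ δ : ℝ, 0 < δ → ∃ x ∈ (L : Set (E n)), ‖z - x‖ ≤ δ) →
      z ∈ (L : Set (E n)) := by
    intro z hz
    refine L.isCompact.isClosed.closure_subset (Metric.mem_closure_iff.2 fun ε hε => ?_)
    obtain ⟨x, hx, hzx⟩ := hz (ε / 2) (half_pos hε)
    exact ⟨x, hx, by rw [dist_eq_norm]; linarith⟩
  have hLb : Metric.closedBall 0 1 ⊆ (L : Set (E n)) := fun z hz => hcl z fun δ hδ => by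
    obtain ⟨j, -, hj⟩ := (hclose δ hδ).exists
    exact hj z ((hK (φ j)).2.1 hz)
  have hLc : Convex ℝ (L : Set (E n)) := by
    intro x hx y hy a b ha hb hab
    refine hcl _ fun δ hδ => ?_
    obtain ⟨j, hj1, hj2⟩ := (hclose (δ / 2) (half_pos hδ)).exists
    obtain ⟨x', hx', hxx⟩ := hj1 x hx
    obtain ⟨y', hy', hyy⟩ := hj1 y hy
    obtain ⟨z, hz, hzz⟩ := hj2 _ ((hK (φ j)).1.toBody.convex hx' hy' ha hb hab)
    refine ⟨z, hz, ?_⟩
    have e : a • x + b • y - z =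
        (a • (x - x') + b • (y - y')) + (a • x' + b • y' - z) := by
      simp only [smul_sub]; abel
    rw [e]
    have h1 := norm_add_le (a • (x - x')) (b • (y - y'))
    rw [norm_smul, norm_smul, Real.norm_of_nonneg ha, Real.norm_of_nonneg hb] at h1
    have h2 := mul_le_mul_of_nonneg_left hxx ha
    have h3 := mul_le_mul_of_nonneg_left hyy hb
    have h4 : a * (δ / 2) + b * (δ / 2) = δ / 2 := by rw [← add_mul, hab, one_mul]
    refine (norm_add_le _ _).trans ?_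
    linarith
  have hLs : ∀ x ∈ (L : Set (E n)), -x ∈ (L : Set (E n)) := by
    intro x hx
    refine hcl _ fun δ hδ => ?_
    obtain ⟨j, hj1, hj2⟩ := (hclose (δ / 2) (half_pos hδ)).exists
    obtain ⟨x', hx', hxx⟩ := hj1 x hx
    obtain ⟨z, hz, hzz⟩ := hj2 _ ((hK (φ j)).1.neg_mem x' hx')
    refine ⟨z, hz, ?_⟩
    have e : -x - z = -(x - x') + (-x' - z) := by abel
    rw [e]
    refine (norm_add_le _ _).trans ?_
    rw [norm_neg]
    linarith
  have hLB : Body (L : Set (E n)) := body_of_ball_subset hLc L.isCompact hLb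
  refine ⟨(L : Set (E n)), ⟨⟨hLB, hLs⟩, hLb, hLmem⟩, fun M hM => le_trans ?_ (hall M hM)⟩
  have hlimR : ∀ δ : ℝ, 0 < δ → R (L : Set (E n)) ≤ (((1 + δ) ^ n) ^ (n - 1)) ^ 2 * sInf S := by
    intro δ hδ
    refine ge_of_tendsto ((hr.comp hφ.tendsto_atTop).const_mul _) ?_
    filter_upwards [hclose δ hδ] with j hj
    show R (L : Set (E n)) ≤ _ * r (φ j)
    rw [← hKr (φ j)]
    exact R_sandwich H.basic H.projBody hn hLB (hK (φ j)).1.toBody (by linarith)
      (subset_dilate (hK (φ j)).1.toBody.convex hδ.le (hK (φ j)).2.1 hj.1)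
      (subset_dilate hLc hδ.le hLb hj.2)
  have ht : Tendsto (fun δ : ℝ => (((1 + δ) ^ n) ^ (n - 1)) ^ 2 * sInf S) (𝓝[>] 0)
      (𝓝 (sInf S)) := by
    refine tendsto_nhdsWithin_of_tendsto_nhds ?_
    refine Continuous.tendsto' (by fun_prop) _ _ ?_
    simp
  exact ge_of_tendsto ht (eventually_mem_nhdsWithin.mono fun δ hδ => hlimR δ hδ)

end Vale.Agent.P237
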