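import Vale.Agent.P237.Defs

/-!
# P237: the geometric Brascamp–Lieb inequality on an open box

If `∑ cᵢ ⟪uᵢ, x⟫² = |x|²` and the `pᵢ` are probability densities on `(-1, 1)`, then
`∫ ∏ pᵢ(⟪uᵢ, x⟫) ^ cᵢ ≤ 1` (Ball–Barthe), by transport to the Gaussian.
-/

namespace Vale.Agent.P237

open MeasureTheory Set Filter Topology ProbabilityTheory
open scoped RealInnerProductSpace ENNReal NNReal

namespace GeomBL

variable {n N : ℕ}

/-- The density of the standard Gaussian. -/
noncomputable def gauss : ℝ → ℝ := gaussianPDFReal 0 1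

lemma gauss_eq (x : ℝ) : gauss x = (√(2 * Real.pi))⁻¹ * Real.exp (-x ^ 2 / 2) := by
  simp [gauss, gaussianPDFReal]

lemma gauss_pos (x : ℝ) : 0 < gauss x := gaussianPDFReal_pos 0 1 x one_ne_zero

lemma continuous_gauss : Continuous gauss := by
  have h : gauss = fun x => (√(2 * Real.pi))⁻¹ * Real.exp (-x ^ 2 / 2) := funext gauss_eq
  rw [h]
  fun_prop

/-- The distribution function of the Gaussian, up to a constant. -/
noncomputable def prim (x : ℝ) : ℝ := ∫ s in (0 : ℝ)..x, gauss s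

lemma hasDerivAt_prim (x : ℝ) : HasDerivAt prim (gauss x) x :=
  continuous_gauss.integral_hasStrictDerivAt 0 x |>.hasDerivAt

lemma prim_strictMono : StrictMono prim :=
  strictMono_of_deriv_pos fun x => (hasDerivAt_prim x).deriv ▸ gauss_pos x

/-- A transport map from a density on `(-1, 1)` to the Gaussian. -/
theorem exists_transport {p : ℝ → ℝ} (hc : ContinuousOn p (Ioo (-1) 1))
    (hp : ∀ t ∈ Ioo (-1 : ℝ) 1, 0 < p t) (hi : IntervalIntegrable p volume (-1) 1)
    (h1 : ∫ t in (-1 : ℝ)..1, p t = 1) :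
    ∃ T : ℝ → ℝ, ∀ t ∈ Ioo (-1 : ℝ) 1, HasDerivAt T (p t / gauss (T t)) t := by
  set a := ∫ s in Ioi (0 : ℝ), gauss s
  set b := ∫ s in Iic (0 : ℝ), gauss s
  have hint : Integrable gauss := integrable_gaussianPDFReal 0 1
  have hab : b + a = 1 := by
    have h := intervalIntegral.integral_Iic_add_Ioi (f := gauss) (b := (0 : ℝ))
      hint.integrableOn hint.integrableOn
    rw [h]
    exact integral_gaussianPDFReal_eq_one 0 one_ne_zero
  have htop : Tendsto prim atTop (𝓝 a) :=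
    intervalIntegral_tendsto_integral_Ioi 0 hint.integrableOn tendsto_id
  have hbot : Tendsto prim atBot (𝓝 (-b)) := by
    have h := intervalIntegral_tendsto_integral_Iic 0 hint.integrableOn
      (tendsto_id (α := ℝ) (x := atBot))
    refine h.neg.congr fun x => ?_
    simp [prim, intervalIntegral.integral_symm x 0]
  have hsurj : ∀ y ∈ Ioo (-b) a, ∃ s, prim s = y := by
    intro y hy
    obtain ⟨s1, h1⟩ := (hbot.eventually_lt_const hy.1).exists
    obtain ⟨s2, h2⟩ := (htop.eventually_const_lt hy.2).exists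
    exact intermediate_value_univ s1 s2
      (continuous_iff_continuousAt.2 fun x => (hasDerivAt_prim x).continuousAt)
      ⟨h1.le, h2.le⟩
  set F : ℝ → ℝ := fun t => ∫ s in (-1 : ℝ)..t, p s with hF
  have hFmem : ∀ t ∈ Ioo (-1 : ℝ) 1, F t - b ∈ Ioo (-b) a := by
    intro t ht
    have hs1 : uIcc (-1 : ℝ) t ⊆ uIcc (-1 : ℝ) 1 := by
      rw [uIcc_of_le ht.1.le, uIcc_of_le (by norm_num : (-1 : ℝ) ≤ 1)]
      exact Icc_subset_Icc le_rfl ht.2.le
    have hs2 : uIcc t 1 ⊆ uIcc (-1 : ℝ) 1 := by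
      rw [uIcc_of_le ht.2.le, uIcc_of_le (by norm_num : (-1 : ℝ) ≤ 1)]
      exact Icc_subset_Icc ht.1.le le_rfl
    have e1 : 0 < F t := intervalIntegral.intervalIntegral_pos_of_pos_on (hi.mono_set hs1)
      (fun s hs => hp s ⟨hs.1, hs.2.trans ht.2⟩) ht.1
    have e2 : 0 < ∫ s in t..1, p s := intervalIntegral.intervalIntegral_pos_of_pos_on
      (hi.mono_set hs2) (fun s hs => hp s ⟨ht.1.trans hs.1, hs.2⟩) ht.2
    have e3 : F t + ∫ s in t..1, p s = 1 := by
      exact (intervalIntegral.integral_add_adjacent_intervals (hi.mono_set hs1)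
        (hi.mono_set hs2)).trans h1
    exact ⟨by linarith, by linarith⟩
  classical
  refine ⟨fun t => Function.invFun prim (F t - b), fun t ht => ?_⟩
  have hinv : ∀ y ∈ Ioo (-b) a, prim (Function.invFun prim y) = y := fun y hy =>
    Function.invFun_eq (hsurj y hy)
  have hFd : HasDerivAt (fun t => F t - b) (p t) t := by
    refine (intervalIntegral.integral_hasDerivAt_right (hi.mono_set ?_) ?_ ?_).sub_const b
    · rw [uIcc_of_le ht.1.le, uIcc_of_le (by norm_num : (-1 : ℝ) ≤ 1)]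
      exact Icc_subset_Icc le_rfl ht.2.le
    · exact hc.stronglyMeasurableAtFilter isOpen_Ioo t ht
    · exact hc.continuousAt (Ioo_mem_nhds ht.1 ht.2)
  have hy := hFmem t ht
  set y := F t - b
  have hev : ∀ᶠ z in 𝓝 y, prim (Function.invFun prim z) = z :=
    Filter.mem_of_superset (Ioo_mem_nhds hy.1 hy.2) hinv
  have hcont : ContinuousAt (Function.invFun prim) y := by
    rw [Metric.continuousAt_iff]
    intro ε hε
    set s := Function.invFun prim y
    have hl : prim (s - ε) < y := by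
      rw [← hinv y hy]; exact prim_strictMono (by linarith)
    have hr : y < prim (s + ε) := by
      rw [← hinv y hy]; exact prim_strictMono (by linarith)
    have hand : ∀ᶠ z in 𝓝 y, z ∈ Ioo (prim (s - ε)) (prim (s + ε)) ∧
        prim (Function.invFun prim z) = z := Eventually.and (Ioo_mem_nhds hl hr) hev
    obtain ⟨δ, hδ, hball⟩ := Metric.eventually_nhds_iff.1 hand
    refine ⟨δ, hδ, fun z hz => ?_⟩
    obtain ⟨hz1, hz2⟩ := hball hz
    rw [← hz2] at hz1
    have h1 := prim_strictMono.lt_iff_lt.1 hz1.1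
    have h2 := prim_strictMono.lt_iff_lt.1 hz1.2
    rw [Real.dist_eq, abs_lt]
    exact ⟨by linarith, by linarith⟩
  have hd := HasDerivAt.of_local_left_inverse hcont (hasDerivAt_prim _) (gauss_pos _).ne' hev
  have := hd.comp t hFd
  rw [inv_mul_eq_div] at this
  exact this

/-- The linear map `∑ wᵢ uᵢ ⊗ uᵢ`. -/
noncomputable def frame (u : Fin N → E n) (w : Fin N → ℝ) : E n →L[ℝ] E n :=
  ∑ i, w i • (innerSL ℝ (u i)).smulRight (u i)

lemma frame_apply (u : Fin N → E n) (w : Fin N → ℝ) (x : E n) :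
    frame u w x = ∑ i, (w i * ⟪u i, x⟫) • u i := by
  simp [frame, smul_smul]

/-- Ball's determinant inequality. -/
theorem det_frame_ge {u : Fin N → E n} {c d : Fin N → ℝ} (hc : ∀ i, 0 ≤ c i)
    (hu : ∀ i, ‖u i‖ = 1) (hsum : ∀ x : E n, ∑ i, c i * ⟪u i, x⟫ ^ 2 = ‖x‖ ^ 2)
    (hd : ∀ i, 0 < d i) : ∏ i, d i ^ c i ≤ (frame u fun i => c i * d i).det := by
  set M := frame u fun i => c i * d i with hM
  have hT : (M : E n →ₗ[ℝ] E n).IsSymmetric := by
    intro x y
    show ⟪M x, y⟫ = ⟪x, M y⟫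
    simp only [hM, frame_apply, sum_inner, inner_sum, real_inner_smul_left, real_inner_smul_right]
    exact Finset.sum_congr rfl fun i _ => by rw [real_inner_comm (u i) x]; ring
  have hn : Module.finrank ℝ (E n) = n := finrank_euclideanSpace_fin
  rw [ContinuousLinearMap.det, hT.det_eq_prod_eigenvalues hn]
  set e := hT.eigenvectorBasis hn with he
  have hev : ∀ k, hT.eigenvalues hn k = ∑ i, c i * ⟪u i, e k⟫ ^ 2 * d i := by
    intro k
    have h := hT.apply_eigenvectorBasis hn k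
    have h2 : ⟪e k, M (e k)⟫ = hT.eigenvalues hn k := by
      change M (e k) = _ at h
      rw [h, real_inner_smul_right, real_inner_self_eq_norm_sq, e.orthonormal.1 k]
      simp
    rw [← h2, hM, frame_apply, inner_sum]
    refine Finset.sum_congr rfl fun i _ => ?_
    rw [real_inner_smul_right, real_inner_comm (u i) (e k)]
    ring
  have hk : ∀ k, ∏ i, d i ^ (c i * ⟪u i, e k⟫ ^ 2) ≤ hT.eigenvalues hn k := by
    intro k
    rw [hev]
    refine Real.geom_mean_le_arith_mean_weighted _ _ _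
      (fun i _ => mul_nonneg (hc i) (sq_nonneg _)) ?_ fun i _ => (hd i).le
    rw [hsum, e.orthonormal.1 k, one_pow]
  calc ∏ i, d i ^ c i = ∏ i, ∏ k, d i ^ (c i * ⟪u i, e k⟫ ^ 2) := by
        refine Finset.prod_congr rfl fun i _ => ?_
        rw [← Real.rpow_sum_of_pos (hd i), ← Finset.mul_sum]
        congr 1
        have := e.sum_sq_inner_right (u i)
        simp only [real_inner_comm (u i)] at this ⊢
        rw [this, hu i]
        ring
    _ = ∏ k, ∏ i, d i ^ (c i * ⟪u i, e k⟫ ^ 2) := Finset.prod_comm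
    _ ≤ ∏ k, hT.eigenvalues hn k := Finset.prod_le_prod
        (fun k _ => Finset.prod_nonneg fun i _ => Real.rpow_nonneg (hd i).le _) fun k _ => hk k
    _ = _ := by simp

lemma lintegral_gauss_le (n : ℕ) :
    ∫⁻ y : E n, ENNReal.ofReal ((√(2 * Real.pi))⁻¹ ^ n * Real.exp (-‖y‖ ^ 2 / 2)) ≤ 1 := by
  have h := GaussianFourier.integral_rexp_neg_mul_sq_norm (V := E n) (b := 1 / 2) (by norm_num)
  rw [finrank_euclideanSpace_fin] at h
  have e : (fun v : E n => Real.exp (-(1 / 2) * ‖v‖ ^ 2)) =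
      fun y => Real.exp (-‖y‖ ^ 2 / 2) := by
    funext v; congr 1; ring
  rw [e] at h
  have hint : Integrable fun y : E n => Real.exp (-‖y‖ ^ 2 / 2) :=
    Integrable.of_integral_ne_zero (by rw [h]; positivity)
  rw [← ofReal_integral_eq_lintegral_ofReal (hint.const_mul _)
    (Eventually.of_forall fun y => by positivity), integral_const_mul, h]
  refine le_of_eq ?_
  rw [ENNReal.ofReal_eq_one, inv_pow, Real.rpow_div_two_eq_sqrt _ (by positivity),
    Real.rpow_natCast, show Real.pi / (1 / 2) = 2 * Real.pi by ring]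
  exact inv_mul_cancel₀ (by positivity)

/-- Geometric Brascamp–Lieb on the box `|⟪uᵢ, x⟫| < 1`. -/
theorem geometric_bl {u : Fin N → E n} {c : Fin N → ℝ} (hc : ∀ i, 0 ≤ c i)
    (hu : ∀ i, ‖u i‖ = 1) (hsum : ∀ x : E n, ∑ i, c i * ⟪u i, x⟫ ^ 2 = ‖x‖ ^ 2)
    {p : Fin N → ℝ → ℝ} (hpc : ∀ i, ContinuousOn (p i) (Ioo (-1) 1))
    (hpp : ∀ i, ∀ t ∈ Ioo (-1 : ℝ) 1, 0 < p i t)
    (hpi : ∀ i, IntervalIntegrable (p i) volume (-1) 1)
    (hp1 : ∀ i, ∫ t in (-1 : ℝ)..1, p i t = 1) {S : Set (E n)} (hSm : MeasurableSet S)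
    (hS : ∀ x ∈ S, ∀ i, ⟪u i, x⟫ ∈ Ioo (-1 : ℝ) 1) :
    ∫⁻ x in S, ENNReal.ofReal (∏ i, p i ⟪u i, x⟫ ^ c i) ≤ 1 := by
  choose T hT using fun i => exists_transport (hpc i) (hpp i) (hpi i) (hp1 i)
  set Φ : E n → E n := fun x => ∑ i, (c i * T i ⟪u i, x⟫) • u i with hΦ
  set d : E n → Fin N → ℝ := fun x i => p i ⟪u i, x⟫ / gauss (T i ⟪u i, x⟫) with hd
  set D : E n → E n →L[ℝ] E n := fun x => frame u fun i => c i * d x i with hD
  have hd0 : ∀ x ∈ S, ∀ i, 0 < d x i := fun x hx i =>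
    div_pos (hpp i _ (hS x hx i)) (gauss_pos _)
  have hder : ∀ x ∈ S, HasFDerivWithinAt Φ (D x) S x := by
    intro x hx
    refine HasFDerivAt.hasFDerivWithinAt ?_
    have h : ∀ i ∈ (Finset.univ : Finset (Fin N)), HasFDerivAt
        (fun y => (c i * T i ⟪u i, y⟫) • u i)
        ((c i * d x i) • (innerSL ℝ (u i)).smulRight (u i)) x := by
      intro i _
      have h1 : HasFDerivAt (fun y => T i ⟪u i, y⟫) (d x i • innerSL ℝ (u i)) x :=
        (hT i _ (hS x hx i)).comp_hasFDerivAt x (innerSL ℝ (u i)).hasFDerivAt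
      have h2 := (h1.const_mul (c i)).smul_const (u i)
      refine h2.congr_fderiv ?_
      ext y
      simp [smul_smul]
    exact HasFDerivAt.fun_sum h
  have hmono : ∀ i, StrictMonoOn (T i) (Ioo (-1 : ℝ) 1) := by
    intro i
    refine strictMonoOn_of_deriv_pos (convex_Ioo _ _)
      (fun t ht => (hT i t ht).continuousAt.continuousWithinAt) fun t ht => ?_
    rw [interior_Ioo] at ht
    rw [(hT i t ht).deriv]
    exact div_pos (hpp i t ht) (gauss_pos _)
  have hinj : InjOn Φ S := by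
    intro x hx y hy hxy
    have h0 : ∑ i, c i * (T i ⟪u i, x⟫ - T i ⟪u i, y⟫) * (⟪u i, x⟫ - ⟪u i, y⟫) = 0 := by
      have h : ⟪Φ x - Φ y, x - y⟫ = 0 := by rw [hxy, sub_self, inner_zero_left]
      rw [← h, hΦ, ← Finset.sum_sub_distrib, sum_inner]
      refine Finset.sum_congr rfl fun i _ => ?_
      rw [← sub_smul, real_inner_smul_left, inner_sub_right]
      ring
    have hnn : ∀ i ∈ (Finset.univ : Finset (Fin N)),
        0 ≤ c i * (T i ⟪u i, x⟫ - T i ⟪u i, y⟫) * (⟪u i, x⟫ - ⟪u i, y⟫) := by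
      intro i _
      rw [mul_assoc]
      refine mul_nonneg (hc i) ?_
      rcases le_total ⟪u i, x⟫ ⟪u i, y⟫ with h | h
      · exact mul_nonneg_of_nonpos_of_nonpos
          (sub_nonpos.2 ((hmono i).monotoneOn (hS x hx i) (hS y hy i) h)) (sub_nonpos.2 h)
      · exact mul_nonneg
          (sub_nonneg.2 ((hmono i).monotoneOn (hS y hy i) (hS x hx i) h)) (sub_nonneg.2 h)
    have hz := (Finset.sum_eq_zero_iff_of_nonneg hnn).1 h0
    have : ‖x - y‖ ^ 2 = 0 := by
      rw [← hsum]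
      refine Finset.sum_eq_zero fun i hi => ?_
      rcases mul_eq_zero.1 (hz i hi) with h | h
      · rcases mul_eq_zero.1 h with h | h
        · simp [h]
        · simp [inner_sub_right,
            (hmono i).injOn (hS x hx i) (hS y hy i) (sub_eq_zero.1 h)]
      · simp [inner_sub_right, h]
    simpa [sub_eq_zero] using this
  set G : E n → ℝ≥0∞ := fun y =>
    ENNReal.ofReal ((√(2 * Real.pi))⁻¹ ^ n * Real.exp (-‖y‖ ^ 2 / 2)) with hG
  have hcn : ∑ i, c i = n := by
    let b := EuclideanSpace.basisFun (Fin n) ℝ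
    calc ∑ i, c i = ∑ i, c i * ∑ j, ⟪u i, b j⟫ ^ 2 := by simp [b.sum_sq_inner_left, hu]
      _ = ∑ j, ∑ i, c i * ⟪u i, b j⟫ ^ 2 := by rw [Finset.sum_comm]; simp [Finset.mul_sum]
      _ = n := by simp [hsum, b.orthonormal.1]
  have hpt : ∀ x ∈ S, ENNReal.ofReal (∏ i, p i ⟪u i, x⟫ ^ c i) ≤
      ENNReal.ofReal |(D x).det| * G (Φ x) := by
    intro x hx
    have hdet := det_frame_ge hc hu hsum (hd0 x hx)
    have hprod : 0 ≤ ∏ i, d x i ^ c i :=
      Finset.prod_nonneg fun i _ => Real.rpow_nonneg (hd0 x hx i).le _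
    rw [hG, ← ENNReal.ofReal_mul (abs_nonneg _)]
    refine ENNReal.ofReal_le_ofReal ?_
    have e : ∏ i, p i ⟪u i, x⟫ ^ c i = (∏ i, d x i ^ c i) *
        ((√(2 * Real.pi))⁻¹ ^ n *
          Real.exp (-(∑ i, c i * T i ⟪u i, x⟫ ^ 2) / 2)) := by
      have e1 : ∀ i, p i ⟪u i, x⟫ ^ c i = d x i ^ c i * ((√(2 * Real.pi))⁻¹ ^ c i *
          Real.exp (-(c i * T i ⟪u i, x⟫ ^ 2) / 2)) := by
        intro i
        have hg := gauss_pos (T i ⟪u i, x⟫)
        conv_lhs =>
          rw [show p i ⟪u i, x⟫ = d x i * gauss (T i ⟪u i, x⟫) from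
            (div_mul_cancel₀ _ hg.ne').symm]
        rw [Real.mul_rpow (hd0 x hx i).le hg.le, gauss_eq,
          Real.mul_rpow (by positivity) (Real.exp_pos _).le, ← Real.exp_mul]
        congr 3
        ring
      simp only [e1, Finset.prod_mul_distrib, ← Real.exp_sum]
      rw [← Real.rpow_sum_of_pos (by positivity), hcn, Real.rpow_natCast, neg_div,
        Finset.sum_div]
      congr 3
      rw [← Finset.sum_neg_distrib]
      exact Finset.sum_congr rfl fun i _ => by ring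
    rw [e]
    refine mul_le_mul (hdet.trans (le_abs_self _)) ?_ (by positivity) (abs_nonneg _)
    refine mul_le_mul_of_nonneg_left (Real.exp_le_exp.2 ?_) (by positivity)
    have hA : ⟪Φ x, Φ x⟫ ≤ √(∑ i, c i * T i ⟪u i, x⟫ ^ 2) * √(‖Φ x‖ ^ 2) := by
      conv_lhs => rw [hΦ]
      rw [sum_inner]
      calc ∑ i, ⟪(c i * T i ⟪u i, x⟫) • u i, Φ x⟫
          = ∑ i, (√(c i) * T i ⟪u i, x⟫) * (√(c i) * ⟪u i, Φ x⟫) := by
            refine Finset.sum_congr rfl fun i _ => ?_
            rw [real_inner_smul_left]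
            calc c i * T i ⟪u i, x⟫ * ⟪u i, Φ x⟫
                = (√(c i) * √(c i)) * T i ⟪u i, x⟫ * ⟪u i, Φ x⟫ := by
                  rw [Real.mul_self_sqrt (hc i)]
              _ = _ := by ring
        _ ≤ √(∑ i, (√(c i) * T i ⟪u i, x⟫) ^ 2) * √(∑ i, (√(c i) * ⟪u i, Φ x⟫) ^ 2) :=
            Real.sum_mul_le_sqrt_mul_sqrt _ _ _
        _ = _ := by simp only [mul_pow, Real.sq_sqrt (hc _), hsum]
    rw [real_inner_self_eq_norm_sq, Real.sqrt_sq (norm_nonneg _)] at hA
    have hA2 : ‖Φ x‖ ≤ √(∑ i, c i * T i ⟪u i, x⟫ ^ 2) := by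
      rcases eq_or_lt_of_le (norm_nonneg (Φ x)) with h | h
      · rw [← h]; exact Real.sqrt_nonneg _
      · exact le_of_mul_le_mul_right (by rw [← sq]; exact hA) h
    have := (Real.le_sqrt (norm_nonneg _)
      (Finset.sum_nonneg fun i _ => mul_nonneg (hc i) (sq_nonneg _))).1 hA2
    linarith
  calc ∫⁻ x in S, ENNReal.ofReal (∏ i, p i ⟪u i, x⟫ ^ c i)
      ≤ ∫⁻ x in S, ENNReal.ofReal |(D x).det| * G (Φ x) := setLIntegral_mono' hSm hpt
    _ = ∫⁻ y in Φ '' S, G y :=
        (lintegral_image_eq_lintegral_abs_det_fderiv_mul volume hSm hder hinj G).symm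
    _ ≤ ∫⁻ y, G y := setLIntegral_le_lintegral _ _
    _ ≤ 1 := lintegral_gauss_le n

end GeomBL

end Vale.Agent.P237
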