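import Vale.Agent.P237.SliceGen
import Vale.Agent.P237.Existence
import Vale.Agent.P237.GeomBL

/-!
# P237: slices at a John position are large on average

For a symmetric body `K ⊇ B` in `E (m + 1)` with contacts `uᵢ` and `∑ cᵢ ⟪x, uᵢ⟫² = |x|²`:
`(m + 1) |K| ^ (m / (m + 1)) ≤ ∑ cᵢ ∫ A_uᵢ ^ ((m - 1) / m)`.
-/

namespace Vale.Agent.P237

open MeasureTheory Set Filter Topology Metric
open scoped RealInnerProductSpace ENNReal

namespace AvgSlice

/-- Slicing for bounded measurable functions. -/
theorem setIntegral_inner_meas {n : ℕ} {K : Set (E n)} {u : E n} (hK : IsCompact K)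
    (hu : ‖u‖ = 1) {g : ℝ → ℝ} (hg : Measurable g) {M : ℝ} (hM : ∀ t, |g t| ≤ M) :
    IntegrableOn (fun x => g ⟪x, u⟫) K ∧
      ∫ x in K, g ⟪x, u⟫ = ∫ t, g t * sliceVol K u t := by
  have hme := measurableEmbedding_perpCoord hu
  have hKm : MeasurableSet (perpCoord u ⁻¹' K) :=
    hK.isClosed.measurableSet.preimage hme.measurable
  have hx : IntegrableOn (fun x => g ⟪x, u⟫) K :=
    Measure.integrableOn_of_bounded hK.measure_lt_top.ne
      (hg.comp (by fun_prop : Measurable fun x : E n => ⟪x, u⟫)).aestronglyMeasurable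
      (ae_of_all _ fun x => hM _)
  refine ⟨hx, ?_⟩
  rw [← (measurePreserving_perpCoord hu).setIntegral_preimage_emb hme]
  simp only [inner_perpCoord hu]
  have hint : IntegrableOn (fun p : ℝ × Perp u => g p.1) (perpCoord u ⁻¹' K) := by
    have := ((measurePreserving_perpCoord hu).integrableOn_comp_preimage hme).2 hx
    simpa [Function.comp_def, inner_perpCoord hu] using this
  rw [← integral_indicator hKm]
  rw [← integrable_indicator_iff hKm] at hint
  rw [Measure.volume_eq_prod, integral_prod _ hint]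
  refine integral_congr_ae (.of_forall fun t => ?_)
  have e : (fun y : Perp u => (perpCoord u ⁻¹' K).indicator (fun p => g p.1) (t, y)) =
      {y : Perp u | t • u + (y : E n) ∈ K}.indicator fun _ => g t := by
    rfl
  show ∫ y, (perpCoord u ⁻¹' K).indicator (fun p => g p.1) (t, y) = _
  have hm : MeasurableSet {y : Perp u | t • u + (y : E n) ∈ K} :=
    hK.isClosed.measurableSet.preimage
      (by fun_prop : Measurable fun y : Perp u => t • u + (y : E n))
  rw [e, integral_indicator_const _ hm]
  simp only [sliceVol, Measure.real, smul_eq_mul]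
  ring

lemma inner_mem_Ioo {n : ℕ} {K : Set (E n)} {u : E n} (hneg : ∀ x ∈ K, -x ∈ K) (hu : ‖u‖ = 1)
    (hle : ∀ x ∈ K, ⟪x, u⟫ ≤ 1) {x : E n} (hx : x ∈ interior K) :
    ⟪x, u⟫ ∈ Ioo (-1 : ℝ) 1 := by
  obtain ⟨δ, hδ, hball⟩ := Metric.isOpen_iff.1 isOpen_interior x hx
  have hmem : ∀ s : ℝ, |s| < δ → x + s • u ∈ K := fun s hs => by
    refine interior_subset (hball ?_)
    rw [Metric.mem_ball, dist_eq_norm, add_sub_cancel_left, norm_smul, hu, mul_one]
    exact hs
  have h1 := hle _ (hmem (δ / 2) (by rw [abs_of_pos (half_pos hδ)]; linarith))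
  have h2 := hle _ (hneg _ (hmem (-(δ / 2)) (by rw [abs_neg, abs_of_pos (half_pos hδ)]; linarith)))
  simp only [inner_neg_left, inner_add_left, real_inner_smul_left, real_inner_self_eq_norm_sq,
    hu] at h1 h2
  constructor <;> linarith

/-- The tangent of `z ↦ z ^ (-θ)` at `s`. -/
lemma tangent_rpow_neg {θ z s : ℝ} (hθ : 0 ≤ θ) (hz : 0 < z) (hs : 0 < s) :
    s ^ (-θ) * (1 + θ - θ * (z / s)) ≤ z ^ (-θ) := by
  have hr : 0 < z / s := div_pos hz hs
  have h1 : 1 + θ - θ * (z / s) ≤ (z / s) ^ (-θ) := by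
    rw [Real.rpow_def_of_pos hr]
    have h := Real.add_one_le_exp (Real.log (z / s) * -θ)
    have h2 := mul_le_mul_of_nonneg_left (Real.log_le_sub_one_of_pos hr) hθ
    linarith
  calc s ^ (-θ) * (1 + θ - θ * (z / s)) ≤ s ^ (-θ) * (z / s) ^ (-θ) :=
        mul_le_mul_of_nonneg_left h1 (Real.rpow_nonneg hs.le _)
    _ = z ^ (-θ) := by rw [← Real.mul_rpow hs.le hr.le, mul_div_cancel₀ _ hs.ne']

/-- The averaged slice bound at a John position. -/
theorem avg_slice_ge {m : ℕ} (hm : 2 ≤ m) {K : Set (E (m + 1))} (hK : SymBody K)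
    (hb : closedBall 0 1 ⊆ K) {N : ℕ} {u : Fin N → E (m + 1)} {c : Fin N → ℝ}
    (hc : ∀ i, 0 ≤ c i) (hu : ∀ i, ‖u i‖ = 1) (hle : ∀ i, ∀ x ∈ K, ⟪x, u i⟫ ≤ 1)
    (hsum : ∀ x : E (m + 1), ∑ i, c i * ⟪x, u i⟫ ^ 2 = ‖x‖ ^ 2) :
    ((m : ℝ) + 1) * vol K ^ ((m : ℝ) / ((m : ℝ) + 1)) ≤
      ∑ i, c i * ∫ t in (-1 : ℝ)..1, sliceVol K (u i) t ^ (((m : ℝ) - 1) / m) := by
  set S := interior K with hSdef
  set V := vol K with hV
  set W := ∑ i, c i * ∫ t in (-1 : ℝ)..1, sliceVol K (u i) t ^ (((m : ℝ) - 1) / m) with hW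
  set n : ℝ := (m : ℝ) + 1 with hn
  have hn0 : 0 < n := by positivity
  have hm0 : (0 : ℝ) < m := by exact_mod_cast (show 0 < m by omega)
  set θ : ℝ := 1 / (n * m) with hθ
  have hθ0 : 0 ≤ θ := by positivity
  have hV0 : 0 < V := hK.toBody.vol_pos
  have hadm : ∀ i, SliceGen.Adm K (u i) := fun i => ⟨hK, hu i, hle i, hb⟩
  have hS : ∀ x ∈ S, ∀ i, ⟪x, u i⟫ ∈ Ioo (-1 : ℝ) 1 := fun x hx i =>
    inner_mem_Ioo hK.neg_mem (hu i) (hle i) hx
  have hSK : S =ᵐ[volume] K := interior_ae_eq_of_null_frontier (hK.convex.addHaar_frontier volume)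
  have hSfin : volume S ≠ ⊤ :=
    ((measure_mono interior_subset).trans_lt hK.compact.measure_lt_top).ne
  have hSV : volume.real S = V := by
    rw [hV, vol, Measure.real, measure_congr hSK]
  have hcn : ∑ i, c i = n := by
    rw [john_weight hu hsum]; simp [hn]
  have hcont : ∀ i, ContinuousOn (fun t => sliceVol K (u i) t) (Ioo (-1) 1) := by
    intro i
    have hh := (sliceGen_facts hm hK (hu i) (hle i) hb).1
    have hq : ContinuousOn (fun t => (sliceVol K (u i) t ^ (1 / (m : ℝ))) ^ (m : ℕ))
        (Ioo (-1) 1) :=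
      ((hh.subset Ioo_subset_Icc_self (convex_Ioo _ _)).continuousOn isOpen_Ioo).pow _
    refine hq.congr fun t _ => ?_
    exact (by rw [one_div]; exact (Real.rpow_inv_natCast_pow ENNReal.toReal_nonneg (by omega)).symm)
  have key : ∀ ε : ℝ, 0 < ε →
      n * V ^ ((m : ℝ) / n) * (1 + θ - θ * ((V + 2 * ε) ^ (m + 1) / V ^ (m + 1))) ≤ W := by
    intro ε hε
    set q : Fin N → ℝ → ℝ := fun i t => sliceVol K (u i) t + ε with hq
    have hq0 : ∀ i t, ε ≤ q i t := fun i t => le_add_of_nonneg_left ENNReal.toReal_nonneg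
    have hqp : ∀ i t, 0 < q i t := fun i t => hε.trans_le (hq0 i t)
    have hqc : ∀ i, ContinuousOn (q i) (Ioo (-1) 1) := fun i => (hcont i).add continuousOn_const
    set P : E (m + 1) → ℝ := fun x => ∏ i, q i ⟪x, u i⟫ ^ c i with hP
    have hP0 : ∀ x, 0 < P x := fun x => Finset.prod_pos fun i _ => Real.rpow_pos_of_pos (hqp i _) _
    have hPc : ContinuousOn P S := by
      refine continuousOn_finsetProd _ fun i _ => ?_
      refine ContinuousOn.rpow_const ((hqc i).comp (by fun_prop) fun x hx => hS x hx i)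
        fun x _ => Or.inl (hqp i _).ne'
    have hPm : AEStronglyMeasurable P (volume.restrict S) :=
      hPc.aestronglyMeasurable isOpen_interior.measurableSet
    -- Brascamp-Lieb
    set Z := V + 2 * ε with hZ
    have hZ0 : 0 < Z := by positivity
    have hqi : ∀ i, IntervalIntegrable (q i) volume (-1) 1 := fun i =>
      ((SliceGen.integrable_sliceVol hK.compact (hu i)).intervalIntegrable).add
        intervalIntegrable_const
    have hqint : ∀ i, ∫ t in (-1 : ℝ)..1, q i t = Z := by
      intro i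
      rw [intervalIntegral.integral_add
        ((SliceGen.integrable_sliceVol hK.compact (hu i)).intervalIntegrable)
        intervalIntegrable_const, (sliceGen_facts hm hK (hu i) (hle i) hb).2.2.2.2.1,
        intervalIntegral.integral_const, smul_eq_mul, hZ, hV]
      ring
    have hbl := GeomBL.geometric_bl (u := u) hc hu
      (fun x => by simpa only [real_inner_comm] using hsum x)
      (p := fun i t => q i t / Z) (fun i => (hqc i).div_const Z)
      (fun i t _ => div_pos (hqp i t) hZ0) (fun i => (hqi i).div_const Z)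
      (fun i => by rw [intervalIntegral.integral_div, hqint i, div_self hZ0.ne'])
      (S := S) isOpen_interior.measurableSet
      (fun x hx i => by rw [real_inner_comm]; exact hS x hx i)
    have hPe : ∀ x, ∏ i, (q i ⟪u i, x⟫ / Z) ^ c i = P x / Z ^ (m + 1) := by
      intro x
      rw [hP, ← Real.rpow_natCast Z (m + 1)]
      push_cast
      rw [← hn, ← hcn, Real.rpow_sum_of_pos hZ0, ← Finset.prod_div_distrib]
      refine Finset.prod_congr rfl fun i _ => ?_
      rw [Real.div_rpow (hqp i _).le hZ0.le, real_inner_comm]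
    simp only [hPe] at hbl
    have hPint : IntegrableOn P S := by
      have hfin : HasFiniteIntegral (fun x => P x / Z ^ (m + 1)) (volume.restrict S) :=
        (hasFiniteIntegral_iff_ofReal
          (Eventually.of_forall fun x => (div_pos (hP0 x) (pow_pos hZ0 _)).le)).2
          (hbl.trans_lt ENNReal.one_lt_top)
      have h : Integrable (fun x => P x / Z ^ (m + 1)) (volume.restrict S) :=
        ⟨(continuous_id.div_const _).comp_aestronglyMeasurable hPm, hfin⟩
      refine (h.mul_const (Z ^ (m + 1))).congr (Eventually.of_forall fun x => ?_)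
      exact div_mul_cancel₀ _ (pow_ne_zero _ hZ0.ne')
    have hPle : ∫ x in S, P x ≤ Z ^ (m + 1) := by
      have h := hbl
      rw [← ofReal_integral_eq_lintegral_ofReal (hPint.div_const _)
        (Eventually.of_forall fun x => (div_pos (hP0 x) (pow_pos hZ0 _)).le),
        ENNReal.ofReal_le_one, integral_div, div_le_one (pow_pos hZ0 _)] at h
      exact h
    -- the slice functions
    classical
    set g : Fin N → ℝ → ℝ := fun i =>
      (Ioo (-1 : ℝ) 1).piecewise (fun t => q i t ^ (-(1 / (m : ℝ)))) 0 with hg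
    have hgm : ∀ i, Measurable (g i) := fun i =>
      ContinuousOn.measurable_piecewise ((hqc i).rpow_const fun t _ => Or.inl (hqp i t).ne')
        continuousOn_const measurableSet_Ioo
    have hgb : ∀ i t, |g i t| ≤ ε ^ (-(1 / (m : ℝ))) := by
      intro i t
      rw [hg]
      simp only [Set.piecewise, Pi.zero_apply]
      split_ifs
      · rw [abs_of_nonneg (Real.rpow_nonneg (hqp i t).le _)]
        exact Real.rpow_le_rpow_of_nonpos hε (hq0 i t) (by simp)
      · rw [abs_zero]; positivity
    have hgK : ∀ i, ∫ x in K, g i ⟪x, u i⟫ ≤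
        ∫ t in (-1 : ℝ)..1, sliceVol K (u i) t ^ (((m : ℝ) - 1) / m) := by
      intro i
      rw [(setIntegral_inner_meas hK.compact (hu i) (hgm i) (hgb i)).2,
        intervalIntegral.integral_of_le (by norm_num), integral_Ioc_eq_integral_Ioo,
        ← integral_indicator measurableSet_Ioo]
      refine integral_mono ?_ ?_ fun t => ?_
      · exact (SliceGen.integrable_sliceVol hK.compact (hu i)).bdd_mul
          (hgm i).aestronglyMeasurable (ae_of_all _ (hgb i))
      · rw [integrable_indicator_iff measurableSet_Ioo]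
        exact ((intervalIntegrable_iff_integrableOn_Ioo_of_le (by norm_num)).1
          (SliceGen.intervalIntegrable_rpow (hadm i) hm (-1) 1))
      · by_cases ht : t ∈ Ioo (-1 : ℝ) 1
        · rw [indicator_of_mem ht, hg]
          simp only [Set.piecewise, if_pos ht]
          rcases eq_or_lt_of_le (ENNReal.toReal_nonneg (a :=
            volume {y : Perp (u i) | t • u i + (y : E (m + 1)) ∈ K})) with h | h
          · rw [show sliceVol K (u i) t = 0 from h.symm, mul_zero]
            exact Real.rpow_nonneg le_rfl _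
          · have hA : 0 < sliceVol K (u i) t := h
            calc q i t ^ (-(1 / (m : ℝ))) * sliceVol K (u i) t
                ≤ sliceVol K (u i) t ^ (-(1 / (m : ℝ))) * sliceVol K (u i) t :=
                  mul_le_mul_of_nonneg_right (Real.rpow_le_rpow_of_nonpos hA
                    (le_add_of_nonneg_right hε.le) (by simp)) hA.le
              _ = sliceVol K (u i) t ^ (((m : ℝ) - 1) / m) := by
                  rw [← Real.rpow_add_one hA.ne']
                  congr 1
                  field_simp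
                  ring
        · rw [indicator_of_notMem ht, hg]
          simp only [Set.piecewise, if_neg ht, Pi.zero_apply, zero_mul, le_refl]
    -- pointwise weighted means
    set s := V ^ m with hs
    have hs0 : 0 < s := pow_pos hV0 m
    have hpt : ∀ x ∈ S, s ^ (-θ) * (1 + θ - θ * (P x / s)) ≤
        ∑ i, c i / n * g i ⟪x, u i⟫ := by
      intro x hx
      refine (tangent_rpow_neg hθ0 (hP0 x) hs0).trans ?_
      have hge : ∀ i, g i ⟪x, u i⟫ = q i ⟪x, u i⟫ ^ (-(1 / (m : ℝ))) := fun i =>
        Set.piecewise_eq_of_mem _ _ _ (hS x hx i)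
      simp only [hge]
      refine le_trans (le_of_eq ?_) (Real.geom_mean_le_arith_mean_weighted Finset.univ
        (fun i => c i / n) _ (fun i _ => div_nonneg (hc i) hn0.le)
        (by rw [← Finset.sum_div, hcn, div_self hn0.ne']) fun i _ =>
          Real.rpow_nonneg (hqp i _).le _)
      rw [hP, ← Real.finsetProd_rpow _ _ fun i _ => Real.rpow_nonneg (hqp i _).le _]
      refine Finset.prod_congr rfl fun i _ => ?_
      rw [← Real.rpow_mul (hqp i _).le, ← Real.rpow_mul (hqp i _).le]
      congr 1
      rw [hθ]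
      field_simp
    have hgS : ∀ i, IntegrableOn (fun x => g i ⟪x, u i⟫) S := fun i =>
      (setIntegral_inner_meas hK.compact (hu i) (hgm i) (hgb i)).1.mono_set interior_subset
    have hsumint : IntegrableOn (fun x => ∑ i, c i / n * g i ⟪x, u i⟫) S :=
      integrable_finsetSum _ fun i _ => (hgS i).const_mul _
    have hcst : IntegrableOn (fun _ : E (m + 1) => 1 + θ) S := integrableOn_const hSfin
    have hlhs : IntegrableOn (fun x => s ^ (-θ) * (1 + θ - θ * (P x / s))) S :=
      (hcst.sub ((hPint.div_const s).const_mul θ)).const_mul _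
    have hmain := setIntegral_mono_on hlhs hsumint isOpen_interior.measurableSet hpt
    rw [integral_const_mul, integral_sub hcst ((hPint.div_const s).const_mul θ),
      setIntegral_const, integral_const_mul, integral_div, smul_eq_mul, hSV,
      integral_finsetSum _ fun i _ => (hgS i).const_mul _] at hmain
    have hrhs : ∑ i, ∫ x in S, c i / n * g i ⟪x, u i⟫ ≤ W / n := by
      rw [hW, Finset.sum_div]
      refine Finset.sum_le_sum fun i _ => ?_
      rw [integral_const_mul, setIntegral_congr_set hSK, div_mul_eq_mul_div]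
      exact div_le_div_of_nonneg_right (mul_le_mul_of_nonneg_left (hgK i) (hc i)) hn0.le
    have h2 : s ^ (-θ) * (V * (1 + θ) - θ * (Z ^ (m + 1) / s)) ≤
        s ^ (-θ) * (V * (1 + θ) - θ * ((∫ x in S, P x) / s)) := by
      gcongr
    have h3 := (h2.trans hmain).trans hrhs
    rw [le_div_iff₀ hn0] at h3
    refine le_trans (le_of_eq ?_) h3
    have e1 : V ^ ((m : ℝ) / n) = V * s ^ (-θ) := by
      rw [hs, ← Real.rpow_natCast V m, ← Real.rpow_mul hV0.le, mul_comm V,
        ← Real.rpow_add_one hV0.ne']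
      congr 1
      rw [hθ]
      field_simp
      rw [hn]; ring
    rw [e1, show Z ^ (m + 1) / s = V * (Z ^ (m + 1) / V ^ (m + 1)) by
      rw [hs, pow_succ V m]; field_simp]
    ring
  have hlim : Tendsto (fun ε : ℝ =>
      n * V ^ ((m : ℝ) / n) * (1 + θ - θ * ((V + 2 * ε) ^ (m + 1) / V ^ (m + 1)))) (𝓝[>] 0)
      (𝓝 (n * V ^ ((m : ℝ) / n))) := by
    refine tendsto_nhdsWithin_of_tendsto_nhds (Continuous.tendsto' (by fun_prop) _ _ ?_)
    simp [pow_ne_zero _ hV0.ne']
  exact le_of_tendsto hlim (eventually_mem_nhdsWithin.mono fun ε hε => key ε hε)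

end AvgSlice

end Vale.Agent.P237
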