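import Vale.Agent.P237.Defs

/-!
# P237: two-sided Stirling bounds for volumes of balls, and the comparison of
`∏ κ_k ^ (1/k)` with `κ_{n-1}^n κ_n^{2-n}`.
-/

namespace Vale.Agent.P237

open MeasureTheory Set Metric Real

namespace BallVolumes

/-- The volume of the unit ball. -/
noncomputable def kap (k : ℕ) : ℝ := vol (closedBall (0 : E k) 1)

lemma kap_eq {k : ℕ} (hk : 1 ≤ k) : kap k = √π ^ k / Gamma ((k : ℝ) / 2 + 1) := by
  haveI : Nonempty (Fin k) := ⟨⟨0, hk⟩⟩
  rw [kap, vol, EuclideanSpace.volume_closedBall]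
  have : 0 < Gamma ((k : ℝ) / 2 + 1) := Gamma_pos_of_pos (by positivity)
  simp [ENNReal.toReal_ofReal (by positivity : (0 : ℝ) ≤ √π ^ k / Gamma ((k : ℝ) / 2 + 1))]

lemma kap_pos {k : ℕ} (hk : 1 ≤ k) : 0 < kap k := by
  rw [kap_eq hk]
  have : 0 < Gamma ((k : ℝ) / 2 + 1) := Gamma_pos_of_pos (by positivity)
  positivity

/-- `log κ_k`. -/
noncomputable def lk (k : ℕ) : ℝ := k / 2 * log π - log (Gamma ((k : ℝ) / 2 + 1))

lemma log_kap {k : ℕ} (hk : 1 ≤ k) : log (kap k) = lk k := by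
  have hG : 0 < Gamma ((k : ℝ) / 2 + 1) := Gamma_pos_of_pos (by positivity)
  rw [kap_eq hk, log_div (by positivity) hG.ne', log_pow, log_sqrt pi_pos.le, lk]
  ring

lemma lk_add_two (k : ℕ) : lk (k + 2) = lk k + log (2 * π) - log (k + 2) := by
  have hx : (0 : ℝ) < (k : ℝ) / 2 + 1 := by positivity
  rw [lk, lk, show (((k + 2 : ℕ) : ℝ) / 2 + 1) = ((k : ℝ) / 2 + 1) + 1 by push_cast; ring,
    Gamma_add_one hx.ne', log_mul hx.ne' (Gamma_pos_of_pos hx).ne',
    show (k : ℝ) / 2 + 1 = ((k : ℝ) + 2) / 2 by ring, log_div (by positivity) two_ne_zero,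
    log_mul two_ne_zero pi_ne_zero]
  push_cast
  ring

lemma lk_concave (k : ℕ) : lk k + lk (k + 2) ≤ 2 * lk (k + 1) := by
  have hs : (0 : ℝ) < (k : ℝ) / 2 + 1 := by positivity
  have ht : (0 : ℝ) < (k : ℝ) / 2 + 2 := by positivity
  have h := Gamma_mul_add_mul_le_rpow_Gamma_mul_rpow_Gamma hs ht (a := 1 / 2) (b := 1 / 2)
    (by norm_num) (by norm_num) (by norm_num)
  have hm : (0 : ℝ) < 1 / 2 * ((k : ℝ) / 2 + 1) + 1 / 2 * ((k : ℝ) / 2 + 2) := by positivity
  have h2 := log_le_log (Gamma_pos_of_pos hm) h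
  rw [log_mul (rpow_pos_of_pos (Gamma_pos_of_pos hs) _).ne'
    (rpow_pos_of_pos (Gamma_pos_of_pos ht) _).ne', log_rpow (Gamma_pos_of_pos hs),
    log_rpow (Gamma_pos_of_pos ht),
    show 1 / 2 * ((k : ℝ) / 2 + 1) + 1 / 2 * ((k : ℝ) / 2 + 2) = ((k : ℝ) + 1) / 2 + 1 by ring]
    at h2
  simp only [lk]
  push_cast
  rw [show ((k : ℝ) + 2) / 2 + 1 = (k : ℝ) / 2 + 2 by ring]
  linarith

/-- The Stirling main term. -/
noncomputable def stir (k : ℕ) : ℝ := k / 2 * (log (2 * π) + 1 - log k)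

lemma log_ratio_bounds {k : ℝ} (hk : 0 < k) :
    k / 2 * (log (k + 2) - log k) ≤ 1 ∧ 1 ≤ (k + 2) / 2 * (log (k + 2) - log k) := by
  rw [← log_div (by positivity) hk.ne']
  constructor
  · have h := log_le_sub_one_of_pos (x := (k + 2) / k) (by positivity)
    calc k / 2 * log ((k + 2) / k) ≤ k / 2 * ((k + 2) / k - 1) :=
          mul_le_mul_of_nonneg_left h (by positivity)
      _ = 1 := by field_simp; ring
  · have h := one_sub_inv_le_log_of_pos (x := (k + 2) / k) (by positivity)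
    calc (1 : ℝ) = (k + 2) / 2 * (1 - ((k + 2) / k)⁻¹) := by field_simp; ring
      _ ≤ _ := mul_le_mul_of_nonneg_left h (by positivity)

lemma lk_bounds : ∀ k : ℕ, 1 ≤ k → lk k ≤ stir k ∧ stir k - log (3 * k) ≤ lk k := by
  have hl2 : 0 < log 2 := log_pos (by norm_num)
  have hlp : log 2 ≤ log π := log_le_log two_pos two_le_pi
  have h2p : log (2 * π) = log 2 + log π := log_mul two_ne_zero pi_ne_zero
  intro k
  induction k using Nat.twoStepInduction with
  | zero => intro h; omega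
  | one =>
    intro _
    have h1 : lk 1 = log 2 := by
      rw [← log_kap le_rfl, kap_eq le_rfl]
      congr 1
      rw [Nat.cast_one, Gamma_add_one (by norm_num), Gamma_one_half_eq]
      have : √π ≠ 0 := (sqrt_pos.2 pi_pos).ne'
      field_simp
    have h3 : log (2 * π) + 1 ≤ 2 * log 6 := by
      have h : log (2 * π * exp 1) ≤ log (6 ^ 2) := log_le_log (by positivity)
        (by nlinarith [pi_lt_d2, exp_one_lt_d9, pi_pos, exp_pos (1 : ℝ)])
      rw [log_mul (by positivity) (exp_ne_zero _), log_exp, log_pow] at h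
      exact_mod_cast h
    have h4 : log 6 = log 2 + log 3 := by
      rw [← log_mul two_ne_zero three_ne_zero]; norm_num
    simp only [stir, h1, Nat.cast_one, log_one, mul_one]
    constructor <;> linarith
  | more k ih _ =>
    intro _
    rcases Nat.eq_zero_or_pos k with rfl | hk
    · have h1 : lk 2 = log π := by
        rw [lk]
        norm_num
      have h6 : (1 : ℝ) ≤ log 6 := by
        rw [← log_exp 1]
        exact log_le_log (exp_pos _) (by linarith [exp_one_lt_d9])
      simp only [stir, zero_add, Nat.cast_ofNat, h1, h2p]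
      norm_num
      constructor <;> linarith
    · obtain ⟨h1, h2⟩ := ih hk
      have hk' : (0 : ℝ) < k := by exact_mod_cast hk
      obtain ⟨e1, e2⟩ := log_ratio_bounds hk'
      rw [lk_add_two]
      rw [log_mul three_ne_zero hk'.ne'] at h2
      simp only [stir] at h1 h2 ⊢
      push_cast
      rw [log_mul three_ne_zero (by positivity)]
      constructor <;> nlinarith

lemma sum_log_le : ∀ n : ℕ, 2 ≤ n →
    ∑ k ∈ Finset.Icc 3 n, log (k : ℝ) ≤ n * log n - n + log n + 1 := by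
  intro n hn
  induction n, hn using Nat.le_induction with
  | base =>
    have : log 2 > 0.6931471803 := log_two_gt_d9
    norm_num
    linarith
  | succ n hn ih =>
    have hn' : (0 : ℝ) < n := by exact_mod_cast (show 0 < n by omega)
    rw [Finset.sum_Icc_succ_top (by omega)]
    push_cast
    have h := one_sub_inv_le_log_of_pos (x := ((n : ℝ) + 1) / n) (by positivity)
    rw [log_div (by positivity) hn'.ne'] at h
    have h2 : 1 ≤ ((n : ℝ) + 1) * (log ((n : ℝ) + 1) - log n) := by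
      calc (1 : ℝ) = ((n : ℝ) + 1) * (1 - (((n : ℝ) + 1) / n)⁻¹) := by field_simp; ring
        _ ≤ _ := mul_le_mul_of_nonneg_left h (by positivity)
    linarith

/-- The recursive lower bound `4 ∏_{k=3}^n κ_k^{1/k}`. -/
noncomputable def lower (n : ℕ) : ℝ := 4 * ∏ k ∈ Finset.Icc 3 n, kap k ^ (1 / (k : ℝ))

lemma lower_pos (n : ℕ) : 0 < lower n := by
  refine mul_pos four_pos (Finset.prod_pos fun k hk => rpow_pos_of_pos (kap_pos ?_) _)
  linarith [(Finset.mem_Icc.1 hk).1]

/-- The recursion loses at most a factor `exp (5 (1 + log n)²)`. -/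
theorem lower_ge {n : ℕ} (hn : 2 ≤ n) :
    exp (-5 * (1 + log n) ^ 2) * (kap (n - 1) ^ n * kap n ^ (2 - (n : ℤ))) ≤ lower n := by
  obtain ⟨j, rfl⟩ : ∃ j, n = j + 1 := ⟨n - 1, by omega⟩
  have hj : 1 ≤ j := by omega
  simp only [Nat.add_sub_cancel]
  have hk1 := kap_pos hj
  have hk2 : 0 < kap (j + 1) := kap_pos (by omega)
  have hpos : 0 < exp (-5 * (1 + log ((j + 1 : ℕ) : ℝ)) ^ 2) *
      (kap j ^ (j + 1) * kap (j + 1) ^ (2 - ((j + 1 : ℕ) : ℤ))) := by positivity
  rw [← log_le_log_iff hpos (lower_pos _), log_mul (exp_ne_zero _) (by positivity), log_exp,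
    log_mul (by positivity) (by positivity), log_pow, log_zpow, log_kap hj,
    log_kap (by omega : 1 ≤ j + 1), lower,
    log_mul four_ne_zero (Finset.prod_pos fun k hk =>
      rpow_pos_of_pos (kap_pos (by linarith [(Finset.mem_Icc.1 hk).1])) _).ne',
    log_prod fun k hk =>
      (rpow_pos_of_pos (kap_pos (by linarith [(Finset.mem_Icc.1 hk).1])) _).ne']
  push_cast
  set L := log ((j : ℝ) + 1) with hL
  set l := log (2 * π) with hl
  have hj' : (1 : ℝ) ≤ j := by exact_mod_cast hj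
  have hL0 : 0 ≤ L := log_nonneg (by linarith)
  have hl2 : l ≤ 2 := by
    have h : log (2 * π) ≤ log (exp 2) := log_le_log (by positivity) (by
      have he : exp (2 : ℝ) = exp 1 * exp 1 := by rw [← exp_add]; norm_num
      nlinarith [pi_lt_d2, exp_one_gt_d9])
    rwa [log_exp] at h
  have hl0 : 0 ≤ l := log_nonneg (by linarith [two_le_pi])
  -- the ball value
  have hball : ((j : ℝ) + 1) * (lk j - lk (j + 1)) + 2 * lk (j + 1) ≤
      ((j : ℝ) + 1) / 2 * l - ((j : ℝ) + 1) / 2 * L + ((j : ℝ) + 1) + 1 / 2 := by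
    have h1 := lk_concave j
    rw [lk_add_two] at h1
    have h3 : log ((j : ℝ) + 2) ≤ L + 1 / ((j : ℝ) + 1) := by
      have h := log_le_sub_one_of_pos (x := ((j : ℝ) + 2) / ((j : ℝ) + 1)) (by positivity)
      rw [log_div (by positivity) (by positivity)] at h
      have e : ((j : ℝ) + 2) / ((j : ℝ) + 1) - 1 = 1 / ((j : ℝ) + 1) := by field_simp; ring
      linarith
    have h4 : ((j : ℝ) + 1) * (lk j - lk (j + 1)) ≤
        ((j : ℝ) + 1) * ((L + 1 / ((j : ℝ) + 1) - l) / 2) :=
      mul_le_mul_of_nonneg_left (by linarith) (by positivity)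
    have h5 := (lk_bounds (j + 1) (by omega)).1
    simp only [stir] at h5
    push_cast at h5
    rw [← hl, ← hL] at h5
    have e : ((j : ℝ) + 1) * ((L + 1 / ((j : ℝ) + 1) - l) / 2) =
        ((j : ℝ) + 1) / 2 * L + 1 / 2 - ((j : ℝ) + 1) / 2 * l := by field_simp
    linarith
  -- the product
  have hsum : ∀ k ∈ Finset.Icc 3 (j + 1),
      (l + 1) / 2 - 1 / 2 * log (k : ℝ) - (2 + L) * (k : ℝ)⁻¹ ≤ log (kap k ^ (1 / (k : ℝ))) := by
    intro k hk
    obtain ⟨h3, hkn⟩ := Finset.mem_Icc.1 hk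
    have hk0 : (0 : ℝ) < k := by exact_mod_cast (show 0 < k by omega)
    rw [log_rpow (kap_pos (by omega)), log_kap (by omega)]
    have h5 := (lk_bounds k (by omega)).2
    simp only [stir] at h5
    rw [log_mul three_ne_zero hk0.ne', ← hl] at h5
    have hkL : log (k : ℝ) ≤ L := log_le_log hk0 (by exact_mod_cast hkn)
    have h3' : log 3 ≤ 2 := by linarith [log_le_sub_one_of_pos (x := (3 : ℝ)) three_pos]
    calc (l + 1) / 2 - 1 / 2 * log (k : ℝ) - (2 + L) * (k : ℝ)⁻¹
        = 1 / (k : ℝ) * ((k : ℝ) / 2 * (l + 1 - log k) - (2 + L)) := by field_simp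
      _ ≤ _ := mul_le_mul_of_nonneg_left (by linarith) (by positivity)
  have hS := Finset.sum_le_sum hsum
  rw [Finset.sum_sub_distrib, Finset.sum_sub_distrib, Finset.sum_const, ← Finset.mul_sum,
    ← Finset.mul_sum, Nat.card_Icc, nsmul_eq_mul] at hS
  have hcard : ((j + 1 + 1 - 3 : ℕ) : ℝ) = (j : ℝ) + 1 - 2 := by
    rw [Nat.cast_sub (by omega)]; push_cast; ring
  have hlog := sum_log_le (j + 1) (by omega)
  have hharm : ∑ k ∈ Finset.Icc 3 (j + 1), (k : ℝ)⁻¹ ≤ 1 + L := by
    have h := harmonic_le_one_add_log (j + 1)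
    rw [harmonic_eq_sum_Icc] at h
    push_cast at h
    refine le_trans ?_ (h.trans_eq (by rw [hL]))
    exact Finset.sum_le_sum_of_subset_of_nonneg (Finset.Icc_subset_Icc (by norm_num) le_rfl)
      fun k _ _ => by positivity
  have hh2 := mul_le_mul_of_nonneg_left hharm (show (0 : ℝ) ≤ 2 + L by linarith)
  have h4 : 1 ≤ log (4 : ℝ) := by
    rw [← log_exp 1]
    exact log_le_log (exp_pos _) (by linarith [exp_one_lt_d9])
  rw [hcard] at hS
  push_cast at hlog
  rw [← hL] at hlog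
  nlinarith

end BallVolumes

end Vale.Agent.P237
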