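import Vale.Agent.P237.Final
import Vale.Agent.P237.AvgSlice
import Vale.Agent.P237.BallVolumes

/-!
# P237: Petty's inequality in every dimension up to a subexponential factor
-/

namespace Vale.Agent.P237

open MeasureTheory Set Metric BallVolumes AvgSlice

/-- One step of the recursion at a minimiser. -/
theorem lower_step {m : ℕ} (hm : 2 ≤ m) {r : ℝ} (hr : 0 ≤ r)
    (hR : ∀ C : Set (E m), Body C → r * vol C ^ (m - 1) ≤ vol (projBody C))
    (K : Set (E (m + 1))) (hK : Body K) :
    r * kap (m + 1) ^ (1 / ((m : ℝ) + 1)) * vol K ^ m ≤ vol (projBody K) := by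
  have hn : 2 ≤ m + 1 := by omega
  have H := hyps.toDualityHyps
  obtain ⟨M, hM, hmin⟩ := exists_minimizer H johnSpec hn
  obtain ⟨T, N, u, c, hb, hc, hu, hle, hsum⟩ := johnSpec (m + 1) M hn hM.1
  have hS : SymBody (T '' M) := hM.1.image T
  have hRT := R_image (by omega : 1 ≤ m + 1) T M
  have hmin' : R (T '' M) ≤ R (projBody (T '' M)) :=
    hRT ▸ hmin _ (projBodySpec (m + 1) _ hn hS.toBody).1.toBody
  set V := vol (T '' M) with hV
  have hV0 : 0 < V := hS.toBody.vol_pos
  have hκ0 : 0 < kap (m + 1) := kap_pos (by omega)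
  have hκV : kap (m + 1) ≤ V := by
    rw [kap, hV]
    exact vol_mono hS.toBody.compact hb
  have havg := avg_slice_ge hm hS hb hc hu hle hsum
  rw [← hV] at havg
  have hcn : ∑ i, c i = (m : ℝ) + 1 := by rw [john_weight hu hsum]; simp
  obtain ⟨i, hi⟩ : ∃ i, V ^ ((m : ℝ) / ((m : ℝ) + 1)) ≤
      ∫ t in (-1 : ℝ)..1, sliceVol (T '' M) (u i) t ^ (((m : ℝ) - 1) / m) := by
    by_contra hcon
    push Not at hcon
    obtain ⟨i₀, -, hi₀⟩ : ∃ i ∈ (Finset.univ : Finset (Fin N)), 0 < c i := by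
      by_contra h
      push Not at h
      have := Finset.sum_nonpos h
      rw [hcn] at this
      linarith [(m.cast_nonneg : (0 : ℝ) ≤ m)]
    have hlt : ∑ i, c i * (∫ t in (-1 : ℝ)..1, sliceVol (T '' M) (u i) t ^ (((m : ℝ) - 1) / m)) <
        ∑ i, c i * V ^ ((m : ℝ) / ((m : ℝ) + 1)) :=
      Finset.sum_lt_sum (fun i _ => mul_le_mul_of_nonneg_left (hcon i).le (hc i))
        ⟨i₀, Finset.mem_univ _, mul_lt_mul_of_pos_left (hcon i₀) hi₀⟩
    rw [← Finset.sum_mul, hcn] at hlt
    linarith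
  have h1 := sliceGen_bound pvProjSpec pvBasicSpec projBodySpec hm hr hR hS (hu i) (hle i) hb
  have h2 := pv_proj_le_of_R_le H hn hS hmin' (hle i)
  rw [mul_one, ← hV] at h2
  have h3 : r * (V ^ ((m : ℝ) / ((m : ℝ) + 1))) ^ m ≤ vol (projBody (T '' M)) / V := by
    refine le_trans ?_ (h1.trans h2)
    gcongr
  rw [le_div_iff₀ hV0, mul_assoc] at h3
  have h4 : (V ^ ((m : ℝ) / ((m : ℝ) + 1))) ^ m * V = V ^ m * V ^ (1 / ((m : ℝ) + 1)) := by
    rw [← Real.rpow_natCast (V ^ _) m, ← Real.rpow_mul hV0.le, ← Real.rpow_add_one hV0.ne',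
      ← Real.rpow_natCast V m, ← Real.rpow_add hV0]
    congr 1
    field_simp
    ring
  rw [h4] at h3
  have h5 : r * kap (m + 1) ^ (1 / ((m : ℝ) + 1)) ≤ R (T '' M) := by
    rw [R, ← hV, Nat.add_sub_cancel, le_div_iff₀ (pow_pos hV0 m)]
    refine le_trans ?_ h3
    rw [mul_assoc, mul_comm (V ^ m) (V ^ _)]
    gcongr
  have h6 := h5.trans (hRT ▸ hmin K hK)
  rwa [R, Nat.add_sub_cancel, le_div_iff₀ (pow_pos hK.vol_pos m)] at h6

/-- The recursive bound in every dimension. -/
theorem lower_bound : ∀ n : ℕ, 2 ≤ n → ∀ K : Set (E n), Body K →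
    lower n * vol K ^ (n - 1) ≤ vol (projBody K) := by
  intro n hn
  induction n, hn using Nat.le_induction with
  | base =>
    intro K hK
    have h : Finset.Icc 3 2 = (∅ : Finset ℕ) := by decide
    simpa [lower, h] using planar_bound K hK
  | succ n hn ih =>
    intro K hK
    have h := lower_step hn (lower_pos n).le ih K hK
    rw [Nat.add_sub_cancel]
    refine le_trans (le_of_eq ?_) h
    simp only [lower]
    rw [Finset.prod_Icc_succ_top (by omega)]
    push_cast
    ring

/-- Petty's inequality up to the factor `exp (-5 (1 + log n)²)`. -/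
theorem petty_asymptotic {n : ℕ} (hn : 2 ≤ n) (K : Set (E n)) (hc : Convex ℝ K)
    (hk : IsCompact K) (hi : (interior K).Nonempty) :
    Real.exp (-5 * (1 + Real.log n) ^ 2) *
        ((volume (closedBall (0 : E (n - 1)) 1)).toReal ^ n *
          (volume (closedBall (0 : E n) 1)).toReal ^ (2 - (n : ℤ))) *
        (volume K).toReal ^ (n - 1) ≤ (volume (ProjectionBody K)).toReal := by
  have hK : Body K := ⟨hc, hk, hi⟩
  rw [projectionBody_eq hyps hn hK]
  exact le_trans (mul_le_mul_of_nonneg_right (lower_ge hn) (pow_nonneg ENNReal.toReal_nonneg _))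
    (lower_bound n hn K hK)

/-- In high dimension the loss is at most `(1 - ε)^n`. -/
theorem petty_exponential_rate (ε : ℝ) (h0 : 0 < ε) (h1 : ε < 1) :
    ∃ n₀ : ℕ, ∀ n : ℕ, n₀ ≤ n → (1 - ε) ^ n ≤ Real.exp (-5 * (1 + Real.log n) ^ 2) := by
  have hlim : Filter.Tendsto (fun x : ℝ => (1 + Real.log x) ^ 2 / x) Filter.atTop (nhds 0) := by
    have a := Real.tendsto_pow_log_div_mul_add_atTop 1 0 2 one_ne_zero
    have b := Real.tendsto_pow_log_div_mul_add_atTop 1 0 1 one_ne_zero
    simp only [one_mul, add_zero, pow_one] at a b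
    have c : Filter.Tendsto (fun x : ℝ => x⁻¹) Filter.atTop (nhds 0) := tendsto_inv_atTop_zero
    have h := (c.add (b.const_mul 2)).add a
    simp only [mul_zero, add_zero] at h
    refine h.congr' (Filter.Eventually.of_forall fun x => ?_)
    ring
  have h := ((hlim.comp tendsto_natCast_atTop_atTop).const_mul 5)
  simp only [mul_zero, Function.comp_def] at h
  obtain ⟨n₁, hn₁⟩ := Filter.eventually_atTop.1 (h.eventually (eventually_le_nhds h0))
  refine ⟨max n₁ 1, fun n hn => ?_⟩
  have hn0 : (0 : ℝ) < n := by exact_mod_cast (show 0 < n by omega)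
  have h5 := hn₁ n (le_of_max_le_left hn)
  simp only [mul_div_assoc', div_le_iff₀ hn0] at h5
  calc (1 - ε) ^ n ≤ Real.exp (-ε) ^ n :=
        pow_le_pow_left₀ (by linarith) (by linarith [Real.add_one_le_exp (-ε)]) n
    _ = Real.exp (n * -ε) := (Real.exp_nat_mul _ _).symm
    _ ≤ _ := Real.exp_le_exp.2 (by linarith)

end Vale.Agent.P237
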