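import Vale.Agent.P237.Defs

/-!
# P237: the geometric Brascamp-Lieb inequality

Barthe's transport proof, for functions that are continuous and positive on an open interval,
and the entropy inequality it implies.
-/

namespace Vale.Agent.P237

open MeasureTheory Set Filter Topology
open scoped RealInnerProductSpace ENNReal

namespace BrascampLieb

/-- The density `exp (-π s²)` of total mass one. -/
noncomputable def gauss (s : ℝ) : ℝ := Real.exp (-Real.pi * s ^ 2)

/-- The distribution function of `gauss`. -/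
noncomputable def gaussCdf (t : ℝ) : ℝ := ∫ s in Iic t, gauss s

/-- The inverse of `gaussCdf`. -/
noncomputable def gaussQuantile : ℝ → ℝ := Function.invFun gaussCdf

lemma gauss_pos (s : ℝ) : 0 < gauss s := Real.exp_pos _

lemma integrable_gauss : Integrable gauss := integrable_exp_neg_mul_sq Real.pi_pos

lemma continuous_gauss : Continuous gauss := by unfold gauss; fun_prop

lemma integral_gauss : ∫ s, gauss s = 1 := by
  unfold gauss; rw [integral_gaussian, div_self Real.pi_ne_zero, Real.sqrt_one]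

lemma gaussCdf_sub (s t : ℝ) : gaussCdf t - gaussCdf s = ∫ x in s..t, gauss x :=
  intervalIntegral.integral_Iic_sub_Iic integrable_gauss.integrableOn integrable_gauss.integrableOn

lemma hasDerivAt_gaussCdf (t : ℝ) : HasDerivAt gaussCdf (gauss t) t := by
  have e : gaussCdf = fun x => gaussCdf 0 + ∫ s in (0 : ℝ)..x, gauss s := by
    funext x; rw [← gaussCdf_sub]; ring
  rw [e]
  exact (continuous_gauss.integral_hasStrictDerivAt 0 t).hasDerivAt.const_add _

lemma strictMono_gaussCdf : StrictMono gaussCdf :=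
  strictMono_of_hasDerivAt_pos hasDerivAt_gaussCdf gauss_pos

lemma gaussCdf_surj {p : ℝ} (hp : p ∈ Ioo (0 : ℝ) 1) : ∃ t, gaussCdf t = p := by
  have hc : Continuous gaussCdf :=
    continuous_iff_continuousAt.2 fun t => (hasDerivAt_gaussCdf t).continuousAt
  have h0 : Tendsto gaussCdf atBot (𝓝 0) := by
    have hr := intervalIntegral_tendsto_integral_Iic 0
      (integrable_gauss.integrableOn (s := Iic (0 : ℝ))) (tendsto_id (x := (atBot : Filter ℝ)))
    have := hr.const_sub (gaussCdf 0)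
    simp only [id_eq, ← gaussCdf_sub, sub_sub_cancel] at this
    rw [show (∫ x in Iic (0 : ℝ), gauss x) = gaussCdf 0 from rfl, sub_self] at this
    exact this
  have h1 : Tendsto gaussCdf atTop (𝓝 1) := by
    have := (aecover_Iic (μ := (volume : Measure ℝ)) (tendsto_id (x := (atTop : Filter ℝ))))
      |>.integral_tendsto_of_countably_generated integrable_gauss
    rwa [integral_gauss] at this
  obtain ⟨s, hs⟩ := (h0.eventually_lt_const hp.1).exists
  obtain ⟨t, ht⟩ := (h1.eventually_const_lt hp.2).exists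
  exact mem_range_of_exists_le_of_exists_ge hc ⟨s, hs.le⟩ ⟨t, ht.le⟩

lemma gaussCdf_quantile {p : ℝ} (hp : p ∈ Ioo (0 : ℝ) 1) : gaussCdf (gaussQuantile p) = p :=
  Function.invFun_eq (gaussCdf_surj hp)

lemma hasDerivAt_quantile {p : ℝ} (hp : p ∈ Ioo (0 : ℝ) 1) :
    HasDerivAt gaussQuantile (gauss (gaussQuantile p))⁻¹ p := by
  have hmem : Ioo (0 : ℝ) 1 ∈ 𝓝 p := isOpen_Ioo.mem_nhds hp
  have hcont : ContinuousAt gaussQuantile p := by
    refine continuousAt_of_monotoneOn_of_image_mem_nhds (s := Ioo (0 : ℝ) 1) (fun x hx y hy h => ?_)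
      hmem ?_
    · rwa [← strictMono_gaussCdf.le_iff_le, gaussCdf_quantile hx, gaussCdf_quantile hy]
    · refine Filter.mem_of_superset univ_mem fun t _ => ?_
      have hlo : ∀ a, 0 ≤ gaussCdf a := fun a =>
        setIntegral_nonneg measurableSet_Iic fun s _ => (gauss_pos s).le
      have hhi : ∀ a, gaussCdf a ≤ 1 := fun a => integral_gauss ▸
        setIntegral_le_integral integrable_gauss (ae_of_all _ fun s => (gauss_pos s).le)
      exact ⟨gaussCdf t, ⟨(hlo (t - 1)).trans_lt (strictMono_gaussCdf (by linarith)),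
        (strictMono_gaussCdf (by linarith : t < t + 1)).trans_le (hhi _)⟩,
        Function.leftInverse_invFun strictMono_gaussCdf.injective t⟩
  exact (hasDerivAt_gaussCdf _).of_local_left_inverse hcont (gauss_pos _).ne'
    (eventually_of_mem hmem fun y hy => gaussCdf_quantile hy)

/-- Monotone transport of a positive density on an interval to `gauss`. -/
theorem exists_transport {a b : ℝ} {f : ℝ → ℝ} (hab : a < b) (hf : ContinuousOn f (Ioo a b))
    (hpos : ∀ t ∈ Ioo a b, 0 < f t) (hint : IntegrableOn f (Ioo a b)) :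
    ∃ T τ : ℝ → ℝ, 0 < (∫ t in Ioo a b, f t) ∧ (∀ t ∈ Ioo a b, HasDerivAt T (τ t) t ∧ 0 < τ t ∧
      f t = (∫ t in Ioo a b, f t) * τ t * gauss (T t)) ∧ StrictMonoOn T (Ioo a b) := by
  set Z := ∫ t in Ioo a b, f t with hZdef
  have hZeq : Z = ∫ t in a..b, f t := by
    rw [intervalIntegral.integral_of_le hab.le, integral_Ioc_eq_integral_Ioo]
  have hII : IntervalIntegrable f volume a b :=
    (intervalIntegrable_iff_integrableOn_Ioo_of_le hab.le).2 hint
  have hsub : ∀ s t, a ≤ s → s ≤ t → t ≤ b → IntervalIntegrable f volume s t := fun s t h1 h2 h3 =>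
    hII.mono_set (by rw [uIcc_of_le h2, uIcc_of_le hab.le]; exact Icc_subset_Icc h1 h3)
  have hposI : ∀ s t, a ≤ s → s < t → t ≤ b → 0 < ∫ x in s..t, f x := fun s t h1 h2 h3 =>
    intervalIntegral.intervalIntegral_pos_of_pos_on (hsub s t h1 h2.le h3)
      (fun x hx => hpos x ⟨h1.trans_lt hx.1, hx.2.trans_le h3⟩) h2
  have hZ : 0 < Z := hZeq ▸ hposI a b le_rfl hab le_rfl
  set F : ℝ → ℝ := fun t => (∫ x in a..t, f x) / Z with hFdef
  have hF : ∀ t ∈ Ioo a b, F t ∈ Ioo (0 : ℝ) 1 := by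
    intro t ht
    refine ⟨div_pos (hposI a t le_rfl ht.1 ht.2.le) hZ, ?_⟩
    rw [hFdef, div_lt_one hZ, hZeq, ← intervalIntegral.integral_add_adjacent_intervals
      (hsub a t le_rfl ht.1.le ht.2.le) (hsub t b ht.1.le ht.2.le le_rfl)]
    linarith [hposI t b ht.1.le ht.2 le_rfl]
  refine ⟨fun t => gaussQuantile (F t),
    fun t => f t / Z / gauss (gaussQuantile (F t)), hZ, fun t ht => ⟨?_, ?_, ?_⟩, ?_⟩
  · have h1 : HasDerivAt F (f t / Z) t :=
      (intervalIntegral.integral_hasDerivAt_right (hsub a t le_rfl ht.1.le ht.2.le)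
        (hf.stronglyMeasurableAtFilter isOpen_Ioo t ht)
        (hf.continuousAt (isOpen_Ioo.mem_nhds ht))).div_const Z
    simpa [Function.comp_def, div_eq_mul_inv, mul_comm] using (hasDerivAt_quantile (hF t ht)).comp t h1
  · exact div_pos (div_pos (hpos t ht) hZ) (gauss_pos _)
  · have := (gauss_pos (gaussQuantile (F t))).ne'
    field_simp
  · intro s hs t ht hst
    have h : F s < F t := by
      refine (div_lt_div_iff_of_pos_right hZ).2 ?_
      rw [← intervalIntegral.integral_add_adjacent_intervals (hsub a s le_rfl hs.1.le hs.2.le)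
        (hsub s t hs.1.le hst.le ht.2.le)]
      linarith [hposI s t hs.1.le hst ht.2.le]
    rwa [← strictMono_gaussCdf.lt_iff_lt, gaussCdf_quantile (hF s hs), gaussCdf_quantile (hF t ht)]

variable {n N : ℕ} (u : Fin N → E n) (c : Fin N → ℝ)

/-- `∑ c_i τ_i u_i ⊗ u_i`. -/
noncomputable def weightedOp (τ : Fin N → ℝ) : E n →L[ℝ] E n :=
  ∑ i, (c i * τ i) • (innerSL ℝ (u i)).smulRight (u i)

lemma weightedOp_apply (τ : Fin N → ℝ) (v : E n) :
    weightedOp u c τ v = ∑ i, (c i * τ i * ⟪u i, v⟫) • u i := by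
  simp [weightedOp, smul_smul]

/-- Ball's determinant inequality. -/
lemma prod_rpow_le_det (hc : ∀ i, 0 ≤ c i) (hu : ∀ i, ‖u i‖ = 1)
    (hsum : ∀ x : E n, ∑ i, c i * ⟪x, u i⟫ ^ 2 = ‖x‖ ^ 2) (τ : Fin N → ℝ) (hτ : ∀ i, 0 < τ i) :
    ∏ i, τ i ^ c i ≤ (weightedOp u c τ).det := by
  have hsym : (weightedOp u c τ : E n →ₗ[ℝ] E n).IsSymmetric := fun x y => by
    simp only [ContinuousLinearMap.coe_coe, weightedOp_apply, sum_inner, inner_sum,
      real_inner_smul_left, real_inner_smul_right, real_inner_comm x]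
    exact Finset.sum_congr rfl fun i _ => by ring
  have hfin : Module.finrank ℝ (E n) = n := finrank_euclideanSpace_fin
  rw [ContinuousLinearMap.det, hsym.det_eq_prod_eigenvalues hfin]
  set e := hsym.eigenvectorBasis hfin with he
  have hev : ∀ k, hsym.eigenvalues hfin k = ∑ i, c i * ⟪e k, u i⟫ ^ 2 * τ i := by
    intro k
    have h1 : ⟪e k, weightedOp u c τ (e k)⟫ = hsym.eigenvalues hfin k := by
      rw [← ContinuousLinearMap.coe_coe, hsym.apply_eigenvectorBasis, real_inner_smul_right,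
        real_inner_self_eq_norm_sq, OrthonormalBasis.norm_eq_one]
      simp
    rw [← h1, weightedOp_apply, inner_sum]
    refine Finset.sum_congr rfl fun i _ => ?_
    rw [real_inner_smul_right, real_inner_comm (u i)]; ring
  have hprod : ∏ i, τ i ^ c i = ∏ k, ∏ i, τ i ^ (c i * ⟪e k, u i⟫ ^ 2) := by
    rw [Finset.prod_comm]
    refine Finset.prod_congr rfl fun i _ => ?_
    have h1 : ∑ k, ⟪e k, u i⟫ ^ 2 = 1 := by
      have := e.sum_sq_norm_inner_right (u i)
      simpa [hu i, Real.norm_eq_abs, sq_abs] using this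
    rw [← Real.rpow_sum_of_pos (hτ i), ← Finset.mul_sum, h1, mul_one]
  rw [hprod, RCLike.ofReal_real_eq_id]
  refine Finset.prod_le_prod (fun k _ => Finset.prod_nonneg fun i _ =>
    Real.rpow_nonneg (hτ i).le _) fun k _ => ?_
  rw [id, hev]
  exact Real.geom_mean_le_arith_mean_weighted _ _ _
    (fun i _ => mul_nonneg (hc i) (sq_nonneg _))
    (by rw [hsum, OrthonormalBasis.norm_eq_one, one_pow]) (fun i _ => (hτ i).le)

lemma norm_sq_sum_smul_le (hc : ∀ i, 0 ≤ c i)
    (hsum : ∀ x : E n, ∑ i, c i * ⟪x, u i⟫ ^ 2 = ‖x‖ ^ 2) (s : Fin N → ℝ) :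
    ‖∑ i, (c i * s i) • u i‖ ^ 2 ≤ ∑ i, c i * s i ^ 2 := by
  set v := ∑ i, (c i * s i) • u i with hv
  have h1 : ‖v‖ ^ 2 = ∑ i, c i * s i * ⟪v, u i⟫ := by
    rw [← real_inner_self_eq_norm_sq]
    conv_lhs => rw [hv]; arg 2; rw [← hv]
    rw [sum_inner]
    exact Finset.sum_congr rfl fun i _ => by rw [real_inner_smul_left, real_inner_comm]
  have h2 : ∑ i, 2 * (c i * s i * ⟪v, u i⟫) ≤ ∑ i, (c i * s i ^ 2 + c i * ⟪v, u i⟫ ^ 2) :=
    Finset.sum_le_sum fun i _ => by nlinarith [mul_nonneg (hc i) (sq_nonneg (s i - ⟪v, u i⟫))]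
  rw [← Finset.mul_sum, Finset.sum_add_distrib, hsum, ← h1] at h2
  linarith

lemma lintegral_gauss_norm :
    ∫⁻ y : E n, ENNReal.ofReal (Real.exp (-Real.pi * ‖y‖ ^ 2)) = 1 := by
  have h : ∫ y : E n, Real.exp (-Real.pi * ‖y‖ ^ 2) = 1 := by
    rw [GaussianFourier.integral_rexp_neg_mul_sq_norm Real.pi_pos, div_self Real.pi_ne_zero,
      Real.one_rpow]
  rw [← ofReal_integral_eq_lintegral_ofReal (Integrable.of_integral_ne_zero (by rw [h]; exact one_ne_zero))
    (ae_of_all _ fun y => (Real.exp_pos _).le), h, ENNReal.ofReal_one]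

end BrascampLieb

open BrascampLieb in
/-- The geometric Brascamp-Lieb inequality on a product of slabs. -/
theorem geometric_brascamp_lieb {n N : ℕ} (u : Fin N → E n) (c : Fin N → ℝ) (hc : ∀ i, 0 ≤ c i)
    (hu : ∀ i, ‖u i‖ = 1) (hsum : ∀ x : E n, ∑ i, c i * ⟪x, u i⟫ ^ 2 = ‖x‖ ^ 2)
    (a b : Fin N → ℝ) (f : Fin N → ℝ → ℝ) (hab : ∀ i, a i < b i)
    (hf : ∀ i, ContinuousOn (f i) (Ioo (a i) (b i))) (hpos : ∀ i, ∀ t ∈ Ioo (a i) (b i), 0 < f i t)
    (hint : ∀ i, IntegrableOn (f i) (Ioo (a i) (b i))) :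
    ∫⁻ x in {x : E n | ∀ i, ⟪x, u i⟫ ∈ Ioo (a i) (b i)},
        ENNReal.ofReal (∏ i, f i ⟪x, u i⟫ ^ c i) ≤
      ENNReal.ofReal (∏ i, (∫ t in Ioo (a i) (b i), f i t) ^ c i) := by
  choose T τ hZ hT hmono using fun i => exists_transport (hab i) (hf i) (hpos i) (hint i)
  set Z : Fin N → ℝ := fun i => ∫ t in Ioo (a i) (b i), f i t with hZdef
  set U := {x : E n | ∀ i, ⟪x, u i⟫ ∈ Ioo (a i) (b i)} with hU
  set Θ : E n → E n := fun x => ∑ i, (c i * T i ⟪x, u i⟫) • u i with hΘ
  have hUm : MeasurableSet U := by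
    rw [hU, ofPred_forall]
    exact MeasurableSet.iInter fun i => (measurable_id.inner measurable_const) measurableSet_Ioo
  have hderiv : ∀ x ∈ U, HasFDerivWithinAt Θ (weightedOp u c fun i => τ i ⟪x, u i⟫) U x := by
    intro x hx
    refine (HasFDerivAt.fun_sum fun i _ => ?_).hasFDerivWithinAt
    have h1 : HasFDerivAt (fun y : E n => T i ⟪y, u i⟫) (τ i ⟪x, u i⟫ • innerSL ℝ (u i)) x := by
      have h0 := (innerSL ℝ (u i)).hasFDerivAt (x := x)
      have h2 := ((hT i _ (hx i)).1).comp_hasFDerivAt_of_eq x h0 (by simp [real_inner_comm])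
      simpa [Function.comp_def, real_inner_comm] using h2
    convert (h1.const_mul (c i)).smul_const (u i) using 1
    ext v
    simp [mul_assoc]
  have hinj : InjOn Θ U := by
    intro x hx y hy h
    have h0 : ∑ i, c i * ((T i ⟪x, u i⟫ - T i ⟪y, u i⟫) * ⟪x - y, u i⟫) = 0 := by
      have : ⟪Θ x - Θ y, x - y⟫ = 0 := by rw [h, sub_self, inner_zero_left]
      rw [← this]
      simp only [hΘ, ← Finset.sum_sub_distrib, sum_inner, ← sub_smul, real_inner_smul_left,
        real_inner_comm (u _) (x - y)]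
      exact Finset.sum_congr rfl fun i _ => by ring
    have hnn : ∀ i, 0 ≤ c i * ((T i ⟪x, u i⟫ - T i ⟪y, u i⟫) * ⟪x - y, u i⟫) := fun i => by
      refine mul_nonneg (hc i) ?_
      rw [inner_sub_left]
      rcases le_total ⟪x, u i⟫ ⟪y, u i⟫ with hh | hh
      · exact mul_nonneg_of_nonpos_of_nonpos
          (sub_nonpos.2 ((hmono i).monotoneOn (hx i) (hy i) hh)) (sub_nonpos.2 hh)
      · exact mul_nonneg (sub_nonneg.2 ((hmono i).monotoneOn (hy i) (hx i) hh)) (sub_nonneg.2 hh)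
    have hz := (Finset.sum_eq_zero_iff_of_nonneg fun i _ => hnn i).1 h0
    have : ‖x - y‖ ^ 2 = 0 := by
      rw [← hsum]
      refine Finset.sum_eq_zero fun i _ => ?_
      rcases mul_eq_zero.1 (hz i (Finset.mem_univ i)) with h1 | h1
      · rw [h1, zero_mul]
      rcases mul_eq_zero.1 h1 with h2 | h2
      · rw [inner_sub_left, (hmono i).injOn (hx i) (hy i) (sub_eq_zero.1 h2), sub_self]; simp
      · rw [h2]; simp
    simpa [sub_eq_zero] using this
  have hP : 0 ≤ ∏ i, Z i ^ c i := Finset.prod_nonneg fun i _ => Real.rpow_nonneg (hZ i).le _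
  have hpt : ∀ x ∈ U, ENNReal.ofReal (∏ i, f i ⟪x, u i⟫ ^ c i) ≤ ENNReal.ofReal (∏ i, Z i ^ c i) *
      (ENNReal.ofReal |(weightedOp u c fun i => τ i ⟪x, u i⟫).det| *
        ENNReal.ofReal (Real.exp (-Real.pi * ‖Θ x‖ ^ 2))) := by
    intro x hx
    rw [← ENNReal.ofReal_mul (abs_nonneg _), ← ENNReal.ofReal_mul hP]
    refine ENNReal.ofReal_le_ofReal ?_
    have e : ∀ i, f i ⟪x, u i⟫ ^ c i = Z i ^ c i * (τ i ⟪x, u i⟫ ^ c i *
        Real.exp (-Real.pi * (c i * T i ⟪x, u i⟫ ^ 2))) := fun i => by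
      obtain ⟨-, h2, h3⟩ := hT i _ (hx i)
      rw [h3, Real.mul_rpow (mul_nonneg (hZ i).le h2.le) (gauss_pos _).le,
        Real.mul_rpow (hZ i).le h2.le, mul_assoc, gauss, ← Real.exp_mul]
      congr 3; ring
    simp only [e, Finset.prod_mul_distrib, ← Real.exp_sum, ← Finset.mul_sum]
    refine mul_le_mul_of_nonneg_left (mul_le_mul ?_ ?_ (Real.exp_pos _).le (abs_nonneg _)) hP
    · exact (prod_rpow_le_det u c hc hu hsum _ fun i => (hT i _ (hx i)).2.1).trans (le_abs_self _)
    · exact Real.exp_le_exp.2 (by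
        nlinarith [Real.pi_pos, norm_sq_sum_smul_le u c hc hsum fun i => T i ⟪x, u i⟫])
  calc ∫⁻ x in U, ENNReal.ofReal (∏ i, f i ⟪x, u i⟫ ^ c i)
      ≤ ∫⁻ x in U, ENNReal.ofReal (∏ i, Z i ^ c i) *
          (ENNReal.ofReal |(weightedOp u c fun i => τ i ⟪x, u i⟫).det| *
            ENNReal.ofReal (Real.exp (-Real.pi * ‖Θ x‖ ^ 2))) := setLIntegral_mono' hUm hpt
    _ = ENNReal.ofReal (∏ i, Z i ^ c i) *
          ∫⁻ y in Θ '' U, ENNReal.ofReal (Real.exp (-Real.pi * ‖y‖ ^ 2)) := by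
        rw [lintegral_const_mul' _ _ ENNReal.ofReal_ne_top,
          lintegral_image_eq_lintegral_abs_det_fderiv_mul volume hUm hderiv hinj]
    _ ≤ ENNReal.ofReal (∏ i, Z i ^ c i) * 1 := by
        rw [← lintegral_gauss_norm (n := n)]
        exact mul_le_mul' le_rfl (setLIntegral_le_lintegral _ _)
    _ = _ := mul_one _

end Vale.Agent.P237
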