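import Vale.Agent.P237.Spec
import Vale.Agent.P245.PL

/-!
# P237, module A: the Brunn–Minkowski inequality and its equality case

The inequality comes from Prékopa–Leindler by scaling.  For the equality case let `Q` and `P` be
the quantile functions of `K` and `L` (volume one) in a direction.  Then `a Q + b P` is the
quantile function of `a K + b L`; the inequality applied to two thin slabs whose volumes are
chosen from the right derivatives of `Q` and `P` shows that these derivatives agree, so `P - Q`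
is constant: the marginals of `L` are translates of those of `K`, and the barycentre tells by
how much.
-/

namespace Vale.Agent.P237

open MeasureTheory Set Filter Topology
open scoped Pointwise RealInnerProductSpace ENNReal

namespace BM

variable {n : ℕ} {a b : ℝ}

/-- Multiplicative Brunn–Minkowski. -/
lemma bm_mult (ha : 0 < a) (hb : 0 < b) (hab : a + b = 1) {A B C : Set (E n)}
    (hA : MeasurableSet A) (hB : MeasurableSet B) (hC : MeasurableSet C)
    (hsub : ∀ x ∈ A, ∀ y ∈ B, a • x + b • y ∈ C) :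
    volume A ^ a * volume B ^ b ≤ volume C := by
  classical
  have h := Vale.Agent.P245.pl_euclidean ha hb hab (n := n) (A.indicator fun _ => 1)
    (B.indicator fun _ => 1) (C.indicator fun _ => 1) (measurable_one.indicator hA)
    (measurable_one.indicator hB) (measurable_one.indicator hC) (fun x y => ?_)
  · simpa [lintegral_indicator_const hA, lintegral_indicator_const hB,
      lintegral_indicator_const hC] using h
  · by_cases hx : x ∈ A
    · by_cases hy : y ∈ B
      · simp [hx, hy, hsub x hx y hy]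
      · simp [hy, ENNReal.zero_rpow_of_pos hb]
    · simp [hx, ENNReal.zero_rpow_of_pos ha]

lemma volume_smul {r : ℝ} (hr : 0 ≤ r) (A : Set (E n)) :
    volume (r • A) = ENNReal.ofReal (r ^ n) * volume A := by
  rw [Measure.addHaar_smul, finrank_euclideanSpace_fin, abs_of_nonneg (pow_nonneg hr n)]

lemma vol_smul {r : ℝ} (hr : 0 ≤ r) (A : Set (E n)) : vol (r • A) = r ^ n * vol A := by
  rw [vol, volume_smul hr, ENNReal.toReal_mul, ENNReal.toReal_ofReal (pow_nonneg hr n), vol]

/-- Brunn–Minkowski with weights. -/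
lemma bm_pow (ha : 0 < a) (hb : 0 < b) (_hab : a + b = 1) {A B C : Set (E n)}
    (hA : MeasurableSet A) (hB : MeasurableSet B) (hC : MeasurableSet C) (hfin : volume C ≠ ∞)
    (hsub : ∀ x ∈ A, ∀ y ∈ B, a • x + b • y ∈ C) {α β : ℝ} (hα : 0 < α) (hβ : 0 < β)
    (hAv : α ^ n ≤ vol A) (hBv : β ^ n ≤ vol B) : (a * α + b * β) ^ n ≤ vol C := by
  set γ := a * α + b * β with hγd
  have hγ : 0 < γ := by positivity
  have h := bm_mult (a := a * α / γ) (b := b * β / γ) (A := α⁻¹ • A) (B := β⁻¹ • B)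
    (C := γ⁻¹ • C) (by positivity) (by positivity) (by rw [← add_div, div_self hγ.ne'])
    (hA.const_smul₀ _) (hB.const_smul₀ _) (hC.const_smul₀ _) ?_
  · have hge : ∀ (D : Set (E n)) (r : ℝ), 0 < r → r ^ n ≤ vol D → 1 ≤ volume (r⁻¹ • D) := by
      intro D r hr hD
      rw [volume_smul (inv_nonneg.2 hr.le)]
      calc (1 : ℝ≥0∞) = ENNReal.ofReal (r⁻¹ ^ n) * ENNReal.ofReal (r ^ n) := by
            rw [← ENNReal.ofReal_mul (by positivity), ← mul_pow, inv_mul_cancel₀ hr.ne',
              one_pow, ENNReal.ofReal_one]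
        _ ≤ _ := mul_le_mul' le_rfl (ENNReal.ofReal_le_of_le_toReal hD)
    have h1 : (1 : ℝ≥0∞) ≤ volume (γ⁻¹ • C) :=
      le_trans (one_le_mul (ENNReal.one_le_rpow (hge A α hα hAv) (by positivity))
        (ENNReal.one_le_rpow (hge B β hβ hBv) (by positivity))) h
    have h2 := ENNReal.toReal_mono (by
      rw [volume_smul (inv_nonneg.2 hγ.le)]
      exact ENNReal.mul_ne_top ENNReal.ofReal_ne_top hfin) h1
    rw [ENNReal.toReal_one, show (volume (γ⁻¹ • C)).toReal = vol (γ⁻¹ • C) from rfl,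
      vol_smul (inv_nonneg.2 hγ.le)] at h2
    rw [inv_pow, ← div_eq_inv_mul, le_div_iff₀ (by positivity), one_mul] at h2
    exact h2
  · rintro x hx y hy
    obtain ⟨p, hp, rfl⟩ := mem_smul_set.1 hx
    obtain ⟨q, hq, rfl⟩ := mem_smul_set.1 hy
    refine mem_smul_set.2 ⟨_, hsub p hp q hq, ?_⟩
    rw [smul_smul, smul_smul, smul_add, smul_smul, smul_smul]
    congr 2 <;> field_simp

/-! ### Cuts by half spaces -/

/-- The volume of `K` below the level `s` in direction `u`. -/
noncomputable def cutVol (K : Set (E n)) (u : E n) (s : ℝ) : ℝ :=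
  vol (K ∩ {x | ⟪x, u⟫ ≤ s})

/-- The distribution of `⟪·, u⟫` on `K`. -/
noncomputable def marg (K : Set (E n)) (u : E n) : Measure ℝ :=
  Measure.map (fun x => ⟪x, u⟫) (volume.restrict K)

lemma measurable_inner' (u : E n) : Measurable fun x : E n => ⟪x, u⟫ :=
  (continuous_id.inner continuous_const).measurable

lemma marg_apply (K : Set (E n)) (u : E n) {s : Set ℝ} (hs : MeasurableSet s) :
    marg K u s = volume (K ∩ {x | ⟪x, u⟫ ∈ s}) := by
  rw [marg, Measure.map_apply (measurable_inner' u) hs,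
    Measure.restrict_apply (measurable_inner' u hs), inter_comm]
  rfl

lemma volume_level {u : E n} (hu : u ≠ 0) (s : ℝ) : volume {x : E n | ⟪x, u⟫ = s} = 0 := by
  have hker : volume ((ℝ ∙ u)ᗮ : Set (E n)) = 0 := by
    refine Measure.addHaar_submodule _ _ fun h => hu ?_
    have : u ∈ (ℝ ∙ u)ᗮ := h ▸ Submodule.mem_top
    exact inner_self_eq_zero.1 (Submodule.mem_orthogonal_singleton_iff_inner_right.1 this)
  have e : {x : E n | ⟪x, u⟫ = s} ⊆ (s / ‖u‖ ^ 2) • u +ᵥ ((ℝ ∙ u)ᗮ : Set (E n)) := by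
    intro x hx
    refine mem_vadd_set.2 ⟨x - (s / ‖u‖ ^ 2) • u, ?_, by rw [vadd_eq_add]; abel⟩
    rw [SetLike.mem_coe, Submodule.mem_orthogonal_singleton_iff_inner_right, inner_sub_right,
      inner_smul_right, real_inner_self_eq_norm_sq, div_mul_cancel₀, real_inner_comm]
    · exact sub_eq_zero.2 hx
    · exact pow_ne_zero _ (norm_ne_zero_iff.2 hu)
  exact measure_mono_null e (by rw [measure_vadd]; exact hker)

/-- A convex compact set of volume one. -/
structure UnitBody (K : Set (E n)) : Prop where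
  convex : Convex ℝ K
  compact : IsCompact K
  vol_one : vol K = 1

variable {K L M : Set (E n)} {u : E n}

lemma measurableSet_cut (hK : IsCompact K) {s : Set ℝ} (hs : MeasurableSet s) :
    MeasurableSet (K ∩ {x | ⟪x, u⟫ ∈ s}) :=
  hK.measurableSet.inter (measurable_inner' u hs)

lemma volume_cut_ne_top (hK : IsCompact K) (S : Set (E n)) : volume (K ∩ S) ≠ ∞ :=
  measure_ne_top_of_subset inter_subset_left hK.measure_lt_top.ne

lemma isFiniteMeasure_marg (hK : IsCompact K) (u : E n) : IsFiniteMeasure (marg K u) := by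
  have : IsFiniteMeasure (volume.restrict K) :=
    ⟨by rw [Measure.restrict_apply_univ]; exact hK.measure_lt_top⟩
  unfold marg
  infer_instance

lemma noAtoms_marg (hu : u ≠ 0) : NullSingletonClass (marg K u) :=
  ⟨fun s => by
    rw [marg_apply K u (measurableSet_singleton s)]
    exact measure_mono_null inter_subset_right (volume_level hu s)⟩

lemma cutVol_eq (K : Set (E n)) (u : E n) (s : ℝ) : cutVol K u s = (marg K u).real (Iic s) := by
  rw [measureReal_def, marg_apply K u measurableSet_Iic]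
  rfl

lemma cutVol_continuous (hK : IsCompact K) (hu : u ≠ 0) : Continuous (cutVol K u) := by
  have := isFiniteMeasure_marg hK u
  have := noAtoms_marg (K := K) hu
  have e : cutVol K u = fun s => cutVol K u 0 + ∫ _ in (0 : ℝ)..s, (1 : ℝ) ∂(marg K u) := by
    funext s
    rw [← intervalIntegral.integral_Iic_sub_Iic (integrable_const _).integrableOn
      (integrable_const _).integrableOn, setIntegral_const, setIntegral_const, cutVol_eq,
      cutVol_eq]
    simp
  rw [e]
  exact continuous_const.add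
    (intervalIntegral.continuous_primitive (fun _ _ => intervalIntegrable_const) 0)

lemma cutVol_mono (hK : IsCompact K) : Monotone (cutVol K u) := by
  intro s t hst
  have := isFiniteMeasure_marg hK u
  rw [cutVol_eq, cutVol_eq]
  exact measureReal_mono (Iic_subset_Iic.2 hst)

lemma slab_eq (hK : IsCompact K) (hu : u ≠ 0) {s t : ℝ} (hst : s ≤ t) :
    vol (K ∩ {x | ⟪x, u⟫ ∈ Icc s t}) = cutVol K u t - cutVol K u s := by
  have := isFiniteMeasure_marg hK u
  have := noAtoms_marg (K := K) hu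
  have e : vol (K ∩ {x | ⟪x, u⟫ ∈ Icc s t}) = (marg K u).real (Icc s t) := by
    rw [measureReal_def, marg_apply K u measurableSet_Icc]
    rfl
  rw [e, cutVol_eq, cutVol_eq, measureReal_congr (Ioc_ae_eq_Icc (μ := marg K u)).symm,
    ← Iic_sdiff_Iic, measureReal_sdiff (Iic_subset_Iic.2 hst) measurableSet_Iic]

lemma cutVol_neg (hK : UnitBody K) (hu : u ≠ 0) (s : ℝ) :
    cutVol K (-u) (-s) = 1 - cutVol K u s := by
  have hdiff : vol (K \ {x | ⟪x, u⟫ ≤ s}) = 1 - cutVol K u s := by
    have hm : MeasurableSet (K ∩ {x | ⟪x, u⟫ ≤ s}) :=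
      measurableSet_cut hK.compact measurableSet_Iic
    have h := measureReal_sdiff (μ := volume) (s₁ := K) inter_subset_left hm
      hK.compact.measure_lt_top.ne
    rw [sdiff_self_inter] at h
    rw [← hK.vol_one]
    exact h
  rw [← hdiff, cutVol, vol, vol]
  congr 1
  refine measure_congr (ae_eq_set.2 ⟨measure_mono_null ?_ (volume_level hu s), ?_⟩)
  · rintro x ⟨⟨hx, hx'⟩, hn⟩
    simp only [Set.mem_sdiff, hx, true_and, not_not, mem_ofPred_eq, inner_neg_right,
      neg_le_neg_iff] at hn hx'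
    exact le_antisymm hn hx'
  · refine measure_mono_null (t := ∅) ?_ measure_empty
    rintro x ⟨⟨hx, hx'⟩, hn⟩
    simp only [mem_inter_iff, hx, true_and, mem_ofPred_eq, inner_neg_right, neg_le_neg_iff,
      not_le] at hn hx'
    exact absurd hx' (not_lt.2 hn.le)

lemma UnitBody.exists_bound (hK : UnitBody K) (_hn : 0 < n) (u : E n) :
    ∃ R : ℝ, cutVol K u R = 1 ∧ cutVol K u (-R - 1) = 0 := by
  obtain ⟨R, hR⟩ := hK.compact.exists_bound_of_continuousOn
    (f := fun x => ⟪x, u⟫) (continuous_id.inner continuous_const).continuousOn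
  refine ⟨R, ?_, ?_⟩
  · rw [cutVol, inter_eq_left.2 (show K ⊆ {x | ⟪x, u⟫ ≤ R} from fun x hx => (abs_le.1 (hR x hx)).2),
      hK.vol_one]
  · have : K ∩ {x | ⟪x, u⟫ ≤ -R - 1} = ∅ := by
      refine eq_empty_iff_forall_notMem.2 fun x ⟨hx, hx'⟩ => ?_
      have := (abs_le.1 (hR x hx)).1
      simp only [mem_ofPred_eq] at hx'
      linarith
    rw [cutVol, this, vol, measure_empty, ENNReal.toReal_zero]

/-- The cuts of a combination. -/
lemma cut_comb (ha : 0 < a) (hb : 0 < b) (hab : a + b = 1) (hK : IsCompact K) (hL : IsCompact L)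
    (hM : IsCompact M) (hsub : ∀ x ∈ K, ∀ y ∈ L, a • x + b • y ∈ M) {s t α β : ℝ} (hα : 0 < α)
    (hβ : 0 < β) (hs : α ^ n ≤ cutVol K u s) (ht : β ^ n ≤ cutVol L u t) :
    (a * α + b * β) ^ n ≤ cutVol M u (a * s + b * t) := by
  refine bm_pow ha hb hab (measurableSet_cut hK measurableSet_Iic)
    (measurableSet_cut hL measurableSet_Iic) (measurableSet_cut hM measurableSet_Iic)
    (volume_cut_ne_top hM _) ?_ hα hβ hs ht
  rintro x ⟨hx, hxs⟩ y ⟨hy, hyt⟩
  refine ⟨hsub x hx y hy, ?_⟩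
  simp only [mem_ofPred_eq, mem_Iic, inner_add_left, inner_smul_left, RCLike.conj_to_real] at *
  exact add_le_add (mul_le_mul_of_nonneg_left hxs ha.le) (mul_le_mul_of_nonneg_left hyt hb.le)

lemma exists_root (hn : 0 < n) {v : ℝ} (hv : 0 < v) : ∃ α : ℝ, 0 < α ∧ α ^ n = v :=
  ⟨v ^ ((n : ℝ)⁻¹), by positivity, Real.rpow_inv_natCast_pow hv.le hn.ne'⟩

lemma UnitBody.cutVol_lt (hK : UnitBody K) (hn : 0 < n) {s t : ℝ} (hst : s < t)
    (h0 : 0 < cutVol K u s) (h1 : cutVol K u s < 1) : cutVol K u s < cutVol K u t := by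
  obtain ⟨R, hR, -⟩ := hK.exists_bound hn u
  rcases le_or_gt R t with hRt | hRt
  · exact lt_of_lt_of_le h1 (hR ▸ cutVol_mono hK.compact hRt)
  obtain ⟨α, hα, hαe⟩ := exists_root hn h0
  have hd : 0 < R - s := by linarith
  have ha : 0 < (R - t) / (R - s) := by
    have : 0 < R - t := by linarith
    positivity
  have hb : 0 < (t - s) / (R - s) := by
    have : 0 < t - s := by linarith
    positivity
  have hab : (R - t) / (R - s) + (t - s) / (R - s) = 1 := by
    rw [← add_div, div_eq_one_iff_eq hd.ne']; ring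
  have h := cut_comb (u := u) ha hb hab hK.compact hK.compact hK.compact
    (fun x hx y hy => hK.convex hx hy ha.le hb.le hab) (s := s) (t := R) hα one_pos hαe.le
    (by rw [one_pow, hR])
  rw [show (R - t) / (R - s) * s + (t - s) / (R - s) * R = t by field_simp; ring] at h
  refine lt_of_lt_of_le ?_ h
  rw [← hαe]
  have hα1 : α < 1 := by
    by_contra hge
    have := one_le_pow₀ (n := n) (not_lt.1 hge)
    linarith
  refine pow_lt_pow_left₀ ?_ hα.le hn.ne'
  calc α = (R - t) / (R - s) * α + (t - s) / (R - s) * α := by rw [← add_mul, hab, one_mul]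
    _ < _ := by gcongr

lemma UnitBody.le_of_cutVol_le (hK : UnitBody K) (hn : 0 < n) {x y : ℝ}
    (hy : cutVol K u y ∈ Ioo (0 : ℝ) 1) (h : cutVol K u y ≤ cutVol K u x) : y ≤ x := by
  by_contra hlt
  push Not at hlt
  have he : cutVol K u x = cutVol K u y := le_antisymm (cutVol_mono hK.compact hlt.le) h
  have := hK.cutVol_lt (u := u) hn hlt (he ▸ hy.1) (he ▸ hy.2)
  linarith

lemma UnitBody.exists_quantile (hK : UnitBody K) (hn : 0 < n) (hu : u ≠ 0) :
    ∃ Q : ℝ → ℝ, ∀ v ∈ Ioo (0 : ℝ) 1, cutVol K u (Q v) = v := by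
  obtain ⟨R, hR, hR'⟩ := hK.exists_bound hn u
  have hle : -R - 1 ≤ R := by
    by_contra hlt
    have := cutVol_mono (u := u) hK.compact (not_le.1 hlt).le
    linarith
  have hex : ∀ v ∈ Ioo (0 : ℝ) 1, ∃ s, cutVol K u s = v := by
    intro v hv
    obtain ⟨s, -, hs⟩ := intermediate_value_Icc hle (cutVol_continuous hK.compact hu).continuousOn
      (show v ∈ Icc (cutVol K u (-R - 1)) (cutVol K u R) by
        rw [hR, hR']; exact ⟨hv.1.le, hv.2.le⟩)
    exact ⟨s, hs⟩
  choose! Q hQ using hex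
  exact ⟨Q, hQ⟩

/-- A quantile function has a positive right derivative. -/
lemma UnitBody.quantile_reg (hK : UnitBody K) (hn : 0 < n) {Q : ℝ → ℝ}
    (hQ : ∀ v ∈ Ioo (0 : ℝ) 1, cutVol K u (Q v) = v) :
    ContinuousOn Q (Ioo 0 1) ∧
      ∀ v ∈ Ioo (0 : ℝ) 1, ∃ q, 0 < q ∧ HasDerivWithinAt Q q (Ioi v) v := by
  have hpow : ∀ r ∈ Ioo (0 : ℝ) 1, r ^ n ∈ Ioo (0 : ℝ) 1 := fun r hr =>
    ⟨pow_pos hr.1 n, pow_lt_one₀ hr.1.le hr.2 hn.ne'⟩
  set φ : ℝ → ℝ := fun r => Q (r ^ n) with hφ
  have hφc : ConvexOn ℝ (Ioo (0 : ℝ) 1) φ := by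
    refine convexOn_iff_forall_pos.2 ⟨convex_Ioo _ _, fun r hr r' hr' c d hc hd hcd => ?_⟩
    have hm := hpow _ (convex_Ioo (0 : ℝ) 1 hr hr' hc.le hd.le hcd)
    refine hK.le_of_cutVol_le hn (by rw [hQ _ hm]; exact hm) ?_
    rw [hQ _ hm]
    simpa [hφ, smul_eq_mul] using cut_comb (u := u) hc hd hcd hK.compact hK.compact hK.compact
      (fun x hx y hy => hK.convex hx hy hc.le hd.le hcd) hr.1 hr'.1
      (hQ _ (hpow r hr)).ge (hQ _ (hpow r' hr')).ge
  have hstrict : ∀ r ∈ Ioo (0 : ℝ) 1, ∀ r' ∈ Ioo (0 : ℝ) 1, r < r' → φ r < φ r' := by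
    intro r hr r' hr' hrr
    by_contra hge
    have := cutVol_mono (u := u) hK.compact (not_lt.1 hge)
    simp only [hφ, hQ _ (hpow r hr), hQ _ (hpow r' hr')] at this
    exact absurd this (not_le.2 (pow_lt_pow_left₀ hrr hr.1.le hn.ne'))
  set ρ : ℝ → ℝ := fun v => v ^ ((n : ℝ)⁻¹) with hρ
  have hρn : ∀ v : ℝ, 0 ≤ v → ρ v ^ n = v := fun v hv => Real.rpow_inv_natCast_pow hv hn.ne'
  have hni : (0 : ℝ) < (n : ℝ)⁻¹ := by positivity
  have hρm : ∀ v ∈ Ioo (0 : ℝ) 1, ρ v ∈ Ioo (0 : ℝ) 1 := fun v hv =>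
    ⟨Real.rpow_pos_of_pos hv.1 _, Real.rpow_lt_one hv.1.le hv.2 hni⟩
  refine ⟨?_, fun v hv => ?_⟩
  · refine ((hφc.continuousOn isOpen_Ioo).comp
      (Real.continuous_rpow_const hni.le).continuousOn hρm).congr fun v hv => ?_
    simp only [Function.comp_apply, hφ]
    exact congrArg Q (hρn v hv.1.le).symm
  · have hr := hρm v hv
    set r := ρ v with hrdef
    have hint : r ∈ interior (Ioo (0 : ℝ) 1) := by rwa [interior_Ioo]
    have hd := hφc.hasDerivWithinAt_rightDeriv_of_mem_interior hint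
    set d := derivWithin φ (Ioi r) r
    have hd0 : 0 < d := by
      have hσ : 0 < (φ r - φ (r / 2)) / (r - r / 2) := by
        refine div_pos (sub_pos.2 (hstrict _ ⟨by linarith [hr.1], by linarith [hr.1, hr.2]⟩ _ hr ?_))
          ?_ <;> linarith [hr.1]
      refine lt_of_lt_of_le hσ
        (ge_of_tendsto ((hasDerivWithinAt_iff_tendsto_slope' self_notMem_Ioi).1 hd) ?_)
      filter_upwards [Ioo_mem_nhdsGT hr.2] with y hy
      rw [slope_def_field]
      exact hφc.slope_mono_adjacent ⟨by linarith [hr.1], by linarith [hr.1, hr.2]⟩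
        ⟨by linarith [hr.1, hy.1], hy.2⟩ (by linarith [hr.1]) hy.1
    have hρd : HasDerivWithinAt ρ ((n : ℝ)⁻¹ * v ^ ((n : ℝ)⁻¹ - 1)) (Ioi v) v :=
      (Real.hasDerivAt_rpow_const (Or.inl hv.1.ne')).hasDerivWithinAt
    refine ⟨d * ((n : ℝ)⁻¹ * v ^ ((n : ℝ)⁻¹ - 1)), mul_pos hd0 (mul_pos hni
      (Real.rpow_pos_of_pos hv.1 _)), (hd.comp v hρd fun w hw =>
        Real.rpow_lt_rpow hv.1.le hw hni).congr (fun w hw => ?_) ?_⟩
    · simp only [Function.comp_apply, hφ]
      exact congrArg Q (hρn w (hv.1.trans hw).le).symm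
    · simp only [Function.comp_apply, hφ]
      exact congrArg Q (hρn v hv.1.le).symm

/-- The quantiles of the combination. -/
lemma quantile_comb (ha : 0 < a) (hb : 0 < b) (hab : a + b = 1) (hn : 0 < n) (hu : u ≠ 0)
    (hK : UnitBody K) (hL : UnitBody L) (hM : UnitBody M)
    (hsub : ∀ x ∈ K, ∀ y ∈ L, a • x + b • y ∈ M) {s t v : ℝ} (hv : v ∈ Ioo (0 : ℝ) 1)
    (hs : cutVol K u s = v) (ht : cutVol L u t = v) : cutVol M u (a * s + b * t) = v := by
  have key : ∀ (w : E n) (x y z : ℝ), 0 < z → cutVol K w x = z → cutVol L w y = z →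
      z ≤ cutVol M w (a * x + b * y) := by
    intro w x y z hz hx hy
    obtain ⟨α, hα, hαe⟩ := exists_root hn hz
    have := cut_comb (u := w) ha hb hab hK.compact hL.compact hM.compact hsub hα hα
      (hx ▸ hαe.le) (hy ▸ hαe.le)
    rwa [← add_mul, hab, one_mul, hαe] at this
  have h1 := key u s t v hv.1 hs ht
  have h2 := key (-u) (-s) (-t) (1 - v) (by linarith [hv.2]) (by rw [cutVol_neg hK hu, hs])
    (by rw [cutVol_neg hL hu, ht])
  rw [show a * -s + b * -t = -(a * s + b * t) by ring, cutVol_neg hM hu] at h2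
  linarith

/-- The slab inequality in quantiles. -/
lemma slab_comb (ha : 0 < a) (hb : 0 < b) (hab : a + b = 1) (hn : 0 < n) (hu : u ≠ 0)
    (hK : UnitBody K) (hL : UnitBody L) (hM : UnitBody M)
    (hsub : ∀ x ∈ K, ∀ y ∈ L, a • x + b • y ∈ M) {Q P : ℝ → ℝ}
    (hQ : ∀ v ∈ Ioo (0 : ℝ) 1, cutVol K u (Q v) = v)
    (hP : ∀ v ∈ Ioo (0 : ℝ) 1, cutVol L u (P v) = v) {v h α β : ℝ}
    (hv : v ∈ Ioo (0 : ℝ) 1) (hh : 0 < h) (hα : 0 < α) (hβ : 0 < β)
    (h1 : v + h * α ^ n < 1) (h2 : v + h * β ^ n < 1) (h3 : v + h * (a * α + b * β) ^ n < 1) :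
    a * Q (v + h * (a * α + b * β) ^ n) + b * P (v + h * (a * α + b * β) ^ n) ≤
      a * Q (v + h * α ^ n) + b * P (v + h * β ^ n) := by
  obtain ⟨η, hη, hηe⟩ := exists_root hn hh
  have hγ : 0 < a * α + b * β := by positivity
  have hin : ∀ c : ℝ, 0 < c → v + h * c ^ n < 1 → v + h * c ^ n ∈ Ioo (0 : ℝ) 1 := fun c hc hlt =>
    ⟨by have := mul_pos hh (pow_pos hc n); linarith [hv.1], hlt⟩
  have slab : ∀ (A : Set (E n)) (Z : ℝ → ℝ), UnitBody A →
      (∀ v ∈ Ioo (0 : ℝ) 1, cutVol A u (Z v) = v) → ∀ c : ℝ, 0 < c → v + h * c ^ n < 1 →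
      Z v ≤ Z (v + h * c ^ n) ∧
        (η * c) ^ n ≤ vol (A ∩ {x | ⟪x, u⟫ ∈ Icc (Z v) (Z (v + h * c ^ n))}) := by
    intro A Z hA hZ c hc hlt
    have hc' := hin c hc hlt
    have hle : Z v ≤ Z (v + h * c ^ n) := by
      refine hA.le_of_cutVol_le hn (by rw [hZ v hv]; exact hv) ?_
      rw [hZ v hv, hZ _ hc']
      have := mul_pos hh (pow_pos hc n)
      linarith
    refine ⟨hle, ?_⟩
    rw [slab_eq hA.compact hu hle, hZ v hv, hZ _ hc', mul_pow, hηe]
    linarith
  obtain ⟨hQle, hKv⟩ := slab K Q hK hQ α hα h1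
  obtain ⟨hPle, hLv⟩ := slab L P hL hP β hβ h2
  set x := a * Q (v + h * α ^ n) + b * P (v + h * β ^ n) with hx
  have hlow := quantile_comb ha hb hab hn hu hK hL hM hsub hv (hQ v hv) (hP v hv)
  have hle : a * Q v + b * P v ≤ x := by rw [hx]; gcongr
  have hbm := bm_pow ha hb hab (measurableSet_cut hK.compact measurableSet_Icc)
    (measurableSet_cut hL.compact measurableSet_Icc)
    (measurableSet_cut (u := u) hM.compact (measurableSet_Icc (a := a * Q v + b * P v) (b := x)))
    (volume_cut_ne_top hM.compact _) ?_ (mul_pos hη hα) (mul_pos hη hβ) hKv hLv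
  · rw [show a * (η * α) + b * (η * β) = η * (a * α + b * β) by ring, mul_pow, hηe,
      slab_eq hM.compact hu hle, hlow] at hbm
    have hw := hin _ hγ h3
    have hMw := quantile_comb ha hb hab hn hu hK hL hM hsub hw (hQ _ hw) (hP _ hw)
    refine hM.le_of_cutVol_le hn (by rw [hMw]; exact hw) ?_
    rw [hMw]
    linarith
  · rintro p ⟨hp, hp'⟩ q ⟨hq, hq'⟩
    refine ⟨hsub p hp q hq, ?_⟩
    simp only [mem_ofPred_eq, mem_Icc, inner_add_left, inner_smul_left, RCLike.conj_to_real] at *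
    exact ⟨by gcongr; exacts [hp'.1, hq'.1], by rw [hx]; gcongr; exacts [hp'.2, hq'.2]⟩

/-- Strict convexity of `t ↦ t ^ (-k)`. -/
lemma one_lt_weighted (ha : 0 < a) (hb : 0 < b) (hab : a + b = 1) {α β : ℝ} (hα : 0 < α)
    (hβ : 0 < β) (hne : α ≠ β) (k : ℕ) :
    1 < (a * α + b * β) ^ (k + 1) * (a / α ^ (k + 1) + b / β ^ (k + 1)) := by
  obtain rfl : a = 1 - b := by linarith
  induction k with
  | zero =>
    have e : ((1 - b) * α + b * β) ^ (0 + 1) * ((1 - b) / α ^ (0 + 1) + b / β ^ (0 + 1)) =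
        1 + (1 - b) * b * (α - β) ^ 2 / (α * β) := by field_simp; ring
    rw [e]
    have : 0 < (α - β) ^ 2 := by positivity
    have : 0 < (1 - b) * b * (α - β) ^ 2 / (α * β) := by positivity
    linarith
  | succ k ih =>
    refine lt_of_lt_of_le ih ?_
    have e : ((1 - b) * α + b * β) ^ (k + 1 + 1) *
          ((1 - b) / α ^ (k + 1 + 1) + b / β ^ (k + 1 + 1)) -
        ((1 - b) * α + b * β) ^ (k + 1) * ((1 - b) / α ^ (k + 1) + b / β ^ (k + 1)) =
        ((1 - b) * α + b * β) ^ (k + 1) * ((1 - b) * b) *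
          ((β - α) * (1 / α ^ (k + 1 + 1) - 1 / β ^ (k + 1 + 1))) := by
      field_simp
      ring
    have hpos : 0 ≤ (β - α) * (1 / α ^ (k + 1 + 1) - 1 / β ^ (k + 1 + 1)) := by
      rcases lt_or_gt_of_ne hne with h | h
      · exact mul_nonneg (by linarith) (sub_nonneg.2 (by gcongr))
      · exact mul_nonneg_of_nonpos_of_nonpos (by linarith) (sub_nonpos.2 (by gcongr))
    have := mul_nonneg (a := ((1 - b) * α + b * β) ^ (k + 1) * ((1 - b) * b)) (by positivity) hpos
    linarith

/-- In the equality case the marginals are translates. -/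
theorem marg_shift (ha : 0 < a) (hb : 0 < b) (hab : a + b = 1) (hn : 2 ≤ n) (hu : u ≠ 0)
    (hK : UnitBody K) (hL : UnitBody L) (hM : UnitBody M)
    (hsub : ∀ x ∈ K, ∀ y ∈ L, a • x + b • y ∈ M) :
    ∃ c : ℝ, ∀ s, cutVol L u (s + c) = cutVol K u s := by
  have hn0 : 0 < n := by omega
  obtain ⟨Q, hQ⟩ := hK.exists_quantile hn0 hu
  obtain ⟨P, hP⟩ := hL.exists_quantile hn0 hu
  obtain ⟨hQc, hQd⟩ := hK.quantile_reg hn0 hQ
  obtain ⟨hPc, hPd⟩ := hL.quantile_reg hn0 hP
  -- equal derivatives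
  have hderiv : ∀ v ∈ Ioo (0 : ℝ) 1,
      HasDerivWithinAt (fun w => P w - Q w) 0 (Ici v) v := by
    intro v hv
    obtain ⟨q, hq, hq'⟩ := hQd v hv
    obtain ⟨p, hp, hp'⟩ := hPd v hv
    obtain ⟨k, rfl⟩ : ∃ k, n = k + 2 := ⟨n - 2, by omega⟩
    obtain ⟨α, hα, hαe⟩ := exists_root (n := k + 1) (by omega) (inv_pos.2 hq)
    obtain ⟨β, hβ, hβe⟩ := exists_root (n := k + 1) (by omega) (inv_pos.2 hp)
    set γ := a * α + b * β with hγd
    have hγ : 0 < γ := by positivity
    have hQline : ∀ c : ℝ, 0 < c →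
        HasDerivWithinAt (fun h => Q (v + h * c)) (q * c) (Ioi 0) 0 := by
      intro c hc
      have hline : HasDerivWithinAt (fun h : ℝ => v + h * c) c (Ioi 0) 0 :=
        (((hasDerivAt_id (0 : ℝ)).mul_const c).const_add v).hasDerivWithinAt.congr_deriv (one_mul c)
      exact HasDerivWithinAt.comp (0 : ℝ) (show HasDerivWithinAt _ _ (Ioi v) (v + 0 * c) by
        rw [zero_mul, add_zero]; exact hq') hline
        fun h hh => by have := mul_pos (mem_Ioi.1 hh) hc; simp only [mem_Ioi]; linarith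
    have hPline : ∀ c : ℝ, 0 < c →
        HasDerivWithinAt (fun h => P (v + h * c)) (p * c) (Ioi 0) 0 := by
      intro c hc
      have hline : HasDerivWithinAt (fun h : ℝ => v + h * c) c (Ioi 0) 0 :=
        (((hasDerivAt_id (0 : ℝ)).mul_const c).const_add v).hasDerivWithinAt.congr_deriv (one_mul c)
      exact HasDerivWithinAt.comp (0 : ℝ) (show HasDerivWithinAt _ _ (Ioi v) (v + 0 * c) by
        rw [zero_mul, add_zero]; exact hp') hline
        fun h hh => by have := mul_pos (mem_Ioi.1 hh) hc; simp only [mem_Ioi]; linarith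
    have hf := ((hQline _ (pow_pos hγ (k + 2))).const_mul a).add
      ((hPline _ (pow_pos hγ (k + 2))).const_mul b)
    have hg := ((hQline _ (pow_pos hα (k + 2))).const_mul a).add
      ((hPline _ (pow_pos hβ (k + 2))).const_mul b)
    have hle : a * (q * γ ^ (k + 2)) + b * (p * γ ^ (k + 2)) ≤
        a * (q * α ^ (k + 2)) + b * (p * β ^ (k + 2)) := by
      refine le_of_tendsto_of_tendsto
        ((hasDerivWithinAt_iff_tendsto_slope' self_notMem_Ioi).1 hf)
        ((hasDerivWithinAt_iff_tendsto_slope' self_notMem_Ioi).1 hg) ?_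
      have hsmall : ∀ c : ℝ, 0 < c → ∀ᶠ h in 𝓝[>] (0 : ℝ), v + h * c < 1 := fun c hc => by
        filter_upwards [Ioo_mem_nhdsGT (show (0 : ℝ) < (1 - v) / c from
          div_pos (by linarith [hv.2]) hc)] with h hh
        have := (lt_div_iff₀ hc).1 hh.2
        linarith
      filter_upwards [self_mem_nhdsWithin, hsmall _ (pow_pos hα (k + 2)),
        hsmall _ (pow_pos hβ (k + 2)), hsmall _ (pow_pos hγ (k + 2))] with h hh h1 h2 h3
      have := slab_comb ha hb hab hn0 hu hK hL hM hsub hQ hP hv (mem_Ioi.1 hh) hα hβ h1 h2 h3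
      have hh0 : (0 : ℝ) < h := hh
      simp only [slope_def_field, sub_zero, Pi.add_apply, zero_mul, add_zero]
      gcongr
    have hqe : q = 1 / α ^ (k + 1) := by rw [hαe]; simp
    have hpe : p = 1 / β ^ (k + 1) := by rw [hβe]; simp
    have hαβ : α = β := by
      by_contra hne
      have h1 := one_lt_weighted ha hb hab hα hβ hne k
      have e : a * (q * α ^ (k + 2)) + b * (p * β ^ (k + 2)) = γ := by
        rw [hqe, hpe, hγd]; field_simp; ring
      have e' : a * (q * γ ^ (k + 2)) + b * (p * γ ^ (k + 2)) =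
          γ * (γ ^ (k + 1) * (a / α ^ (k + 1) + b / β ^ (k + 1))) := by
        rw [hqe, hpe]; ring
      rw [e, e'] at hle
      have := mul_lt_mul_of_pos_left h1 hγ
      linarith
    have hqp : p = q := by rw [hqe, hpe, hαβ]
    refine hasDerivWithinAt_Ioi_iff_Ici.1 ?_
    have h0 := hp'.sub hq'
    rw [hqp, sub_self] at h0
    exact h0
  set c := P (1 / 2) - Q (1 / 2) with hc
  have hconst : ∀ v ∈ Ioo (0 : ℝ) 1, P v = Q v + c := by
    intro v hv
    have hsub' : Icc (min v (1 / 2)) (max v (1 / 2)) ⊆ Ioo (0 : ℝ) 1 := fun x hx =>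
      ⟨lt_of_lt_of_le (lt_min hv.1 (by norm_num)) hx.1,
        lt_of_le_of_lt hx.2 (max_lt hv.2 (by norm_num))⟩
    have h := constant_of_has_deriv_right_zero ((hPc.sub hQc).mono hsub')
      (fun x hx => hderiv x (hsub' (Ico_subset_Icc_self hx)))
    have h1 := h v ⟨min_le_left _ _, le_max_left _ _⟩
    have h2 := h (1 / 2) ⟨min_le_right _ _, le_max_right _ _⟩
    simp only [Pi.sub_apply] at h1 h2
    linarith
  refine ⟨c, fun s => ?_⟩
  have hub : ∀ (A : Set (E n)), UnitBody A → ∀ x, cutVol A u x ≤ 1 := by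
    intro A hA x
    rw [← hA.vol_one]
    exact ENNReal.toReal_mono hA.compact.measure_lt_top.ne (measure_mono inter_subset_left)
  have hlb : ∀ (A : Set (E n)) x, 0 ≤ cutVol A u x := fun A x => ENNReal.toReal_nonneg
  have hiff : ∀ v ∈ Ioo (0 : ℝ) 1, (cutVol K u s < v → cutVol L u (s + c) ≤ v) ∧
      (v < cutVol K u s → v ≤ cutVol L u (s + c)) := by
    intro v hv
    refine ⟨fun h => ?_, fun h => ?_⟩
    · rw [← hP v hv, hconst v hv]
      refine cutVol_mono hL.compact (add_le_add ?_ le_rfl)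
      by_contra hlt
      have := cutVol_mono (u := u) hK.compact (not_le.1 hlt).le
      rw [hQ v hv] at this
      linarith
    · rw [← hP v hv, hconst v hv]
      refine cutVol_mono hL.compact (add_le_add ?_ le_rfl)
      by_contra hlt
      have := cutVol_mono (u := u) hK.compact (not_le.1 hlt).le
      rw [hQ v hv] at this
      linarith
  refine le_antisymm ?_ ?_
  · by_contra hlt
    obtain ⟨v, hv1, hv2⟩ := exists_between (not_le.1 hlt)
    have := (hiff v ⟨lt_of_le_of_lt (hlb K s) hv1, lt_of_lt_of_le hv2 (hub L hL _)⟩).1 hv1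
    linarith
  · by_contra hlt
    obtain ⟨v, hv1, hv2⟩ := exists_between (not_le.1 hlt)
    have := (hiff v ⟨lt_of_le_of_lt (hlb L _) hv1, lt_of_lt_of_le hv2 (hub K hK _)⟩).2 hv2
    linarith

lemma cutVol_vadd (t : E n) (s : ℝ) :
    cutVol (t +ᵥ K) u (s + ⟪t, u⟫) = cutVol K u s := by
  have e : (t +ᵥ K) ∩ {x | ⟪x, u⟫ ≤ s + ⟪t, u⟫} = t +ᵥ (K ∩ {x | ⟪x, u⟫ ≤ s}) := by
    ext x
    simp only [mem_inter_iff, mem_vadd_set, vadd_eq_add, mem_ofPred_eq]
    constructor
    · rintro ⟨⟨y, hy, rfl⟩, hx⟩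
      rw [inner_add_left] at hx
      exact ⟨y, ⟨hy, by linarith⟩, rfl⟩
    · rintro ⟨y, ⟨hy, hy'⟩, rfl⟩
      exact ⟨⟨y, hy, rfl⟩, by rw [inner_add_left]; linarith⟩
  rw [cutVol, cutVol, vol, vol, e, measure_vadd]

lemma integral_marg (hK : IsCompact K) (u : E n) :
    ∫ r, r ∂(marg K u) = ⟪∫ x in K, x, u⟫ := by
  rw [marg, integral_map (measurable_inner' u).aemeasurable measurable_id'.aestronglyMeasurable,
    real_inner_comm]
  simp_rw [fun x : E n => real_inner_comm u x]
  exact integral_inner (continuous_id.continuousOn.integrableOn_compact hK) u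

/-- Equality for unit volume: translates. -/
theorem eq_translate (ha : 0 < a) (hb : 0 < b) (hab : a + b = 1) (hn : 2 ≤ n)
    (hK : UnitBody K) (hL : UnitBody L) (hM : UnitBody M) (hKi : (interior K).Nonempty)
    (hLi : (interior L).Nonempty) (hsub : ∀ x ∈ K, ∀ y ∈ L, a • x + b • y ∈ M) :
    ∃ t : E n, L = t +ᵥ K := by
  set t : E n := (∫ x in L, x) - ∫ x in K, x with ht
  refine ⟨t, ?_⟩
  have hcuts : ∀ u : E n, u ≠ 0 → ∀ s, cutVol L u s = cutVol (t +ᵥ K) u s := by
    intro u hu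
    obtain ⟨c, hc⟩ := marg_shift ha hb hab hn hu hK hL hM hsub
    have := isFiniteMeasure_marg hL.compact u
    have := isFiniteMeasure_marg hK.compact u
    have hm : (marg K u).map (fun r => r + c) = marg L u := by
      have : IsFiniteMeasure ((marg K u).map (fun r => r + c)) := inferInstance
      refine Measure.ext_of_Iic _ _ fun r => ?_
      rw [Measure.map_apply (measurable_add_const c) measurableSet_Iic]
      refine (ENNReal.toReal_eq_toReal_iff' (measure_ne_top _ _) (measure_ne_top _ _)).1 ?_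
      rw [show (fun r => r + c) ⁻¹' Iic r = Iic (r - c) by ext z; simp [le_sub_iff_add_le],
        ← measureReal_def, ← measureReal_def, ← cutVol_eq, ← cutVol_eq, ← hc, sub_add_cancel]
    have hint : Integrable (fun r : ℝ => r) (marg K u) := by
      rw [marg, integrable_map_measure measurable_id'.aestronglyMeasurable
        (measurable_inner' u).aemeasurable]
      exact (continuous_id.inner continuous_const).continuousOn.integrableOn_compact hK.compact
    have hmass : (marg K u).real univ = 1 := by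
      rw [measureReal_def, marg_apply K u MeasurableSet.univ]
      simpa [vol] using hK.vol_one
    have hmean : ⟪∫ x in L, x, u⟫ = ⟪∫ x in K, x, u⟫ + c := by
      rw [← integral_marg hL.compact, ← hm, integral_map (measurable_add_const c).aemeasurable
        measurable_id'.aestronglyMeasurable, integral_add hint (integrable_const c),
        integral_const, hmass, one_smul, integral_marg hK.compact]
    intro s
    have hc' : ⟪t, u⟫ = c := by rw [ht, inner_sub_left]; linarith
    have h1 := cutVol_vadd (K := K) (u := u) t (s - c)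
    rw [hc', sub_add_cancel] at h1
    rw [h1, ← hc, sub_add_cancel]
  have key : ∀ (A B : Set (E n)), Convex ℝ A → IsCompact A → vol A = 1 → Convex ℝ B →
      IsCompact B → vol B = 1 → (interior B).Nonempty →
      (∀ u : E n, u ≠ 0 → ∀ s, cutVol B u s = cutVol A u s) → B ⊆ A := by
    intro A B hA hAc hA1 hB hBc hB1 hBi h x hx
    by_contra hxA
    obtain ⟨f, s, hfA, hfx⟩ := geometric_hahn_banach_closed_point hA hAc.isClosed hxA
    set u := (InnerProductSpace.toDual ℝ (E n)).symm f with hu'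
    have hfu : ∀ y, f y = ⟪y, u⟫ := fun y => by
      rw [hu', real_inner_comm, InnerProductSpace.toDual_symm_apply]
    have hAne : A.Nonempty := nonempty_of_measure_ne_zero (μ := volume) fun h0 => by
      rw [vol, h0, ENNReal.toReal_zero] at hA1
      exact zero_ne_one hA1
    obtain ⟨y, hy⟩ := hAne
    have hu : u ≠ 0 := fun e => by
      have h1 := hfA y hy
      rw [hfu, e, inner_zero_right] at h1
      rw [hfu, e, inner_zero_right] at hfx
      linarith
    have hcA : cutVol A u s = 1 := by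
      rw [cutVol, inter_eq_left.2 (show A ⊆ {y | ⟪y, u⟫ ≤ s} from
        fun y hy => (hfu y ▸ hfA y hy).le), hA1]
    have hopen : IsOpen (interior B ∩ {y | s < ⟪y, u⟫}) :=
      isOpen_interior.inter (isOpen_lt continuous_const (continuous_id.inner continuous_const))
    have hne : (interior B ∩ {y | s < ⟪y, u⟫}).Nonempty := by
      have hcl : x ∈ closure (interior B) := by
        rw [hB.closure_interior_eq_closure_of_nonempty_interior hBi]; exact subset_closure hx
      rw [inter_comm]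
      exact mem_closure_iff.1 hcl _
        (isOpen_lt continuous_const (continuous_id.inner continuous_const))
        (show s < ⟪x, u⟫ by rw [← hfu]; exact hfx)
    have hpos := hopen.measure_pos volume hne
    have hnull : volume (interior B ∩ {y | s < ⟪y, u⟫}) = 0 := by
      refine measure_mono_null (t := B \ (B ∩ {y | ⟪y, u⟫ ≤ s})) ?_ ?_
      · rintro y ⟨hy, hy'⟩
        exact ⟨interior_subset hy, fun h' => absurd (show ⟪y, u⟫ ≤ s from h'.2) (not_le.2 hy')⟩
      · rw [measure_sdiff inter_subset_left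
          (show MeasurableSet (B ∩ {y | ⟪y, u⟫ ≤ s}) from
            measurableSet_cut hBc measurableSet_Iic).nullMeasurableSet (volume_cut_ne_top hBc _)]
        refine tsub_eq_zero_iff_le.2 (le_of_eq ?_)
        refine (ENNReal.toReal_eq_toReal_iff' hBc.measure_lt_top.ne (volume_cut_ne_top hBc _)).1 ?_
        exact hB1.trans ((h u hu s).trans hcA).symm
    rw [hnull] at hpos
    exact lt_irrefl _ hpos
  have hKc : IsCompact (t +ᵥ K) := hK.compact.vadd t
  have hKv : vol (t +ᵥ K) = 1 := by rw [vol, measure_vadd]; exact hK.vol_one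
  refine Subset.antisymm (key _ _ (hK.convex.vadd t) hKc hKv hL.convex hL.compact hL.vol_one hLi
    fun u hu s => hcuts u hu s) (key _ _ hL.convex hL.compact hL.vol_one (hK.convex.vadd t) hKc hKv
    ?_ fun u hu s => (hcuts u hu s).symm)
  rw [interior_vadd]
  exact hKi.vadd_set

end BM

/-- Brunn–Minkowski. -/
theorem bmSpec : BMSpec := by
  intro n A B hn hA hAc hAne hB hBc hBne
  have hS : IsCompact (A + B) := hAc.add hBc
  have hmono : ∀ {P : Set (E n)} (x : E n), x +ᵥ P ⊆ A + B → vol P ≤ vol (A + B) := by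
    intro P x h
    have := ENNReal.toReal_mono hS.measure_lt_top.ne (measure_mono (μ := volume) h)
    rwa [measure_vadd] at this
  have hni : (1 : ℝ) / n ≠ 0 := by positivity
  by_cases hA0 : vol A = 0
  · obtain ⟨x, hx⟩ := hAne
    rw [hA0, Real.zero_rpow hni, zero_add]
    refine Real.rpow_le_rpow ENNReal.toReal_nonneg (hmono x ?_) (by positivity)
    rintro y hy
    obtain ⟨z, hz, rfl⟩ := mem_vadd_set.1 hy
    exact Set.add_mem_add hx hz
  by_cases hB0 : vol B = 0
  · obtain ⟨x, hx⟩ := hBne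
    rw [hB0, Real.zero_rpow hni, add_zero]
    refine Real.rpow_le_rpow ENNReal.toReal_nonneg (hmono x ?_) (by positivity)
    rintro y hy
    obtain ⟨z, hz, rfl⟩ := mem_vadd_set.1 hy
    rw [vadd_eq_add, add_comm x z]
    exact Set.add_mem_add hz hx
  have hA1 : 0 < vol A := lt_of_le_of_ne ENNReal.toReal_nonneg (Ne.symm hA0)
  have hB1 : 0 < vol B := lt_of_le_of_ne ENNReal.toReal_nonneg (Ne.symm hB0)
  rw [one_div]
  set α := vol A ^ ((n : ℝ)⁻¹) with hα
  set β := vol B ^ ((n : ℝ)⁻¹) with hβ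
  have hC : IsCompact ((2 : ℝ)⁻¹ • (A + B)) := hS.smul _
  have h := BM.bm_pow (a := (2 : ℝ)⁻¹) (b := (2 : ℝ)⁻¹) (by norm_num) (by norm_num) (by norm_num)
    hAc.measurableSet hBc.measurableSet hC.measurableSet hC.measure_lt_top.ne
    (fun x hx y hy => by rw [← smul_add]; exact smul_mem_smul_set (Set.add_mem_add hx hy))
    (α := α) (β := β) (Real.rpow_pos_of_pos hA1 _) (Real.rpow_pos_of_pos hB1 _)
    (Real.rpow_inv_natCast_pow hA1.le hn.ne').le (Real.rpow_inv_natCast_pow hB1.le hn.ne').le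
  rw [BM.vol_smul (by norm_num), ← mul_add, mul_pow] at h
  have h' : (α + β) ^ n ≤ vol (A + B) := le_of_mul_le_mul_left h (by positivity)
  calc α + β = ((α + β) ^ n) ^ ((n : ℝ)⁻¹) :=
        (Real.pow_rpow_inv_natCast (by positivity) hn.ne').symm
    _ ≤ _ := Real.rpow_le_rpow (by positivity) h' (by positivity)

/-- Equality in Brunn–Minkowski. -/
theorem bmEqSpec : BMEqSpec := by
  intro n K L hn hK hL heq
  have hn0 : 0 < n := by omega
  have hpos : ∀ {A : Set (E n)}, Body A → 0 < vol A := fun {A} hA =>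
    ENNReal.toReal_pos (Measure.measure_pos_of_nonempty_interior volume hA.interior_nonempty).ne'
      hA.compact.measure_lt_top.ne
  rw [one_div] at heq
  set α := vol K ^ ((n : ℝ)⁻¹) with hαd
  set β := vol L ^ ((n : ℝ)⁻¹) with hβd
  have hα : 0 < α := Real.rpow_pos_of_pos (hpos hK) _
  have hβ : 0 < β := Real.rpow_pos_of_pos (hpos hL) _
  have hαn : α ^ n = vol K := Real.rpow_inv_natCast_pow (hpos hK).le hn0.ne'
  have hβn : β ^ n = vol L := Real.rpow_inv_natCast_pow (hpos hL).le hn0.ne'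
  have hγn : (α + β) ^ n = vol (K + L) := by
    rw [← heq]; exact Real.rpow_inv_natCast_pow ENNReal.toReal_nonneg hn0.ne'
  have unit : ∀ {A : Set (E n)} {r : ℝ}, Convex ℝ A → IsCompact A → 0 < r → r ^ n = vol A →
      BM.UnitBody (r⁻¹ • A) := by
    intro A r hA hAc hr hrn
    refine ⟨hA.smul _, hAc.smul _, ?_⟩
    rw [BM.vol_smul (inv_nonneg.2 hr.le), ← hrn, ← mul_pow, inv_mul_cancel₀ hr.ne', one_pow]
  have hint : ∀ {A : Set (E n)} {r : ℝ}, (interior A).Nonempty → 0 < r →
      (interior (r⁻¹ • A)).Nonempty := by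
    intro A r hA hr
    rw [interior_smul₀ (inv_ne_zero hr.ne')]
    exact hA.smul_set
  have hsub : ∀ x ∈ α⁻¹ • K, ∀ y ∈ β⁻¹ • L,
      (α / (α + β)) • x + (β / (α + β)) • y ∈ (α + β)⁻¹ • (K + L) := by
    rintro x hx y hy
    obtain ⟨p, hp, rfl⟩ := mem_smul_set.1 hx
    obtain ⟨q, hq, rfl⟩ := mem_smul_set.1 hy
    refine mem_smul_set.2 ⟨p + q, Set.add_mem_add hp hq, ?_⟩
    rw [smul_smul, smul_smul, smul_add]
    congr 2 <;> field_simp
  obtain ⟨t, ht⟩ := BM.eq_translate (a := α / (α + β)) (b := β / (α + β)) (by positivity)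
    (by positivity) (by rw [← add_div, div_self]; positivity) hn
    (unit hK.convex hK.compact hα hαn) (unit hL.convex hL.compact hβ hβn)
    (unit (hK.convex.add hL.convex) (hK.compact.add hL.compact) (by positivity) hγn)
    (hint hK.interior_nonempty hα) (hint hL.interior_nonempty hβ) hsub
  refine ⟨-(α • t), α / β, by positivity, ?_⟩
  have h1 : α⁻¹ • K = -t +ᵥ β⁻¹ • L := by rw [ht, vadd_vadd, neg_add_cancel, zero_vadd]
  have h2 : K = α • (α⁻¹ • K) := by rw [smul_smul, mul_inv_cancel₀ hα.ne', one_smul]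
  rw [h2, h1, div_eq_mul_inv, ← smul_smul]
  ext x
  simp only [mem_smul_set, mem_vadd_set, vadd_eq_add]
  constructor
  · rintro ⟨_, ⟨w, hw, rfl⟩, rfl⟩
    exact ⟨α • w, ⟨w, hw, rfl⟩, by rw [smul_add, smul_neg]⟩
  · rintro ⟨_, ⟨w, hw, rfl⟩, rfl⟩
    exact ⟨_, ⟨w, hw, rfl⟩, by rw [smul_add, smul_neg]⟩

end Vale.Agent.P237
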