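import Vale.Agent.P237.Defs

/-!
# P237: coordinates adapted to a unit vector

`perpCoord u (t, y) = t • u + y` is measure preserving from `ℝ × Perp u` to `E n`; the hyperplane
`Perp u` of `E (n + 1)` is isometric to `E n`.
-/

namespace Vale.Agent.P237

open MeasureTheory Set
open scoped RealInnerProductSpace ENNReal

variable {n : ℕ}

/-- The coordinates `(t, y) ↦ t • u + y`. -/
noncomputable def perpCoord (u : E n) (p : ℝ × Perp u) : E n := p.1 • u + (p.2 : E n)

theorem finrank_perp {u : E (n + 1)} (hu : ‖u‖ = 1) : Module.finrank ℝ (Perp u) = n := by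
  haveI : Fact (Module.finrank ℝ (E (n + 1)) = n + 1) := ⟨finrank_euclideanSpace_fin⟩
  exact Submodule.finrank_orthogonal_span_singleton (norm_ne_zero_iff.1 (by rw [hu]; norm_num))

/-- An isometry of the hyperplane with `E n`. -/
theorem exists_perpIso {u : E (n + 1)} (hu : ‖u‖ = 1) : Nonempty (Perp u ≃ₗᵢ[ℝ] E n) :=
  ⟨((stdOrthonormalBasis ℝ (Perp u)).reindex (finCongr (finrank_perp hu))).repr⟩

theorem inner_perpCoord {u : E n} (hu : ‖u‖ = 1) (p : ℝ × Perp u) :
    ⟪perpCoord u p, u⟫ = p.1 := by
  have h : ⟪(p.2 : E n), u⟫ = 0 :=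
    (real_inner_comm u (p.2 : E n)).symm ▸ Submodule.mem_orthogonal_singleton_iff_inner_right.1 p.2.2
  rw [perpCoord, inner_add_left, real_inner_smul_left, real_inner_self_eq_norm_sq, hu, h]
  ring

theorem norm_sq_perpCoord {u : E n} (hu : ‖u‖ = 1) (p : ℝ × Perp u) :
    ‖perpCoord u p‖ ^ 2 = p.1 ^ 2 + ‖p.2‖ ^ 2 := by
  have h : ⟪p.1 • u, (p.2 : E n)⟫ = 0 := by
    rw [real_inner_smul_left, Submodule.mem_orthogonal_singleton_iff_inner_right.1 p.2.2, mul_zero]
  rw [perpCoord, norm_add_sq_real, h, norm_smul, hu, mul_one, Real.norm_eq_abs, sq_abs]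
  simp

theorem continuous_perpCoord (u : E n) : Continuous (perpCoord u) :=
  (continuous_fst.smul continuous_const).add (continuous_subtype_val.comp continuous_snd)

theorem measurePreserving_perpCoord {u : E n} (hu : ‖u‖ = 1) :
    MeasurePreserving (perpCoord u) := by
  have h1 : MeasurePreserving
      (Prod.map (LinearIsometryEquiv.toSpanUnitSingleton u hu : ℝ ≃ₗᵢ[ℝ] (ℝ ∙ u))
        (id : Perp u → Perp u)) :=
    (LinearIsometryEquiv.toSpanUnitSingleton u hu).measurePreserving.prod (MeasurePreserving.id _)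
  have h2 := ((ℝ ∙ u).orthogonalDecomposition.symm.measurePreserving.comp
    (WithLp.volume_preserving_toLp (↥(ℝ ∙ u)) (↥((ℝ ∙ u)ᗮ)))).comp h1
  convert h2 using 1
  funext p
  simp [perpCoord, Submodule.orthogonalDecomposition_symm_apply]

theorem measurableEmbedding_perpCoord {u : E n} (hu : ‖u‖ = 1) :
    MeasurableEmbedding (perpCoord u) := by
  refine (continuous_perpCoord u).measurableEmbedding fun p q h => ?_
  have h1 : p.1 = q.1 := by rw [← inner_perpCoord hu p, h, inner_perpCoord hu q]
  refine Prod.ext h1 (Subtype.ext ?_)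
  simpa [perpCoord, h1] using h

/-- Slicing: integrals of functions of `⟪x, u⟫` over a compact set. -/
theorem setIntegral_inner_eq {K : Set (E n)} {u : E n} (hK : IsCompact K) (hu : ‖u‖ = 1)
    {g : ℝ → ℝ} (hg : Continuous g) :
    ∫ x in K, g ⟪x, u⟫ = ∫ t, g t * sliceVol K u t := by
  have hme := measurableEmbedding_perpCoord hu
  have hKm : MeasurableSet (perpCoord u ⁻¹' K) :=
    hK.isClosed.measurableSet.preimage hme.measurable
  rw [← (measurePreserving_perpCoord hu).setIntegral_preimage_emb hme]
  simp only [inner_perpCoord hu]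
  have hint : IntegrableOn (fun p : ℝ × Perp u => g p.1) (perpCoord u ⁻¹' K) := by
    have hx : IntegrableOn (fun x => g ⟪x, u⟫) K :=
      (hg.comp (continuous_id.inner continuous_const)).continuousOn.integrableOn_compact hK
    have := ((measurePreserving_perpCoord hu).integrableOn_comp_preimage hme).2 hx
    simpa [Function.comp_def, inner_perpCoord hu] using this
  rw [← integral_indicator hKm]
  rw [← integrable_indicator_iff hKm] at hint
  rw [Measure.volume_eq_prod, integral_prod _ hint]
  refine integral_congr_ae (.of_forall fun t => ?_)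
  have e : (fun y : Perp u => (perpCoord u ⁻¹' K).indicator (fun p => g p.1) (t, y)) =
      {y : Perp u | t • u + (y : E n) ∈ K}.indicator fun _ => g t := by
    rfl
  show ∫ y, (perpCoord u ⁻¹' K).indicator (fun p => g p.1) (t, y) = _
  have hm : MeasurableSet {y : Perp u | t • u + (y : E n) ∈ K} :=
    hK.isClosed.measurableSet.preimage
      (by fun_prop : Measurable fun y : Perp u => t • u + (y : E n))
  rw [e, integral_indicator_const _ hm]
  simp only [sliceVol, Measure.real, smul_eq_mul]
  ring

end Vale.Agent.P237
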