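import Mathlib
import Vale.Agent.P237.JohnPos

/-!
An affinely invariant, scale-continuous functional attains its minimum on symmetric convex bodies.
-/

open Set Filter Topology Metric TopologicalSpace
open scoped Pointwise

namespace Vale.Agent.P237

variable {n : ℕ}


lemma subset_smul_of_hausdorffDist_le {K L : Set (EuclideanSpace ℝ (Fin n))} (hK : IsCompact K) (hKc : Convex ℝ K)
    (hball : closedBall (0 : (EuclideanSpace ℝ (Fin n))) 1 ⊆ K) (hL : IsCompact L) {d : ℝ} (hd : 0 ≤ d)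
    (h : hausdorffDist (L : Set (EuclideanSpace ℝ (Fin n))) K ≤ d) : L ⊆ (1 + d) • K := by
  intro x hx
  have hKne : K.Nonempty := ⟨0, hball (by simp)⟩
  obtain ⟨y, hy, hxy⟩ := hK.exists_infDist_eq_dist hKne x
  have hdist : dist x y ≤ d := hxy ▸ (infDist_le_hausdorffDist_of_mem hx
    (hausdorffEDist_ne_top_of_nonempty_of_bounded ⟨x, hx⟩ hKne hL.isBounded hK.isBounded)).trans h
  rw [hKc.add_smul zero_le_one hd, one_smul]
  refine ⟨y, hy, x - y, ?_, by simp⟩
  refine Set.smul_set_mono hball ?_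
  rw [_root_.smul_closedBall _ _ zero_le_one, smul_zero, Real.norm_of_nonneg hd, mul_one,
    mem_closedBall_zero_iff, ← dist_eq_norm]
  exact hdist

/-- Existence of a minimiser among symmetric convex bodies with nonempty interior. -/
theorem exists_symm_minimizer (F : Set (EuclideanSpace ℝ (Fin n)) → ℝ) (N : ℕ)
    (hinv : ∀ (T : (EuclideanSpace ℝ (Fin n)) ≃L[ℝ] (EuclideanSpace ℝ (Fin n))) (K : Set (EuclideanSpace ℝ (Fin n))), IsCompact K → Convex ℝ K → (∀ x ∈ K, -x ∈ K) →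
      (interior K).Nonempty → F (T '' K) = F K)
    (hcont : ∀ K L : Set (EuclideanSpace ℝ (Fin n)), IsCompact K → Convex ℝ K → closedBall 0 1 ⊆ K → IsCompact L →
      Convex ℝ L → closedBall 0 1 ⊆ L → ∀ d : ℝ, 0 ≤ d → L ⊆ (1 + d) • K → K ⊆ (1 + d) • L →
      F L ≤ (1 + d) ^ N * F K) :
    ∃ K : Set (EuclideanSpace ℝ (Fin n)), IsCompact K ∧ Convex ℝ K ∧ (∀ x ∈ K, -x ∈ K) ∧ (interior K).Nonempty ∧
      ∀ L : Set (EuclideanSpace ℝ (Fin n)), IsCompact L → Convex ℝ L → (∀ x ∈ L, -x ∈ L) → (interior L).Nonempty →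
        F K ≤ F L := by
  let S : Set (NonemptyCompacts (EuclideanSpace ℝ (Fin n))) := {K | Convex ℝ (K : Set (EuclideanSpace ℝ (Fin n))) ∧ (∀ x ∈ (K : Set (EuclideanSpace ℝ (Fin n))), -x ∈ (K : Set (EuclideanSpace ℝ (Fin n)))) ∧
    closedBall 0 1 ⊆ (K : Set (EuclideanSpace ℝ (Fin n))) ∧ (K : Set (EuclideanSpace ℝ (Fin n))) ⊆ closedBall 0 (max 1 (Real.sqrt n))}
  have hmem : ∀ (x : (EuclideanSpace ℝ (Fin n))) (K : NonemptyCompacts (EuclideanSpace ℝ (Fin n))), x ∈ (K : Set (EuclideanSpace ℝ (Fin n))) ↔ infDist x (K : Set (EuclideanSpace ℝ (Fin n))) = 0 :=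
    fun x K => K.isCompact.isClosed.mem_iff_infDist_zero K.nonempty
  have hlim : ∀ {k : ℕ → NonemptyCompacts (EuclideanSpace ℝ (Fin n))} {K : NonemptyCompacts (EuclideanSpace ℝ (Fin n))} {x : ℕ → (EuclideanSpace ℝ (Fin n))} {y : (EuclideanSpace ℝ (Fin n))},
      Tendsto k atTop (𝓝 K) → Tendsto x atTop (𝓝 y) → (∀ m, x m ∈ (k m : Set (EuclideanSpace ℝ (Fin n)))) →
      y ∈ (K : Set (EuclideanSpace ℝ (Fin n))) := by
    intro k K x y hk hx hmemk
    rw [hmem]
    have := ((lipschitz_infDist (α := (EuclideanSpace ℝ (Fin n)))).continuous.tendsto (y, K)).comp (hx.prodMk_nhds hk)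
    refine (tendsto_nhds_unique (this.congr fun m => ?_) tendsto_const_nhds)
    exact (hmem _ _).1 (hmemk m)
  have happ : ∀ {k : ℕ → NonemptyCompacts (EuclideanSpace ℝ (Fin n))} {K : NonemptyCompacts (EuclideanSpace ℝ (Fin n))} {y : (EuclideanSpace ℝ (Fin n))},
      Tendsto k atTop (𝓝 K) → y ∈ (K : Set (EuclideanSpace ℝ (Fin n))) →
      ∃ x : ℕ → (EuclideanSpace ℝ (Fin n)), (∀ m, x m ∈ (k m : Set (EuclideanSpace ℝ (Fin n)))) ∧ Tendsto x atTop (𝓝 y) := by
    intro k K y hk hy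
    choose x hx hxd using fun m => (k m).isCompact.exists_infDist_eq_dist (k m).nonempty y
    refine ⟨x, hx, tendsto_iff_dist_tendsto_zero.2 ?_⟩
    have := ((lipschitz_infDist_set (α := (EuclideanSpace ℝ (Fin n))) y).continuous.tendsto K).comp hk
    rw [(hmem y K).1 hy] at this
    exact this.congr fun m => by rw [Function.comp_apply, hxd m, dist_comm]
  have hSc : IsCompact S := by
    refine (NonemptyCompacts.isCompact_subsets_of_isCompact
      (isCompact_closedBall (0 : (EuclideanSpace ℝ (Fin n))) (max 1 (Real.sqrt n)))).of_isClosed_subset ?_ fun K hK => hK.2.2.2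
    refine IsSeqClosed.isClosed fun k K hk hlimk => ⟨?_, ?_, ?_, ?_⟩
    · intro p hp q hq a b ha hb hab
      obtain ⟨x, hx, hx'⟩ := happ hlimk hp
      obtain ⟨z, hz, hz'⟩ := happ hlimk hq
      exact hlim hlimk ((hx'.const_smul a).add (hz'.const_smul b))
        fun m => (hk m).1 (hx m) (hz m) ha hb hab
    · intro p hp
      obtain ⟨x, hx, hx'⟩ := happ hlimk hp
      exact hlim hlimk hx'.neg fun m => (hk m).2.1 _ (hx m)
    · exact fun p hp => hlim hlimk tendsto_const_nhds fun m => (hk m).2.2.1 hp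
    · intro p hp
      obtain ⟨x, hx, hx'⟩ := happ hlimk hp
      exact isClosed_closedBall.mem_of_tendsto hx' (Eventually.of_forall fun m => (hk m).2.2.2 (hx m))
  have hSne : S.Nonempty :=
    ⟨⟨⟨closedBall 0 1, isCompact_closedBall _ _⟩, ⟨0, by simp⟩⟩, convex_closedBall _ _,
      fun x hx => mem_closedBall_zero_iff.2 (by rw [norm_neg]; exact mem_closedBall_zero_iff.1 hx), Subset.rfl, closedBall_subset_closedBall (le_max_left _ _)⟩
  have hF : ContinuousOn (fun K : NonemptyCompacts (EuclideanSpace ℝ (Fin n)) => F (K : Set (EuclideanSpace ℝ (Fin n)))) S := by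
    intro K hK
    have key : ∀ L ∈ S, F (L : Set (EuclideanSpace ℝ (Fin n))) ≤ (1 + dist L K) ^ N * F (K : Set (EuclideanSpace ℝ (Fin n))) ∧
        F (K : Set (EuclideanSpace ℝ (Fin n))) ≤ (1 + dist L K) ^ N * F (L : Set (EuclideanSpace ℝ (Fin n))) := by
      intro L hL
      have h1 := subset_smul_of_hausdorffDist_le K.isCompact hK.1 hK.2.2.1 L.isCompact dist_nonneg
        (le_of_eq (NonemptyCompacts.dist_eq (x := L) (y := K)).symm)
      have h2 := subset_smul_of_hausdorffDist_le L.isCompact hL.1 hL.2.2.1 K.isCompact dist_nonneg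
        (le_of_eq (by rw [hausdorffDist_comm]; exact (NonemptyCompacts.dist_eq (x := L) (y := K)).symm))
      exact ⟨hcont _ _ K.isCompact hK.1 hK.2.2.1 L.isCompact hL.1 hL.2.2.1 _ dist_nonneg h1 h2,
        hcont _ _ L.isCompact hL.1 hL.2.2.1 K.isCompact hK.1 hK.2.2.1 _ dist_nonneg h2 h1⟩
    have hd : Tendsto (fun L => (1 + dist L K) ^ N) (𝓝[S] K) (𝓝 1) := by
      have : Continuous fun L : NonemptyCompacts (EuclideanSpace ℝ (Fin n)) => (1 + dist L K) ^ N := by fun_prop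
      simpa using (this.tendsto K).mono_left nhdsWithin_le_nhds
    refine tendsto_of_tendsto_of_tendsto_of_le_of_le'
      (g := fun L => F (K : Set (EuclideanSpace ℝ (Fin n))) / (1 + dist L K) ^ N)
      (h := fun L => (1 + dist L K) ^ N * F (K : Set (EuclideanSpace ℝ (Fin n)))) ?_ ?_ ?_ ?_
    · simpa [Pi.div_def] using (tendsto_const_nhds (x := F (K : Set (EuclideanSpace ℝ (Fin n))))).div hd one_ne_zero
    · simpa using hd.mul_const (F (K : Set (EuclideanSpace ℝ (Fin n))))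
    · filter_upwards [self_mem_nhdsWithin] with L hL
      have : (0:ℝ) < (1 + dist L K) ^ N := pow_pos (by linarith [dist_nonneg (x := L) (y := K)]) N
      rw [div_le_iff₀ this, mul_comm]
      exact (key L hL).2
    · filter_upwards [self_mem_nhdsWithin] with L hL
      exact (key L hL).1
  obtain ⟨K, hKS, hmin⟩ := hSc.exists_isMinOn hSne hF
  refine ⟨K, K.isCompact, hKS.1, hKS.2.1, ⟨0, ?_⟩, fun L hLc hLv hLs hLi => ?_⟩
  · exact interior_mono hKS.2.2.1 (by simp [interior_closedBall _ (one_ne_zero' ℝ)])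
  obtain ⟨T, hT1, hT2, -⟩ := exists_john hLc hLv hLs hLi
  rw [← hinv T L hLc hLv hLs hLi]
  have hmemS : (⟨⟨T '' L, hLc.image T.continuous⟩, ⟨0, hT1 (by simp)⟩⟩ : NonemptyCompacts (EuclideanSpace ℝ (Fin n))) ∈ S := by
    refine ⟨hLv.linear_image (T.toLinearEquiv : (EuclideanSpace ℝ (Fin n)) →ₗ[ℝ] (EuclideanSpace ℝ (Fin n))), ?_, hT1,
      hT2.trans (closedBall_subset_closedBall (le_max_right _ _))⟩
    rintro _ ⟨x, hx, rfl⟩
    exact ⟨-x, hLs x hx, map_neg _ x⟩
  exact hmin hmemS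

end Vale.Agent.P237
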