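import Vale.Agent.P237.ConstW

/-!
# P237: the product of the losses `kap m` stays positive

With `q = 1 + u²` and the density proportional to `q^(-kapExp m / 2)`, the reciprocal of `kap m`
is `E[q^a]^m E[q^(-m a)]`, `a = 3/(2(m+1))`, so its first order terms cancel and it is at most
`exp (18 / (m (m - 2)))`.
-/

namespace Vale.Agent.P237

open MeasureTheory Set Filter Topology

lemma exp_le_one_add_add_sq_mul {x : ℝ} (hx : 0 ≤ x) :
    Real.exp x ≤ 1 + x + x ^ 2 * Real.exp x := by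
  have h1 : Real.exp x * (1 - x) ≤ 1 := by
    calc Real.exp x * (1 - x) ≤ Real.exp x * Real.exp (-x) :=
          mul_le_mul_of_nonneg_left (Real.one_sub_le_exp_neg x) (Real.exp_pos x).le
      _ = 1 := by rw [← Real.exp_add]; simp
  nlinarith [mul_le_mul_of_nonneg_left h1 (by linarith : 0 ≤ 1 + x)]

lemma exp_neg_le_one_sub_add_sq {y : ℝ} (hy : 0 ≤ y) : Real.exp (-y) ≤ 1 - y + y ^ 2 := by
  have h2 : Real.exp (-y) * (1 + y) ≤ 1 := by
    calc Real.exp (-y) * (1 + y) ≤ Real.exp (-y) * Real.exp y :=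
          mul_le_mul_of_nonneg_left (by linarith [Real.add_one_le_exp y]) (Real.exp_pos _).le
      _ = 1 := by rw [← Real.exp_add]; simp
  by_contra h
  push Not at h
  nlinarith [mul_lt_mul_of_pos_right h (by linarith : 0 < 1 + y), pow_nonneg hy 3]

lemma log_sq_le (u : ℝ) : Real.log (1 + u ^ 2) ^ 2 ≤ u ^ 4 * (1 + u ^ 2) ^ (-1 : ℝ) := by
  have hq := one_add_sq_pos u
  have hs := Real.sqrt_pos.2 hq
  have h0 : 0 ≤ Real.log √(1 + u ^ 2) := Real.log_nonneg (Real.one_le_sqrt.2 (by nlinarith))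
  have h1 := Real.self_le_sinh_iff.2 h0
  rw [Real.sinh_eq, Real.exp_neg, Real.exp_log hs] at h1
  have e : √(1 + u ^ 2) - (√(1 + u ^ 2))⁻¹ = u ^ 2 / √(1 + u ^ 2) := by
    field_simp
    rw [Real.sq_sqrt hq.le]; ring
  have h2 : Real.log (1 + u ^ 2) ≤ u ^ 2 / √(1 + u ^ 2) := by
    have h3 : Real.log √(1 + u ^ 2) = Real.log (1 + u ^ 2) / 2 := Real.log_sqrt hq.le
    rw [← e]; linarith
  calc Real.log (1 + u ^ 2) ^ 2 ≤ (u ^ 2 / √(1 + u ^ 2)) ^ 2 :=
        pow_le_pow_left₀ (Real.log_nonneg (by nlinarith)) h2 2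
    _ = _ := by rw [div_pow, Real.sq_sqrt hq.le, Real.rpow_neg_one]; ring

lemma pow_four_identity {k : ℝ} (u : ℝ) :
    u ^ 4 * (1 + u ^ 2) ^ (-((k + 4) / 2)) = (1 + u ^ 2) ^ (-(k / 2)) -
      2 * (1 + u ^ 2) ^ (-((k + 2) / 2)) + (1 + u ^ 2) ^ (-((k + 4) / 2)) := by
  have hq := (one_add_sq_pos u).ne'
  rw [show -((k + 4) / 2) = -(k / 2) - 1 - 1 by ring, show -((k + 2) / 2) = -(k / 2) - 1 by ring,
    Real.rpow_sub_one hq, Real.rpow_sub_one hq]
  field_simp
  ring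

lemma integrable_pow_four {k : ℝ} (hk : 1 < k) :
    IntegrableOn (fun u : ℝ => u ^ 4 * (1 + u ^ 2) ^ (-((k + 4) / 2))) (Ioi 0) := by
  simp only [pow_four_identity]
  exact ((wInt_integrable hk).sub ((wInt_integrable (by linarith : 1 < k + 2)).const_mul 2)).add
    (wInt_integrable (by linarith : 1 < k + 4))

lemma integral_pow_four {k : ℝ} (hk : 1 < k) :
    ∫ u in Ioi (0 : ℝ), u ^ 4 * (1 + u ^ 2) ^ (-((k + 4) / 2)) = 3 / (k * (k + 2)) * wInt k := by
  have i0 := wInt_integrable hk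
  have i2 : IntegrableOn (fun u : ℝ => 2 * (1 + u ^ 2) ^ (-((k + 2) / 2))) (Ioi 0) :=
    (wInt_integrable (by linarith : 1 < k + 2)).const_mul 2
  have i4 := wInt_integrable (by linarith : 1 < k + 4)
  simp only [pow_four_identity]
  have i02 : IntegrableOn
      (fun u : ℝ => (1 + u ^ 2) ^ (-(k / 2)) - 2 * (1 + u ^ 2) ^ (-((k + 2) / 2))) (Ioi 0) :=
    i0.sub i2
  rw [integral_add i02 i4, integral_sub i0 i2, integral_const_mul]
  change wInt k - 2 * wInt (k + 2) + wInt (k + 4) = _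
  rw [show k + 4 = (k + 2) + 2 by ring, wInt_add_two (by linarith : 1 < k + 2), wInt_add_two hk]
  have : k + 2 ≠ 0 := by linarith
  have : k ≠ 0 := by linarith
  field_simp
  ring

lemma one_lt_kapExp {m : ℕ} : 1 < kapExp m := by
  rw [kapExp, lt_div_iff₀ (by positivity)]
  nlinarith [(m.cast_nonneg : (0 : ℝ) ≤ m)]

lemma kap_pos {m : ℕ} (hm : 3 ≤ m) : 0 < kap m := by
  have h : (3 : ℝ) ≤ m := by exact_mod_cast hm
  exact div_pos (pow_pos (wInt_pos one_lt_kapExp) _)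
    (mul_pos (pow_pos (wInt_pos (by linarith)) _) (wInt_pos (by linarith)))

/-- The loss of one step is `1 - O(1/m²)`. -/
theorem exp_le_kap {m : ℕ} (hm : 4 ≤ m) :
    Real.exp (-(18 / ((m : ℝ) * ((m : ℝ) - 2)))) ≤ kap m := by
  have hM : (4 : ℝ) ≤ m := by exact_mod_cast hm
  set e := kapExp m with he
  set a : ℝ := 3 / (2 * ((m : ℝ) + 1)) with ha
  set b : ℝ := (m : ℝ) * a with hb
  have ha0 : 0 ≤ a := by positivity
  have hb0 : 0 ≤ b := by positivity
  have e1 : -((m : ℝ) / 2) = -(e / 2) + a := by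
    rw [he, ha, kapExp]; field_simp; ring
  have e2 : -(((m : ℝ) + 3) / 2) = -(e / 2) + -b := by
    rw [he, hb, ha, kapExp]; field_simp; ring
  have he2 : e ≤ (m : ℝ) + 2 := by
    rw [he, kapExp, div_le_iff₀ (by positivity)]; nlinarith
  set L : ℝ → ℝ := fun u => Real.log (1 + u ^ 2) with hL
  set q : ℝ → ℝ → ℝ := fun r u => (1 + u ^ 2) ^ r with hq
  have hqp : ∀ r u, 0 < q r u := fun r u => Real.rpow_pos_of_pos (one_add_sq_pos u) r
  have hL0 : ∀ u, 0 ≤ L u := fun u => Real.log_nonneg (by nlinarith)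
  have hqexp : ∀ r u, q r u = Real.exp (r * L u) := fun r u => by
    rw [hq, hL]; simp only; rw [Real.rpow_def_of_pos (one_add_sq_pos u), mul_comm]
  have hqadd : ∀ r s u, q (r + s) u = q r u * q s u := fun r s u =>
    Real.rpow_add (one_add_sq_pos u) r s
  set G : ℝ → ℝ := fun u => u ^ 4 * (1 + u ^ 2) ^ (-(((m : ℝ) - 2 + 4) / 2)) with hG
  have hsecond : ∀ u, L u ^ 2 * q (-((m : ℝ) / 2)) u ≤ G u := fun u => by
    refine (mul_le_mul_of_nonneg_right (log_sq_le u) (hqp _ u).le).trans_eq ?_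
    rw [hG]
    simp only [hq]
    rw [mul_assoc, ← Real.rpow_add (one_add_sq_pos u)]
    congr 2; ring
  -- the pointwise expansion, first order terms cancelling
  have hpt : ∀ u, (m : ℝ) * q (-((m : ℝ) / 2)) u + q (-(((m : ℝ) + 3) / 2)) u ≤
      ((m : ℝ) + 1) * q (-(e / 2)) u + ((m : ℝ) * a ^ 2 + b ^ 2) * G u := by
    intro u
    have x1 : q a u ≤ 1 + a * L u + (a * L u) ^ 2 * q a u := by
      rw [hqexp]; exact exp_le_one_add_add_sq_mul (mul_nonneg ha0 (hL0 u))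
    have x2 : q (-b) u ≤ 1 - b * L u + (b * L u) ^ 2 := by
      rw [hqexp, neg_mul]; exact exp_neg_le_one_sub_add_sq (mul_nonneg hb0 (hL0 u))
    have x3 : 1 ≤ q a u := Real.one_le_rpow (by nlinarith) ha0
    have hs := hsecond u
    rw [e1, hqadd] at hs
    rw [e1, e2, hqadd, hqadd]
    have hp := (hqp (-(e / 2)) u).le
    calc (m : ℝ) * (q (-(e / 2)) u * q a u) + q (-(e / 2)) u * q (-b) u
        ≤ (m : ℝ) * (q (-(e / 2)) u * (1 + a * L u + (a * L u) ^ 2 * q a u)) +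
          q (-(e / 2)) u * (1 - b * L u + (b * L u) ^ 2 * q a u) := by
          gcongr
          exact x2.trans (by nlinarith [mul_le_mul_of_nonneg_left x3 (sq_nonneg (b * L u))])
      _ = ((m : ℝ) + 1) * q (-(e / 2)) u +
          ((m : ℝ) * a ^ 2 + b ^ 2) * (L u ^ 2 * (q (-(e / 2)) u * q a u)) := by
          rw [hb]; ring
      _ ≤ _ := by gcongr
  have ie : IntegrableOn (q (-(e / 2))) (Ioi 0) := wInt_integrable one_lt_kapExp
  have im : IntegrableOn (q (-((m : ℝ) / 2))) (Ioi 0) := wInt_integrable (by linarith)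
  have i3 : IntegrableOn (q (-(((m : ℝ) + 3) / 2))) (Ioi 0) := wInt_integrable (by linarith)
  have iG : IntegrableOn G (Ioi 0) := integrable_pow_four (by linarith)
  have im' : IntegrableOn (fun u => (m : ℝ) * q (-((m : ℝ) / 2)) u) (Ioi 0) := im.const_mul _
  have ie' : IntegrableOn (fun u => ((m : ℝ) + 1) * q (-(e / 2)) u) (Ioi 0) := ie.const_mul _
  have iG' : IntegrableOn (fun u => ((m : ℝ) * a ^ 2 + b ^ 2) * G u) (Ioi 0) := iG.const_mul _
  have hI := setIntegral_mono (im'.add i3) (ie'.add iG') hpt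
  simp only [Pi.add_apply] at hI
  rw [integral_add im' i3, integral_add ie' iG', integral_const_mul, integral_const_mul,
    integral_const_mul, hG, integral_pow_four (by linarith)] at hI
  change (m : ℝ) * wInt m + wInt ((m : ℝ) + 3) ≤ ((m : ℝ) + 1) * wInt e + _ at hI
  set We := wInt e with hWedef
  have hWe : 0 < We := wInt_pos one_lt_kapExp
  have hWm : 0 < wInt m := wInt_pos (by linarith)
  have hW3 : 0 < wInt ((m : ℝ) + 3) := wInt_pos (by linarith)
  have hrec : wInt ((m : ℝ) + 2) =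
      ((m : ℝ) - 1) / m * (((m : ℝ) - 3) / ((m : ℝ) - 2) * wInt ((m : ℝ) - 2)) := by
    have := wInt_add_two (k := (m : ℝ) - 2) (by linarith)
    rw [sub_add_cancel] at this
    rw [wInt_add_two (by linarith), this]; ring
  have hratio : wInt ((m : ℝ) - 2) ≤ 8 / 3 * We := by
    have h1 : wInt ((m : ℝ) + 2) ≤ We := wInt_anti one_lt_kapExp he2
    have h2 : 3 / 8 ≤ ((m : ℝ) - 1) / m * (((m : ℝ) - 3) / ((m : ℝ) - 2)) := by
      have x : 3 / 4 ≤ ((m : ℝ) - 1) / m := by rw [le_div_iff₀ (by linarith)]; linarith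
      have y : 1 / 2 ≤ ((m : ℝ) - 3) / ((m : ℝ) - 2) := by rw [le_div_iff₀ (by linarith)]; linarith
      calc (3 : ℝ) / 8 = 3 / 4 * (1 / 2) := by norm_num
        _ ≤ _ := mul_le_mul x y (by norm_num) (by linarith)
    rw [hrec, ← mul_assoc] at h1
    nlinarith [mul_le_mul_of_nonneg_right h2 (wInt_pos (k := (m : ℝ) - 2) (by linarith)).le]
  set ε : ℝ := 18 / ((m : ℝ) * ((m : ℝ) - 2)) with hε
  have herr : ((m : ℝ) * a ^ 2 + b ^ 2) *
      (3 / (((m : ℝ) - 2) * ((m : ℝ) - 2 + 2)) * wInt ((m : ℝ) - 2)) ≤ ε * We := by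
    have hA : (m : ℝ) * a ^ 2 + b ^ 2 ≤ 9 / 4 := by
      rw [hb, ha, mul_pow, ← add_mul, div_pow, mul_div_assoc', div_le_iff₀ (by positivity)]
      nlinarith
    have h0 : 0 ≤ wInt ((m : ℝ) - 2) := (wInt_pos (by linarith)).le
    have h3 : 0 < ((m : ℝ) - 2) * ((m : ℝ) - 2 + 2) := by nlinarith
    calc ((m : ℝ) * a ^ 2 + b ^ 2) *
          (3 / (((m : ℝ) - 2) * ((m : ℝ) - 2 + 2)) * wInt ((m : ℝ) - 2))
        ≤ 9 / 4 * (3 / (((m : ℝ) - 2) * ((m : ℝ) - 2 + 2)) * (8 / 3 * We)) :=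
          mul_le_mul hA (mul_le_mul_of_nonneg_left hratio (by positivity))
            (mul_nonneg (by positivity) h0) (by norm_num)
      _ = ε * We := by rw [hε, sub_add_cancel, mul_comm ((m : ℝ) - 2)]; ring
  have hsum : (m : ℝ) * (wInt m / We - 1) + (wInt ((m : ℝ) + 3) / We - 1) ≤ ε := by
    have : (m : ℝ) * wInt m + wInt ((m : ℝ) + 3) - ((m : ℝ) + 1) * We ≤ ε * We := by linarith
    rw [← div_le_iff₀ hWe] at this
    refine le_trans (le_of_eq ?_) this
    field_simp; ring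
  have hprod : (wInt m / We) ^ m * (wInt ((m : ℝ) + 3) / We) ≤ Real.exp ε := by
    calc (wInt m / We) ^ m * (wInt ((m : ℝ) + 3) / We)
        ≤ Real.exp (wInt m / We - 1) ^ m * Real.exp (wInt ((m : ℝ) + 3) / We - 1) := by
          gcongr
          · linarith [Real.add_one_le_exp (wInt m / We - 1)]
          · linarith [Real.add_one_le_exp (wInt ((m : ℝ) + 3) / We - 1)]
      _ ≤ Real.exp ε := by
          rw [← Real.exp_nat_mul, ← Real.exp_add]; exact Real.exp_le_exp.2 hsum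
  have hk : kap m = ((wInt m / We) ^ m * (wInt ((m : ℝ) + 3) / We))⁻¹ := by
    rw [kap, ← he, ← hWedef, div_pow, pow_succ]; field_simp
  rw [hk, Real.exp_neg]
  exact inv_anti₀ (by positivity) hprod

/-- The product of the losses stays above a positive constant. -/
theorem constBoundSpec : ConstBoundSpec := by
  refine ⟨fun m hm => kap_pos hm, min 1 (kap 3 * Real.exp (-(15 / 2))),
    lt_min one_pos (mul_pos (kap_pos le_rfl) (Real.exp_pos _)), fun N => ?_⟩
  rcases le_or_gt N 3 with hN | hN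
  · rw [Finset.Ico_eq_empty (by omega), Finset.prod_empty]
    exact min_le_left _ _
  refine (min_le_right _ _).trans ?_
  rw [Finset.prod_eq_prod_Ico_succ_bot hN]
  refine mul_le_mul_of_nonneg_left ?_ (kap_pos le_rfl).le
  set g : ℕ → ℝ := fun m => 9 * (1 / ((m : ℝ) - 2) + 1 / ((m : ℝ) - 1)) with hg
  have hstep : ∀ m ∈ Finset.Ico 4 N, Real.exp (-(g m - g (m + 1))) ≤ kap m := fun m hm => by
    have h4 : 4 ≤ m := (Finset.mem_Ico.1 hm).1
    refine le_trans (le_of_eq ?_) (exp_le_kap h4)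
    have : (4 : ℝ) ≤ m := by exact_mod_cast h4
    have h2 : (m : ℝ) - 2 ≠ 0 := by linarith
    have h1' : (m : ℝ) - 1 ≠ 0 := by linarith
    congr 2
    rw [hg]
    simp only
    push_cast
    rw [show (m : ℝ) + 1 - 2 = (m : ℝ) - 1 by ring, show (m : ℝ) + 1 - 1 = (m : ℝ) by ring]
    field_simp
    ring
  refine le_trans ?_ (Finset.prod_le_prod (fun m _ => (Real.exp_pos _).le) hstep)
  rw [← Real.exp_sum, Finset.sum_neg_distrib]
  refine Real.exp_le_exp.2 (neg_le_neg ?_)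
  obtain ⟨d, rfl⟩ : ∃ d, N = 4 + d := ⟨N - 4, by omega⟩
  rw [Finset.sum_Ico_eq_sum_range, Nat.add_sub_cancel_left]
  have := Finset.sum_range_sub' (fun i => g (4 + i)) d
  simp only [← add_assoc] at this
  rw [this]
  have hpos : 0 ≤ g (4 + d) := by
    have : (4 : ℝ) ≤ ((4 + d : ℕ) : ℝ) := by exact_mod_cast Nat.le_add_right 4 d
    have : 0 < ((4 + d : ℕ) : ℝ) - 2 := by linarith
    have : 0 < ((4 + d : ℕ) : ℝ) - 1 := by linarith
    rw [hg]; positivity
  have h4 : g 4 = 15 / 2 := by rw [hg]; norm_num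
  rw [add_zero, h4]
  linarith

end Vale.Agent.P237
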