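import Vale.Agent.P237.ConstSpec

/-!
# P237: the integrals `wInt k = ∫₀^∞ (1 + u²)^(-k/2)`
-/

namespace Vale.Agent.P237

open MeasureTheory Set Filter Topology

lemma one_add_sq_pos (u : ℝ) : 0 < 1 + u ^ 2 := by positivity

lemma continuous_one_add_sq_rpow (r : ℝ) : Continuous fun u : ℝ => (1 + u ^ 2) ^ r :=
  Continuous.rpow_const (by fun_prop) fun u => Or.inl (one_add_sq_pos u).ne'

theorem wInt_integrable {k : ℝ} (hk : 1 < k) :
    IntegrableOn (fun u : ℝ => (1 + u ^ 2) ^ (-(k / 2))) (Ioi 0) := by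
  have h := integrable_rpow_neg_one_add_norm_sq (E := ℝ) (μ := volume) (r := k) (by simpa using hk)
  simp only [Real.norm_eq_abs, sq_abs, neg_div] at h
  exact h.integrableOn

theorem wInt_pos {k : ℝ} (hk : 1 < k) : 0 < wInt k := by
  refine (setIntegral_pos_iff_support_of_nonneg_ae
    (ae_of_all _ fun u => (Real.rpow_pos_of_pos (one_add_sq_pos u) _).le)
    (wInt_integrable hk)).2 ?_
  have : (Function.support fun u : ℝ => (1 + u ^ 2) ^ (-(k / 2))) = univ :=
    eq_univ_of_forall fun u => (Real.rpow_pos_of_pos (one_add_sq_pos u) _).ne'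
  rw [this, univ_inter, Real.volume_Ioi]
  exact ENNReal.zero_lt_top

/-- `wInt` decreases. -/
theorem wInt_anti {k l : ℝ} (hk : 1 < k) (hkl : k ≤ l) : wInt l ≤ wInt k :=
  setIntegral_mono (wInt_integrable (hk.trans_le hkl)) (wInt_integrable hk) fun u =>
    Real.rpow_le_rpow_of_exponent_le (by nlinarith) (by linarith)

theorem wInt_add_two {k : ℝ} (hk : 1 < k) : wInt (k + 2) = (k - 1) / k * wInt k := by
  have hd : ∀ u ∈ Ici (0 : ℝ), HasDerivAt (fun u => u * (1 + u ^ 2) ^ (-(k / 2)))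
      ((1 - k) * (1 + u ^ 2) ^ (-(k / 2)) + k * (1 + u ^ 2) ^ (-((k + 2) / 2))) u := by
    intro u _
    have hq : HasDerivAt (fun u : ℝ => 1 + u ^ 2) (2 * u) u := by
      simpa using (hasDerivAt_pow 2 u).const_add 1
    refine ((hasDerivAt_id' u).fun_mul
      (hq.rpow_const (p := -(k / 2)) (Or.inl (one_add_sq_pos u).ne'))).congr_deriv ?_
    rw [show -((k + 2) / 2) = -(k / 2) - 1 by ring, Real.rpow_sub_one (one_add_sq_pos u).ne']
    field_simp
    ring
  have hlim : Tendsto (fun u : ℝ => u * (1 + u ^ 2) ^ (-(k / 2))) atTop (𝓝 0) := by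
    refine squeeze_zero' ?_ ?_ (tendsto_rpow_neg_atTop (show 0 < k - 1 by linarith))
    · filter_upwards [eventually_ge_atTop 0] with u hu
      exact mul_nonneg hu (Real.rpow_nonneg (one_add_sq_pos u).le _)
    · filter_upwards [eventually_gt_atTop 0] with u hu
      calc u * (1 + u ^ 2) ^ (-(k / 2)) ≤ u * (u ^ 2) ^ (-(k / 2)) :=
            mul_le_mul_of_nonneg_left
              (Real.rpow_le_rpow_of_nonpos (by positivity) (by linarith) (by linarith)) hu.le
        _ = u ^ (-(k - 1)) := by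
            rw [← Real.rpow_natCast, ← Real.rpow_mul hu.le]
            nth_rewrite 1 [← Real.rpow_one u]
            rw [← Real.rpow_add hu]
            congr 1; push_cast; ring
  have hi1 : IntegrableOn (fun u : ℝ => (1 - k) * (1 + u ^ 2) ^ (-(k / 2))) (Ioi 0) :=
    (wInt_integrable hk).const_mul _
  have hi2 : IntegrableOn (fun u : ℝ => k * (1 + u ^ 2) ^ (-((k + 2) / 2))) (Ioi 0) :=
    (wInt_integrable (by linarith : 1 < k + 2)).const_mul _
  have h := integral_Ioi_of_hasDerivAt_of_tendsto' hd (hi1.add hi2) hlim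
  rw [integral_add hi1 hi2, integral_const_mul, integral_const_mul] at h
  change (1 - k) * wInt k + k * wInt (k + 2) = _ at h
  rw [zero_mul, sub_zero] at h
  field_simp
  linarith

/-- The substitution `t = u / √(1 + u²)`. -/
theorem circle_integral (j : ℕ) :
    ∫ t in (-1 : ℝ)..1, √(1 - t ^ 2) ^ j = 2 * wInt (j + 3) := by
  have hc : Continuous fun t : ℝ => √(1 - t ^ 2) ^ j := by fun_prop
  have heven : ∫ t in (-1 : ℝ)..0, √(1 - t ^ 2) ^ j = ∫ t in (0 : ℝ)..1, √(1 - t ^ 2) ^ j := by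
    have := intervalIntegral.integral_comp_neg (fun t : ℝ => √(1 - t ^ 2) ^ j) (a := -1) (b := 0)
    simpa using this
  rw [← intervalIntegral.integral_add_adjacent_intervals (hc.intervalIntegrable (-1) 0)
    (hc.intervalIntegrable 0 1), heven, ← two_mul]
  congr 1
  set φ : ℝ → ℝ := fun u => u / √(1 + u ^ 2) with hφ
  have hs : ∀ u : ℝ, 0 < √(1 + u ^ 2) := fun u => Real.sqrt_pos.2 (one_add_sq_pos u)
  have hsq : ∀ u : ℝ, 1 - φ u ^ 2 = (√(1 + u ^ 2))⁻¹ ^ 2 := fun u => by
    rw [hφ, div_pow, inv_pow, Real.sq_sqrt (one_add_sq_pos u).le]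
    field_simp
    ring
  have hd : ∀ u ∈ Ioi (0 : ℝ), HasDerivWithinAt φ ((√(1 + u ^ 2))⁻¹ ^ 3) (Ioi 0) u := fun u _ => by
    have hq : HasDerivAt (fun u : ℝ => √(1 + u ^ 2)) (u / √(1 + u ^ 2)) u := by
      have h1 : HasDerivAt (fun u : ℝ => 1 + u ^ 2) (2 * u) u := by
        simpa using (hasDerivAt_pow 2 u).const_add 1
      refine (h1.sqrt (one_add_sq_pos u).ne').congr_deriv ?_
      field_simp
    refine HasDerivAt.hasDerivWithinAt ?_
    refine ((hasDerivAt_id' u).fun_div hq (hs u).ne').congr_deriv ?_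
    have := hs u
    field_simp
    rw [Real.sq_sqrt (one_add_sq_pos u).le]; ring
  have hinj : InjOn φ (Ioi 0) := by
    intro u hu v hv h
    have h2 : φ u ^ 2 = φ v ^ 2 := by rw [h]
    rw [hφ, div_pow, div_pow, Real.sq_sqrt (one_add_sq_pos u).le,
      Real.sq_sqrt (one_add_sq_pos v).le, div_eq_div_iff (one_add_sq_pos u).ne'
        (one_add_sq_pos v).ne'] at h2
    exact (pow_left_inj₀ (le_of_lt hu) (le_of_lt hv) two_ne_zero).1 (by linarith)
  have himg : φ '' Ioi 0 = Ioo 0 1 := by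
    refine Subset.antisymm ?_ fun t ht => ?_
    · rintro _ ⟨u, hu, rfl⟩
      refine ⟨div_pos hu (hs u), (div_lt_one (hs u)).2 ?_⟩
      exact (Real.lt_sqrt (le_of_lt hu)).2 (by linarith)
    · have h1 : 0 < 1 - t ^ 2 := by nlinarith [ht.1, ht.2]
      have hp := Real.sqrt_pos.2 h1
      refine ⟨t / √(1 - t ^ 2), div_pos ht.1 hp, ?_⟩
      have e : 1 + (t / √(1 - t ^ 2)) ^ 2 = 1 / (√(1 - t ^ 2)) ^ 2 := by
        rw [div_pow, Real.sq_sqrt h1.le]; field_simp; ring
      rw [hφ]
      simp only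
      rw [e, Real.sqrt_div' _ (by positivity), Real.sqrt_one, Real.sqrt_sq hp.le]
      field_simp
  rw [intervalIntegral.integral_of_le zero_le_one, integral_Ioc_eq_integral_Ioo, ← himg,
    integral_image_eq_integral_abs_deriv_smul measurableSet_Ioi hd hinj, wInt]
  refine setIntegral_congr_fun measurableSet_Ioi fun u _ => ?_
  have := hs u
  simp only [smul_eq_mul]
  rw [hsq, Real.sqrt_sq (by positivity), abs_of_nonneg (by positivity), ← pow_add,
    Real.sqrt_eq_rpow, ← Real.rpow_neg (one_add_sq_pos u).le, ← Real.rpow_natCast,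
    ← Real.rpow_mul (one_add_sq_pos u).le]
  congr 1
  push_cast
  ring

end Vale.Agent.P237
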