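import Vale.Agent.P237.ConstTransport
import Vale.Agent.P237.ConstW

/-!
# P237: the one-dimensional bound for a profile cut off at the end point

`core` applies the transport test below `f`; `step_algebra` rewrites the resulting bound with
`kap` and `ballG`.
-/

namespace Vale.Agent.P237.Const

open MeasureTheory Set Filter Topology intervalIntegral
open scoped NNReal

lemma wd_integrable {k : ℝ} (hk : 1 < k) : IntegrableOn (wd k) (Ioi 0) := wInt_integrable hk

lemma kapExp_gt_one {m : ℕ} (hm : 3 ≤ m) : 1 < kapExp m := by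
  have : (3 : ℝ) ≤ m := by exact_mod_cast hm
  rw [kapExp, lt_div_iff₀ (by positivity)]
  nlinarith

/-- The integral of an even function over `[-1, 1]`. -/
lemma integral_even {F : ℝ → ℝ} (hF : IntervalIntegrable F volume (-1) 1)
    (he : ∀ t, F (-t) = F t) : ∫ t in (-1 : ℝ)..1, F t = 2 * ∫ t in (0 : ℝ)..1, F t := by
  have hl : IntervalIntegrable F volume (-1) 0 :=
    hF.mono_set (uIcc_subset_uIcc_left (by rw [uIcc_of_le (by norm_num)]; norm_num))
  have hr : IntervalIntegrable F volume 0 1 :=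
    hF.mono_set (uIcc_subset_uIcc_right (by rw [uIcc_of_le (by norm_num)]; norm_num))
  rw [← integral_add_adjacent_intervals hl hr]
  have h := intervalIntegral.integral_comp_neg (f := F) (a := (0 : ℝ)) (b := 1)
  simp only [he, neg_zero] at h
  rw [← h]
  ring

/-- The transport bound for a cut profile `h ≤ f`. -/
lemma core {m : ℕ} (hm : 3 ≤ m) {f h : ℝ → ℝ} (hp : Prof h)
    (hle : ∀ t ∈ Icc (0 : ℝ) 1, h t ≤ f t)
    (hfi : ∀ j : ℕ, IntervalIntegrable (fun t => f t ^ j) volume 0 1)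
    (htest : ∀ (T : ℝ → ℝ) (K : ℝ≥0), LipschitzWith K T → T 0 = 0 →
      (∫ t in (0 : ℝ)..1, (2 * deriv T t - ((m + 1 : ℕ) : ℝ) * T t ^ 2 -
        2 * t * T t * deriv T t) * f t ^ m) ≤ ∫ t in (0 : ℝ)..1, f t ^ m) :
    wInt (kapExp m) ^ (m + 1) * vl h m ^ m ≤
      (wInt ((m + 1 : ℕ) : ℝ) * ((m : ℝ) / (m + 1))) ^ m *
        ((m : ℝ) / (m - 1) * ∫ t in (0 : ℝ)..1, f t ^ (m - 1)) ^ m *
        (vl f m + ((m + 1 : ℕ) : ℝ) * (vl f m - vl h m)) := by
  have hm0 : m ≠ 0 := by omega
  have hmR : (3 : ℝ) ≤ m := by exact_mod_cast hm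
  set k : ℝ := ((m + 1 : ℕ) : ℝ) with hk
  have hk1 : 1 < k := by rw [hk]; push_cast; linarith
  have hint := wd_integrable hk1
  set V := vl h m with hV
  have hV0 : 0 < V := hp.vl_pos m
  set Vf := vl f m with hVf
  have hW0 : 0 < wInt k := wInt_pos hk1
  have hhm : IntervalIntegrable (fun t => h t ^ m) volume 0 1 :=
    (hp.continuous.pow m).intervalIntegrable _ _
  have hpow : ∀ (j : ℕ) (t : ℝ), t ∈ Icc (0 : ℝ) 1 → h t ^ j ≤ f t ^ j := fun j t ht =>
    pow_le_pow_left₀ (hp.nonneg ht.2) (hle t ht) j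
  have hVle : V ≤ Vf := integral_mono_on zero_le_one hhm (hfi m) fun t ht => hpow m t ht
  set Z := Vf + k * (Vf - V) with hZ
  set e := kapExp m with he
  set θ : ℝ := (m : ℝ) / (m + 1) with hθ
  set C : ℝ := wInt k / V * ((m : ℝ) / (m + 1)) with hC
  set Y : ℝ := (m : ℝ) / (m - 1) * ∫ t in (0 : ℝ)..1, h t ^ (m - 1) with hY
  have hY0 : 0 ≤ Y := by
    have : 0 < vl h (m - 1) := hp.vl_pos (m - 1)
    have : (0 : ℝ) < m - 1 := by linarith
    rw [hY]
    exact mul_nonneg (by positivity) (by exact le_of_lt ‹0 < vl h (m - 1)›)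
  -- one point of the limit
  have step : ∀ (x : ℝ), 0 ≤ x → ∀ ε : ℝ, 0 < ε →
      prim e x ≤ C ^ θ * Y ^ θ * (Z + k * ε) ^ (1 / ((m : ℝ) + 1)) := by
    intro x hx ε hε
    obtain ⟨KC, hKC⟩ := hp.lip_cone m
    have hct : Tendsto (cone h m) (𝓝[<] 1) (𝓝 V) := by
      have hc := (hKC.continuousOn 1 (by norm_num : (1 : ℝ) ∈ Icc (0 : ℝ) 1)).tendsto
      rw [hp.cone_one m hm0] at hc
      exact hc.mono_left (nhdsWithin_le_iff.2 (Icc_mem_nhdsLT zero_lt_one))
    have hyt : Tendsto (fun b => wInt k * cone h m b / V) (𝓝[<] 1) (𝓝 (wInt k)) := by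
      simpa [hV0.ne'] using (hct.const_mul (wInt k)).div_const V
    obtain ⟨b, ⟨hb1, hbx⟩, hbe⟩ := ((Ioo_mem_nhdsLT zero_lt_one : Ioo (0 : ℝ) 1 ∈ 𝓝[<] (1 : ℝ))
      |> fun h => ((eventually_mem_set.2 h).and (hyt.eventually_const_lt (prim_lt hint x))).and
        (hct.eventually_const_lt (show V - ε < V by linarith))).exists
    obtain ⟨T, K, hT, hT0, hTm, hT01, hJ, hbd⟩ := transport hp hm hint hb1.1 hb1.2
    have hy1 : wInt k * cone h m b / V < wInt k := by
      rw [div_lt_iff₀ hV0]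
      have := hp.cone_lt m hb1.1.le hb1.2 le_rfl hm0
      rw [hp.cone_one m hm0] at this
      exact mul_lt_mul_of_pos_left this hW0
    obtain ⟨hU0, hUy⟩ := inv_spec hint ((prim_zero k).symm ▸
      (((strictMono_prim k).monotone hx).trans hbx.le)) hy1
    have hxU : x ≤ inv k (wInt k * cone h m b / V) :=
      (strictMono_prim k).le_iff_le.1 (hUy.symm ▸ hbx.le)
    have hTac := (hT.lipschitzOnWith (s := uIcc (0:ℝ) 1)).absolutelyContinuousOnInterval
    have hT' := hTac.intervalIntegrable_deriv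
    have hTc := hT.continuous
    have hc2 : Continuous fun t => k * T t ^ 2 := by fun_prop
    have hc3 : Continuous fun t => 2 * t * T t := by fun_prop
    have hF : IntervalIntegrable
        (fun t => 2 * deriv T t - k * T t ^ 2 - 2 * t * T t * deriv T t) volume 0 1 :=
      ((hT'.const_mul 2).sub (hc2.intervalIntegrable _ _)).sub
        (hT'.continuousOn_mul hc3.continuousOn)
    have hiX : IntervalIntegrable (fun t => h t ^ m * deriv T t) volume 0 1 :=
      hT'.continuousOn_mul (hp.continuous.pow m).continuousOn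
    have hiJ : IntervalIntegrable
        (fun t => h t ^ m * (k * T t ^ 2 + 2 * t * T t * deriv T t)) volume 0 1 :=
      ((hc2.intervalIntegrable _ _).add (hT'.continuousOn_mul hc3.continuousOn)).continuousOn_mul
        (hp.continuous.pow m).continuousOn
    have hX : (∫ t in (0 : ℝ)..1, h t ^ m * deriv T t) ≤ Z + k * ε := by
      have h1 := htest T K hT hT0
      have h2 : (∫ t in (0 : ℝ)..1, (2 * (h t ^ m * deriv T t) -
          h t ^ m * (k * T t ^ 2 + 2 * t * T t * deriv T t) - k * (f t ^ m - h t ^ m))) ≤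
          ∫ t in (0 : ℝ)..1, (2 * deriv T t - k * T t ^ 2 - 2 * t * T t * deriv T t) * f t ^ m := by
        refine integral_mono_on zero_le_one (((hiX.const_mul 2).sub hiJ).sub
          (((hfi m).sub hhm).const_mul k)) ?_ fun t ht => ?_
        · have hb : ∃ c, ∀ t ∈ Icc (0 : ℝ) 1, |deriv T t| ≤ c :=
            ⟨K, fun t _ => by simpa using norm_deriv_le_of_lipschitz hT (x₀ := t)⟩
          obtain ⟨c, hc⟩ := hb
          rw [intervalIntegrable_iff_integrableOn_Icc_of_le zero_le_one]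
          refine Integrable.bdd_mul
            ((intervalIntegrable_iff_integrableOn_Icc_of_le zero_le_one).1 (hfi m))
            (c := 2 * c + k + 2 * c) ?_ ?_
          · exact ((intervalIntegrable_iff_integrableOn_Icc_of_le zero_le_one).1 hF).aestronglyMeasurable
          · refine (ae_restrict_iff' measurableSet_Icc).2 (ae_of_all _ fun t ht => ?_)
            rw [Real.norm_eq_abs]
            have h01 := hT01 t
            have hcc := abs_le.1 (hc t ht)
            have hp1 : t * T t ≤ 1 := mul_le_one₀ ht.2 h01.1 h01.2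
            have hp0 : 0 ≤ t * T t := mul_nonneg ht.1 h01.1
            have hk0 : 0 ≤ k := by linarith
            have hk2 : 0 ≤ k * T t ^ 2 ∧ k * T t ^ 2 ≤ k :=
              ⟨by positivity, mul_le_of_le_one_right hk0 (by nlinarith)⟩
            have hc0 : 0 ≤ c := (abs_nonneg _).trans (hc t ht)
            have hpd : |2 * t * T t * deriv T t| ≤ 2 * c := by
              rw [show 2 * t * T t * deriv T t = 2 * ((t * T t) * deriv T t) by ring, abs_mul,
                abs_two, abs_mul, abs_of_nonneg hp0]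
              exact mul_le_mul_of_nonneg_left
                ((mul_le_of_le_one_left (abs_nonneg _) hp1).trans (hc t ht)) zero_le_two
            obtain ⟨hpd1, hpd2⟩ := abs_le.1 hpd
            rw [abs_le]
            constructor <;> linarith
        · have hTd : 0 ≤ deriv T t := hTm.deriv_nonneg
          have h01 := hT01 t
          have hp1 : t * T t ≤ 1 := mul_le_one₀ ht.2 h01.1 h01.2
          have hD : 0 ≤ f t ^ m - h t ^ m := sub_nonneg.2 (hpow m t ht)
          have h4 : 0 ≤ 2 * deriv T t * (1 - t * T t) + k * (1 - T t ^ 2) := by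
            have : 0 ≤ 1 - T t ^ 2 := by nlinarith
            have : 0 ≤ 1 - t * T t := by linarith
            have : 0 ≤ k := by linarith
            positivity
          nlinarith [mul_nonneg hD h4]
      rw [intervalIntegral.integral_sub ((hiX.const_mul 2).sub hiJ) (((hfi m).sub hhm).const_mul k),
        intervalIntegral.integral_sub (hiX.const_mul 2) hiJ, intervalIntegral.integral_const_mul,
        intervalIntegral.integral_const_mul, intervalIntegral.integral_sub (hfi m) hhm] at h2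
      have h5 : k * (V - cone h m b) ≤ k * ε := by
        gcongr
        linarith
      have : 0 ≤ k * (Vf - V) := mul_nonneg (by linarith) (by linarith)
      have : 0 ≤ k * ε := by positivity
      simp only [hZ, hVf, hV, vl] at *
      linarith
    have hX0 : 0 < Z + k * ε := by
      have : 0 ≤ k * (Vf - V) := mul_nonneg (by linarith) (by linarith)
      have : 0 < k * ε := by positivity
      rw [hZ]; linarith
    exact ((strictMono_prim e).monotone hxU).trans (hbd _ hX0 hX)
  -- the limit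
  have hlim : wInt e ≤ C ^ θ * Y ^ θ * Z ^ (1 / ((m : ℝ) + 1)) := by
    refine le_of_tendsto (tendsto_prim (wd_integrable (kapExp_gt_one hm))) ?_
    filter_upwards [eventually_ge_atTop 0] with x hx
    have ht : Tendsto (fun ε : ℝ => C ^ θ * Y ^ θ * (Z + k * ε) ^ (1 / ((m : ℝ) + 1))) (𝓝[>] 0)
        (𝓝 (C ^ θ * Y ^ θ * Z ^ (1 / ((m : ℝ) + 1)))) := by
      refine ((Continuous.tendsto' ?_ _ _ (by simp)).mono_left nhdsWithin_le_nhds)
      exact continuous_const.mul ((by fun_prop : Continuous fun ε : ℝ => Z + k * ε).rpow_const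
        fun _ => Or.inr (by positivity))
    exact ge_of_tendsto ht (eventually_mem_nhdsWithin.mono fun ε hε => step x hx ε hε)
  have hZ0 : 0 ≤ Z := by
    have : 0 ≤ k * (Vf - V) := mul_nonneg (by linarith) (by linarith)
    rw [hZ]; linarith
  have hC0 : 0 ≤ C := by rw [hC]; positivity
  have h7 := pow_le_pow_left₀ (wInt_pos (kapExp_gt_one hm)).le hlim (m + 1)
  rw [mul_pow, mul_pow, ← Real.rpow_mul_natCast hC0, ← Real.rpow_mul_natCast hY0,
    ← Real.rpow_mul_natCast hZ0, hθ] at h7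
  push_cast at h7
  rw [div_mul_cancel₀ _ (by positivity : (m : ℝ) + 1 ≠ 0),
    one_div_mul_cancel (by positivity : (m : ℝ) + 1 ≠ 0), Real.rpow_one, Real.rpow_natCast,
    Real.rpow_natCast] at h7
  have hYle : Y ≤ (m : ℝ) / (m - 1) * ∫ t in (0 : ℝ)..1, f t ^ (m - 1) := by
    have : (0 : ℝ) < m - 1 := by linarith
    rw [hY]
    exact mul_le_mul_of_nonneg_left
      (integral_mono_on zero_le_one ((hp.continuous.pow _).intervalIntegrable _ _) (hfi _)
        fun t ht => hpow _ t ht) (by positivity)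
  have hCV : C * V = wInt k * ((m : ℝ) / (m + 1)) := by rw [hC]; field_simp
  calc wInt e ^ (m + 1) * V ^ m
      ≤ (C ^ m * Y ^ m * Z) * V ^ m := mul_le_mul_of_nonneg_right h7 (by positivity)
    _ = (C * V) ^ m * Y ^ m * Z := by ring
    _ ≤ _ := by
        rw [hCV]
        gcongr

/-- The final form of the one-dimensional bound. -/
lemma step_algebra {m : ℕ} (hm : 3 ≤ m) {a V : ℝ} (hV : 0 < V)
    (h : wInt (kapExp m) ^ (m + 1) * V ^ m ≤
      (wInt ((m + 1 : ℕ) : ℝ) * ((m : ℝ) / (m + 1))) ^ m * ((m : ℝ) / (m - 1) * a) ^ m * V) :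
    kap m * ballG m * (2 * V) ^ (m - 1) ≤ (2 * a) ^ m := by
  obtain ⟨j, rfl⟩ : ∃ j, m = j + 1 := ⟨m - 1, by omega⟩
  have hm1 : (1 : ℝ) < ((j + 1 : ℕ) : ℝ) := by exact_mod_cast (show 1 < j + 1 by omega)
  have hn1 : (1 : ℝ) < ((j + 1 : ℕ) : ℝ) + 1 := by linarith
  have e1 : (∫ t in (-1 : ℝ)..1, √(1 - t ^ 2) ^ j) =
      2 * ((((j + 1 : ℕ) : ℝ) - 1) / ((j + 1 : ℕ) : ℝ) * wInt ((j + 1 : ℕ) : ℝ)) := by
    rw [circle_integral, ← wInt_add_two hm1]
    push_cast; ring_nf
  have e2 : (∫ t in (-1 : ℝ)..1, √(1 - t ^ 2) ^ (j + 1)) =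
      2 * (((j + 1 : ℕ) : ℝ) / (((j + 1 : ℕ) : ℝ) + 1) * wInt (((j + 1 : ℕ) : ℝ) + 1)) := by
    rw [circle_integral]
    have := wInt_add_two hn1
    rw [add_sub_cancel_right] at this
    rw [← this]
    push_cast; ring_nf
  have e3 : wInt (((j + 1 : ℕ) : ℝ) + 3) =
      ((j + 1 : ℕ) : ℝ) / (((j + 1 : ℕ) : ℝ) + 1) * wInt (((j + 1 : ℕ) : ℝ) + 1) := by
    have := wInt_add_two hn1
    rw [add_sub_cancel_right, add_assoc] at this
    rw [← this]; norm_num
  rw [show (((j + 1 + 1 : ℕ)) : ℝ) = ((j + 1 : ℕ) : ℝ) + 1 by push_cast; ring] at h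
  have wm := wInt_pos hm1
  have wn := wInt_pos hn1
  rw [kap, ballG, show j + 1 - 1 = j by omega, e1, e2, e3]
  set M : ℝ := ((j + 1 : ℕ) : ℝ) with hM
  set w := wInt M with hw
  set u := wInt (M + 1) with hu
  have hM0 : 0 < M := by linarith
  have hM10 : 0 < M - 1 := by linarith
  have h' : wInt (kapExp (j + 1)) ^ (j + 1 + 1) * V ^ j ≤
      (u * (M / (M + 1))) ^ (j + 1) * (M / (M - 1) * a) ^ (j + 1) :=
    le_of_mul_le_mul_right (by rw [mul_assoc, ← pow_succ]; exact h) hV
  calc wInt (kapExp (j + 1)) ^ (j + 1 + 1) / (w ^ (j + 1) * (M / (M + 1) * u)) *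
        ((2 * ((M - 1) / M * w)) ^ (j + 1) / (2 * (M / (M + 1) * u)) ^ j) * (2 * V) ^ j
      = (wInt (kapExp (j + 1)) ^ (j + 1 + 1) * V ^ j) *
          ((2 * ((M - 1) / M)) ^ (j + 1) / ((M / (M + 1)) * u) ^ (j + 1)) := by
        simp only [mul_pow, div_pow, pow_succ]
        field_simp
    _ ≤ ((u * (M / (M + 1))) ^ (j + 1) * (M / (M - 1) * a) ^ (j + 1)) *
          ((2 * ((M - 1) / M)) ^ (j + 1) / ((M / (M + 1)) * u) ^ (j + 1)) :=
        mul_le_mul_of_nonneg_right h' (by positivity)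
    _ = (2 * a) ^ (j + 1) := by
        simp only [mul_pow, div_pow]
        field_simp

end Vale.Agent.P237.Const
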