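import Vale.Agent.P237.ConstSpec

/-!
# P237: Lipschitz tests and cut profiles for the one-dimensional step

`test_lipschitz` extends the divergence test of `ConstOneDimSpec` from odd `C¹` functions to
Lipschitz functions on the half line; `cut f L` is the Lipschitz minorant
`min (f t) (L (1 - t))` of an even concave profile, which increases to `f` on `[0, 1)`.
-/

namespace Vale.Agent.P237.Const

open MeasureTheory Set Filter Topology
open scoped NNReal

variable {m : ℕ} {f : ℝ → ℝ}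

lemma antitoneOn_profile (hc : ConcaveOn ℝ (Icc (-1 : ℝ) 1) f) (he : ∀ t, f (-t) = f t) :
    AntitoneOn f (Icc 0 1) := by
  intro s hs t ht hst
  rcases eq_or_lt_of_le (hs.1.trans hst) with h0 | h0
  · rw [show s = t by linarith [hs.1]]
  · have h1 := hc.2 (show -t ∈ Icc (-1 : ℝ) 1 from ⟨by linarith [ht.2], by linarith⟩)
      (show t ∈ Icc (-1 : ℝ) 1 from ⟨by linarith, ht.2⟩)
      (show 0 ≤ (t - s) / (2 * t) from div_nonneg (by linarith) (by linarith))
      (show 0 ≤ (t + s) / (2 * t) from div_nonneg (by linarith [hs.1]) (by linarith))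
      (by field_simp; ring)
    simp only [smul_eq_mul, he t] at h1
    have e1 : (t - s) / (2 * t) * -t + (t + s) / (2 * t) * t = s := by field_simp; ring
    have e2 : (t - s) / (2 * t) * f t + (t + s) / (2 * t) * f t = f t := by field_simp; ring
    rwa [e1, e2] at h1

lemma profile_le_zero (hc : ConcaveOn ℝ (Icc (-1 : ℝ) 1) f) (he : ∀ t, f (-t) = f t) {t : ℝ}
    (ht : t ∈ Icc (-1 : ℝ) 1) : f t ≤ f 0 := by
  have h0 : (0 : ℝ) ∈ Icc (0 : ℝ) 1 := by norm_num
  rcases le_total 0 t with h | h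
  · exact antitoneOn_profile hc he h0 ⟨h, ht.2⟩ h
  · rw [← he t]
    exact antitoneOn_profile hc he h0 ⟨by linarith, by linarith [ht.1]⟩ (by linarith)

lemma intervalIntegrable_profile_pow (hc : ConcaveOn ℝ (Icc (-1 : ℝ) 1) f)
    (he : ∀ t, f (-t) = f t) (hnn : ∀ t ∈ Icc (-1 : ℝ) 1, 0 ≤ f t) (k : ℕ) :
    IntervalIntegrable (fun t => f t ^ k) volume (-1) 1 := by
  have h1 : IntervalIntegrable (fun t => f t ^ k) volume 0 1 := by
    refine AntitoneOn.intervalIntegrable ?_
    rw [uIcc_of_le zero_le_one]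
    intro s hs t ht hst
    exact pow_le_pow_left₀ (hnn t ⟨by linarith [ht.1], ht.2⟩) (antitoneOn_profile hc he hs ht hst) k
  have h2 : IntervalIntegrable (fun t => f t ^ k) volume (-1) 0 := by
    have h3 := h1.comp_mul_left (c := -1)
    simp only [neg_one_mul, he, zero_div, one_div, inv_neg, inv_one] at h3
    exact h3.symm
  exact h2.trans h1

lemma tendsto_symm_slope {Φ : ℝ → ℝ} {t d : ℝ} (h : HasDerivAt Φ d t) :
    Tendsto (fun j : ℕ => (Φ (t + 1 / ((j : ℝ) + 1)) - Φ (t - 1 / ((j : ℝ) + 1))) /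
      (2 * (1 / ((j : ℝ) + 1)))) atTop (𝓝 d) := by
  have h0 := tendsto_one_div_add_atTop_nhds_zero_nat (𝕜 := ℝ)
  have hpos : ∀ j : ℕ, (0 : ℝ) < 1 / ((j : ℝ) + 1) := fun j => by positivity
  have hp : Tendsto (fun j : ℕ => t + 1 / ((j : ℝ) + 1)) atTop (𝓝[≠] t) :=
    tendsto_nhdsWithin_iff.2 ⟨by simpa using tendsto_const_nhds.add h0,
      Eventually.of_forall fun j => by
        simp only [mem_compl_iff, mem_singleton_iff]; linarith [hpos j]⟩
  have hm : Tendsto (fun j : ℕ => t - 1 / ((j : ℝ) + 1)) atTop (𝓝[≠] t) :=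
    tendsto_nhdsWithin_iff.2 ⟨by simpa using tendsto_const_nhds.sub h0,
      Eventually.of_forall fun j => by
        simp only [mem_compl_iff, mem_singleton_iff]; linarith [hpos j]⟩
  have hs := hasDerivAt_iff_tendsto_slope.1 h
  have hh := ((hs.comp hp).add (hs.comp hm)).div_const 2
  rw [add_self_div_two] at hh
  refine hh.congr fun j => ?_
  have := (hpos j).ne'
  simp only [Function.comp_apply, slope_def_field]
  field_simp
  ring

/-- The divergence test holds for every Lipschitz `T` with `T 0 = 0` on the half line. -/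
theorem test_lipschitz (hc : ConcaveOn ℝ (Icc (-1 : ℝ) 1) f) (he : ∀ t, f (-t) = f t)
    (hnn : ∀ t ∈ Icc (-1 : ℝ) 1, 0 ≤ f t)
    (hyp : ∀ g : ℝ → ℝ, ContDiff ℝ 1 g → (∀ t, g (-t) = -g t) →
      (∫ t in (-1 : ℝ)..1,
          (2 * deriv g t - ((m + 1 : ℕ) : ℝ) * g t ^ 2 - 2 * t * g t * deriv g t) * f t ^ m) ≤
        ∫ t in (-1 : ℝ)..1, f t ^ m)
    {T : ℝ → ℝ} {K : ℝ≥0} (hT : LipschitzWith K T) (h0 : T 0 = 0) :
    (∫ t in (0 : ℝ)..1,
        (2 * deriv T t - ((m + 1 : ℕ) : ℝ) * T t ^ 2 - 2 * t * T t * deriv T t) * f t ^ m) ≤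
      ∫ t in (0 : ℝ)..1, f t ^ m := by
  -- the odd extension of `T`
  set G : ℝ → ℝ := fun t => T (max t 0) - T (max (-t) 0) with hG
  have hGl : LipschitzWith (K + K) G := by
    have h1 : LipschitzWith K fun t => T (max t 0) := by
      simpa [Function.comp_def] using
        hT.comp (LipschitzWith.id.max_const (0 : ℝ))
    have h2 : LipschitzWith K fun t => T (max (-t) 0) := by
      simpa [Function.comp_def] using
        hT.comp ((LipschitzWith.id (α := ℝ)).neg.max_const (0 : ℝ))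
    exact h1.sub h2
  set K₂ : ℝ≥0 := K + K
  have hGodd : ∀ t, G (-t) = -G t := fun t => by simp only [hG, neg_neg]; ring
  have hGc : Continuous G := hGl.continuous
  have hG0 : G 0 = 0 := by simp [hG]
  -- mollification by symmetric averages
  set Φ : ℝ → ℝ := fun x => ∫ s in (0 : ℝ)..x, G s with hΦ
  have hΦd : ∀ x, HasDerivAt Φ (G x) x := fun x => (hGc.integral_hasStrictDerivAt 0 x).hasDerivAt
  have hΦe : ∀ x, Φ (-x) = Φ x := by
    intro x
    have h1 := intervalIntegral.integral_comp_neg G (a := 0) (b := x)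
    simp only [hGodd, intervalIntegral.integral_neg, neg_zero] at h1
    simp only [hΦ]
    rw [intervalIntegral.integral_symm, ← h1, neg_neg]
  set ε : ℕ → ℝ := fun j => 1 / ((j : ℝ) + 1) with hε
  have hεpos : ∀ j, 0 < ε j := fun j => by simp only [hε]; positivity
  have hεle : ∀ j, ε j ≤ 1 := fun j => by
    simp only [hε]
    rw [div_le_one (by positivity)]
    linarith [(Nat.cast_nonneg j : (0 : ℝ) ≤ j)]
  set g : ℕ → ℝ → ℝ := fun j t => (Φ (t + ε j) - Φ (t - ε j)) / (2 * ε j) with hg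
  have hgd : ∀ j t, HasDerivAt (g j) ((G (t + ε j) - G (t - ε j)) / (2 * ε j)) t := fun j t =>
    (((hΦd _).comp_add_const t (ε j)).sub ((hΦd _).comp_sub_const t (ε j))).div_const _
  have hgC : ∀ j, ContDiff ℝ 1 (g j) := fun j => by
    rw [contDiff_one_iff_deriv]
    refine ⟨fun t => (hgd j t).differentiableAt, ?_⟩
    rw [funext fun t => (hgd j t).deriv]
    fun_prop
  have hgodd : ∀ j t, g j (-t) = -g j t := by
    intro j t
    simp only [hg]
    rw [show -t + ε j = -(t - ε j) by ring, show -t - ε j = -(t + ε j) by ring, hΦe, hΦe]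
    ring
  have hbd' : ∀ j t, |deriv (g j) t| ≤ K₂ := by
    intro j t
    have e := hεpos j
    rw [(hgd j t).deriv, abs_div, abs_of_pos (by linarith : 0 < 2 * ε j),
      div_le_iff₀ (by linarith)]
    have := hGl.dist_le_mul (t + ε j) (t - ε j)
    rwa [Real.dist_eq, Real.dist_eq, show t + ε j - (t - ε j) = 2 * ε j by ring,
      abs_of_pos (by linarith : 0 < 2 * ε j)] at this
  have hGb : ∀ s, |G s| ≤ K₂ * |s| := fun s => by
    have := hGl.dist_le_mul s 0
    simpa [Real.dist_eq, hG0] using this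
  have hbd : ∀ j, ∀ t ∈ Icc (-1 : ℝ) 1, |g j t| ≤ 2 * K₂ := by
    intro j t ht
    have e := hεpos j
    have e' := hεle j
    simp only [hg, hΦ]
    rw [intervalIntegral.integral_interval_sub_left (hGc.intervalIntegrable _ _)
      (hGc.intervalIntegrable _ _), abs_div, abs_of_pos (by linarith : 0 < 2 * ε j),
      div_le_iff₀ (by linarith)]
    have hh := intervalIntegral.norm_integral_le_of_norm_le_const (C := 2 * (K₂ : ℝ)) (f := G)
      (a := t - ε j) (b := t + ε j) fun s hs => by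
        rw [uIoc_of_le (by linarith)] at hs
        have h2 : |s| ≤ 2 := abs_le.2 ⟨by linarith [hs.1, ht.1], by linarith [hs.2, ht.2]⟩
        rw [Real.norm_eq_abs]
        nlinarith [hGb s, abs_nonneg s, K₂.coe_nonneg]
    rwa [show t + ε j - (t - ε j) = 2 * ε j by ring, abs_of_pos (by linarith : 0 < 2 * ε j),
      Real.norm_eq_abs] at hh
  -- the test integrand
  set Ψ : (ℝ → ℝ) → ℝ → ℝ := fun u t =>
    (2 * deriv u t - ((m + 1 : ℕ) : ℝ) * u t ^ 2 - 2 * t * u t * deriv u t) * f t ^ m with hΨ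
  have hfI := intervalIntegrable_profile_pow hc he hnn m
  set C : ℝ := (2 * (K₂ : ℝ) + ((m + 1 : ℕ) : ℝ) * (2 * (K₂ : ℝ)) ^ 2 +
    2 * 1 * (2 * (K₂ : ℝ)) * K₂) * f 0 ^ m with hC
  have hΨb : ∀ u : ℝ → ℝ, ∀ t ∈ Icc (-1 : ℝ) 1, |deriv u t| ≤ K₂ → |u t| ≤ 2 * K₂ →
      ‖Ψ u t‖ ≤ C := by
    intro u t ht a1 a2
    have a3 : |t| ≤ 1 := abs_le.2 ⟨ht.1, ht.2⟩
    have hf0 : (0 : ℝ) ≤ f 0 := hnn 0 (by norm_num)
    simp only [hΨ, hC, Real.norm_eq_abs, abs_mul, abs_pow, abs_of_nonneg (hnn t ht)]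
    refine mul_le_mul ?_ (pow_le_pow_left₀ (hnn t ht) (profile_le_zero hc he ht) m)
      (pow_nonneg (hnn t ht) m) (by positivity)
    refine (abs_sub _ _).trans (add_le_add ((abs_sub _ _).trans (add_le_add ?_ ?_)) ?_)
    · rw [abs_mul, abs_two]; linarith
    · rw [abs_mul, abs_pow, Nat.abs_cast]
      exact mul_le_mul_of_nonneg_left (pow_le_pow_left₀ (abs_nonneg _) a2 2) (by positivity)
    · simp only [abs_mul, abs_two]
      gcongr
  have hlim : Tendsto (fun j => ∫ t in (-1 : ℝ)..1, Ψ (g j) t) atTop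
      (𝓝 (∫ t in (-1 : ℝ)..1, Ψ G t)) := by
    refine intervalIntegral.tendsto_integral_filter_of_dominated_convergence (fun _ => C)
      (Eventually.of_forall fun j => ?_) (Eventually.of_forall fun j => ?_)
      intervalIntegrable_const ?_
    · have hd : Continuous (deriv (g j)) := (contDiff_one_iff_deriv.1 (hgC j)).2
      have hgc : Continuous (g j) := (hgC j).continuous
      refine AEStronglyMeasurable.mul ?_ hfI.def'.aestronglyMeasurable
      exact Continuous.aestronglyMeasurable (by fun_prop)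
    · refine Eventually.of_forall fun t ht => ?_
      rw [uIoc_of_le (by norm_num)] at ht
      exact hΨb _ t (Ioc_subset_Icc_self ht) (hbd' j t) (hbd j t (Ioc_subset_Icc_self ht))
    · filter_upwards [hGl.ae_differentiableAt_real] with t htd _
      have e1 : Tendsto (fun j => g j t) atTop (𝓝 (G t)) := tendsto_symm_slope (hΦd t)
      have e2 : Tendsto (fun j => deriv (g j) t) atTop (𝓝 (deriv G t)) :=
        (tendsto_symm_slope htd.hasDerivAt).congr fun j => ((hgd j t).deriv).symm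
      exact (((e2.const_mul 2).sub ((e1.pow 2).const_mul _)).sub
        ((e1.const_mul (2 * t)).mul e2)).mul_const _
  have hmain : (∫ t in (-1 : ℝ)..1, Ψ G t) ≤ ∫ t in (-1 : ℝ)..1, f t ^ m :=
    le_of_tendsto hlim (Eventually.of_forall fun j => hyp (g j) (hgC j) (hgodd j))
  have hGde : ∀ t, deriv G (-t) = deriv G t := by
    intro t
    have h1 : deriv (fun s => G (-s)) t = -deriv G (-t) := deriv_comp_neg G t
    simp only [hGodd, deriv.fun_neg] at h1
    linarith
  have hΨe : ∀ t, Ψ G (-t) = Ψ G t := fun t => by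
    simp only [hΨ, hGde, hGodd, he]; ring
  have hΨI : IntervalIntegrable (Ψ G) volume (-1) 1 := by
    refine (intervalIntegrable_const (c := C)).mono_fun' ?_ ?_
    · refine AEStronglyMeasurable.mul ?_ hfI.def'.aestronglyMeasurable
      have hd : Measurable (deriv G) := measurable_deriv G
      have hm : Measurable G := hGc.measurable
      exact Measurable.aestronglyMeasurable (by fun_prop)
    · refine (ae_restrict_iff' measurableSet_uIoc).2 (Eventually.of_forall fun t ht => ?_)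
      rw [uIoc_of_le (by norm_num)] at ht
      have htI := Ioc_subset_Icc_self ht
      refine hΨb G t htI ?_ ?_
      · simpa [Real.norm_eq_abs] using norm_deriv_le_of_lipschitz hGl (x₀ := t)
      · have : |t| ≤ 1 := abs_le.2 ⟨htI.1, htI.2⟩
        nlinarith [hGb t, K₂.coe_nonneg, abs_nonneg t]
  have hsplit : ∀ φ : ℝ → ℝ, IntervalIntegrable φ volume (-1) 1 → (∀ t, φ (-t) = φ t) →
      ∫ t in (-1 : ℝ)..1, φ t = 2 * ∫ t in (0 : ℝ)..1, φ t := by
    intro φ hφ hφe
    have hs : IntervalIntegrable φ volume (-1) 0 := hφ.mono_set (by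
      rw [uIcc_of_le (by norm_num), uIcc_of_le (by norm_num)]
      exact Icc_subset_Icc le_rfl (by norm_num))
    have ht : IntervalIntegrable φ volume 0 1 := hφ.mono_set (by
      rw [uIcc_of_le (by norm_num), uIcc_of_le (by norm_num)]
      exact Icc_subset_Icc (by norm_num) le_rfl)
    rw [← intervalIntegral.integral_add_adjacent_intervals hs ht]
    have h1 := intervalIntegral.integral_comp_neg φ (a := 0) (b := 1)
    simp only [hφe, neg_zero] at h1
    rw [← h1]
    ring
  rw [hsplit _ hΨI hΨe, hsplit _ hfI fun t => by rw [he]] at hmain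
  have hcongr : ∫ t in (0 : ℝ)..1, Ψ G t = ∫ t in (0 : ℝ)..1, Ψ T t := by
    refine intervalIntegral.integral_congr_ae (Eventually.of_forall fun t ht => ?_)
    rw [uIoc_of_le zero_le_one] at ht
    have hev : G =ᶠ[𝓝 t] T := by
      filter_upwards [Ioi_mem_nhds ht.1] with s hs
      simp only [hG]
      rw [max_eq_left (le_of_lt hs), max_eq_right (by linarith [mem_Ioi.1 hs]), h0, sub_zero]
    simp only [hΨ, hev.deriv_eq, hev.eq_of_nhds]
  rw [hcongr] at hmain
  simp only [hΨ] at hmain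
  linarith

/-- Clamp to `[0, 1]`. -/
noncomputable def proj01 (t : ℝ) : ℝ := max 0 (min t 1)

/-- The cut profile `min (f t) (L (1 - t))` on `[0, 1]`, extended by constants. -/
noncomputable def cut (f : ℝ → ℝ) (L t : ℝ) : ℝ := min (f (proj01 t)) (L * (1 - proj01 t))

lemma proj01_mem (t : ℝ) : proj01 t ∈ Icc (0 : ℝ) 1 :=
  ⟨le_max_left _ _, max_le zero_le_one (min_le_right _ _)⟩

lemma proj01_of_mem {t : ℝ} (ht : t ∈ Icc (0 : ℝ) 1) : proj01 t = t := by
  rw [proj01, min_eq_left ht.2, max_eq_right ht.1]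

lemma proj01_mono : Monotone proj01 := fun _ _ h => max_le_max le_rfl (min_le_min h le_rfl)

lemma proj01_sub_le {s t : ℝ} (h : s ≤ t) : proj01 t - proj01 s ≤ t - s := by
  have h1 : |proj01 t - proj01 s| ≤ |t - s| := by
    simp only [proj01]
    have e1 : |max 0 (min t 1) - max 0 (min s 1)| ≤ |min t 1 - min s 1| := by
      rw [max_comm 0, max_comm 0]; exact abs_max_sub_max_le_abs _ _ _
    exact e1.trans (abs_min_sub_min_le_max _ _ _ _ |>.trans (by simp))
  rw [abs_of_nonneg (sub_nonneg.2 h)] at h1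
  exact (le_abs_self _).trans h1

lemma cut_le {L t : ℝ} (ht : t ∈ Icc (0 : ℝ) 1) : cut f L t ≤ f t := by
  rw [cut, proj01_of_mem ht]
  exact min_le_left _ _

lemma cut_one (hnn : ∀ t ∈ Icc (-1 : ℝ) 1, 0 ≤ f t) {L : ℝ} : cut f L 1 = 0 := by
  rw [cut, proj01_of_mem (by norm_num), sub_self, mul_zero]
  exact min_eq_right (hnn 1 (by norm_num))

lemma cut_nonneg (hnn : ∀ t ∈ Icc (-1 : ℝ) 1, 0 ≤ f t) {L : ℝ} (hL : 0 ≤ L) (t : ℝ) :
    0 ≤ cut f L t := by
  have h := proj01_mem t
  exact le_min (hnn _ ⟨by linarith [h.1], h.2⟩) (mul_nonneg hL (by linarith [h.2]))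

lemma cut_antitone (hc : ConcaveOn ℝ (Icc (-1 : ℝ) 1) f) (he : ∀ t, f (-t) = f t) {L : ℝ}
    (hL : 0 ≤ L) : Antitone (cut f L) := fun _ _ h =>
  min_le_min (antitoneOn_profile hc he (proj01_mem _) (proj01_mem _) (proj01_mono h))
    (mul_le_mul_of_nonneg_left (by linarith [proj01_mono h]) hL)

lemma cut_pos (hge : ∀ t ∈ Icc (-1 : ℝ) 1, √(1 - t ^ 2) ≤ f t) {L t : ℝ} (hL : 0 < L)
    (ht : t < 1) : 0 < cut f L t := by
  have h := proj01_mem t
  have h1 : proj01 t < 1 := max_lt zero_lt_one ((min_le_left _ _).trans_lt ht)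
  have h2 : 0 < √(1 - proj01 t ^ 2) := Real.sqrt_pos.2 (by nlinarith [h.1])
  exact lt_min (h2.trans_le (hge _ ⟨by linarith [h.1], h.2⟩)) (mul_pos hL (by linarith))

lemma cut_lipschitz (hc : ConcaveOn ℝ (Icc (-1 : ℝ) 1) f) (he : ∀ t, f (-t) = f t)
    (hnn : ∀ t ∈ Icc (-1 : ℝ) 1, 0 ≤ f t) {L : ℝ} (hL : 0 ≤ L) :
    LipschitzWith L.toNNReal (cut f L) := by
  set φ : ℝ → ℝ := fun s => min (f s) (L * (1 - s)) with hφ
  have hlin : ConcaveOn ℝ (Icc (0 : ℝ) 1) fun s => L * (1 - s) :=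
    ⟨convex_Icc 0 1, fun x _ y _ a b _ _ hab => le_of_eq (by
      simp only [smul_eq_mul]; linear_combination L * hab)⟩
  have hcc : ConcaveOn ℝ (Icc (0 : ℝ) 1) φ :=
    (hc.subset (Icc_subset_Icc (by norm_num) le_rfl) (convex_Icc 0 1)).inf hlin
  have hφ1 : φ 1 = 0 := by
    simp only [hφ, sub_self, mul_zero]
    exact min_eq_right (hnn 1 (by norm_num))
  have key : ∀ s ∈ Icc (0 : ℝ) 1, ∀ t ∈ Icc (0 : ℝ) 1, s ≤ t → φ s - φ t ≤ L * (t - s) := by
    intro s hs t ht hst
    rcases eq_or_lt_of_le hst with rfl | hst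
    · simp
    rcases eq_or_lt_of_le ht.2 with rfl | ht1
    · rw [hφ1, sub_zero]; exact min_le_right _ _
    · have h := hcc.slope_anti_adjacent hs (by norm_num) hst ht1
      have h2 : φ t ≤ L * (1 - t) := min_le_right _ _
      rw [hφ1, div_le_div_iff₀ (by linarith) (by linarith)] at h
      have h3 : (φ s - φ t) * (1 - t) ≤ φ t * (t - s) := by nlinarith
      have h4 : φ t * (t - s) ≤ L * (1 - t) * (t - s) :=
        mul_le_mul_of_nonneg_right h2 (by linarith)
      by_contra hcon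
      nlinarith [mul_lt_mul_of_pos_right (not_le.1 hcon) (by linarith : (0 : ℝ) < 1 - t)]
  have main : ∀ s t : ℝ, s ≤ t → |cut f L s - cut f L t| ≤ L * |s - t| := by
    intro s t hst
    rw [abs_of_nonneg (sub_nonneg.2 (cut_antitone hc he hL hst)), abs_sub_comm,
      abs_of_nonneg (sub_nonneg.2 hst)]
    exact (key _ (proj01_mem s) _ (proj01_mem t) (proj01_mono hst)).trans
      (mul_le_mul_of_nonneg_left (proj01_sub_le hst) hL)
  refine LipschitzWith.of_dist_le_mul fun s t => ?_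
  rw [Real.dist_eq, Real.dist_eq, Real.coe_toNNReal L hL]
  rcases le_total s t with h | h
  · exact main s t h
  · rw [abs_sub_comm, abs_sub_comm s t]; exact main t s h

lemma tendsto_cut (hc : ConcaveOn ℝ (Icc (-1 : ℝ) 1) f) (he : ∀ t, f (-t) = f t)
    (hnn : ∀ t ∈ Icc (-1 : ℝ) 1, 0 ≤ f t) (k : ℕ) :
    Tendsto (fun L => ∫ t in (0 : ℝ)..1, cut f L t ^ k) atTop
      (𝓝 (∫ t in (0 : ℝ)..1, f t ^ k)) := by
  refine intervalIntegral.tendsto_integral_filter_of_dominated_convergence (fun _ => f 0 ^ k)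
    ?_ ?_ intervalIntegrable_const ?_
  · filter_upwards [eventually_ge_atTop (0 : ℝ)] with L hL
    exact ((cut_lipschitz hc he hnn hL).continuous.pow k).aestronglyMeasurable
  · filter_upwards [eventually_ge_atTop (0 : ℝ)] with L hL
    refine Eventually.of_forall fun t ht => ?_
    rw [uIoc_of_le zero_le_one] at ht
    rw [Real.norm_eq_abs, abs_of_nonneg (pow_nonneg (cut_nonneg hnn hL t) k)]
    exact pow_le_pow_left₀ (cut_nonneg hnn hL t)
      ((cut_le (Ioc_subset_Icc_self ht)).trans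
        (profile_le_zero hc he ⟨by linarith [ht.1], ht.2⟩)) k
  · filter_upwards [Measure.ae_ne volume (1 : ℝ)] with t ht1 ht
    rw [uIoc_of_le zero_le_one] at ht
    have h1 : t < 1 := lt_of_le_of_ne ht.2 ht1
    refine tendsto_const_nhds.congr' ?_
    filter_upwards [eventually_ge_atTop (f 0 / (1 - t))] with L hL
    have h2 : f t ≤ L * (1 - t) := by
      rw [div_le_iff₀ (by linarith)] at hL
      exact (profile_le_zero hc he ⟨by linarith [ht.1], ht.2⟩).trans hL
    rw [cut, proj01_of_mem (Ioc_subset_Icc_self ht), min_eq_left h2]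

/-- The cut profiles, packaged. -/
theorem exists_cut (hc : ConcaveOn ℝ (Icc (-1 : ℝ) 1) f) (he : ∀ t, f (-t) = f t)
    (hge : ∀ t ∈ Icc (-1 : ℝ) 1, √(1 - t ^ 2) ≤ f t) {L : ℝ} (hL : 1 ≤ L) :
    (∃ K, LipschitzWith K (cut f L)) ∧ Antitone (cut f L) ∧ (∀ t < 1, 0 < cut f L t) ∧
      cut f L 1 = 0 ∧ ∀ t ∈ Icc (0 : ℝ) 1, cut f L t ≤ f t :=
  have hnn : ∀ t ∈ Icc (-1 : ℝ) 1, 0 ≤ f t := fun t ht => (Real.sqrt_nonneg _).trans (hge t ht)
  ⟨⟨_, cut_lipschitz hc he hnn (by linarith)⟩, cut_antitone hc he (by linarith),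
    fun _ ht => cut_pos hge (by linarith) ht, cut_one hnn, fun _ ht => cut_le ht⟩

end Vale.Agent.P237.Const
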