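import Vale.Agent.P237.ConstCore
import Vale.Agent.P237.ConstSmooth

/-! # P237: the one-dimensional step for Petty's inequality up to a universal constant -/

namespace Vale.Agent.P237

open MeasureTheory Set Filter Topology

/-- `(∫ f^(m-1))^m ≥ kap m · ballG m · (∫ f^m)^(m-1)` under the divergence test. -/
theorem constOneDimSpec : ConstOneDimSpec := by
  intro m f hm hc he hge hyp
  have hnn : ∀ t ∈ Icc (-1 : ℝ) 1, 0 ≤ f t := fun t ht => (Real.sqrt_nonneg _).trans (hge t ht)
  have hI := fun j => Const.intervalIntegrable_profile_pow hc he hnn j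
  have hI01 : ∀ j : ℕ, IntervalIntegrable (fun t => f t ^ j) volume 0 1 := fun j =>
    (hI j).mono_set (uIcc_subset_uIcc_right (by rw [uIcc_of_le (by norm_num)]; norm_num))
  set a := ∫ t in (0 : ℝ)..1, f t ^ (m - 1) with ha
  set V := Const.vl f m with hV
  have hcut := Const.tendsto_cut hc he hnn m
  have hprof : ∀ L : ℝ, 1 ≤ L → Const.Prof (Const.cut f L) := fun L hL => by
    obtain ⟨h1, h2, h3, h4, -⟩ := Const.exists_cut hc he hge hL
    exact ⟨h1, h2, h3, h4⟩
  have hV0 : 0 < V := by
    refine lt_of_lt_of_le ((hprof 1 le_rfl).vl_pos m) (intervalIntegral.integral_mono_on zero_le_one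
      (((hprof 1 le_rfl).continuous.pow m).intervalIntegrable _ _) (hI01 m) fun t ht => ?_)
    exact pow_le_pow_left₀ ((hprof 1 le_rfl).nonneg ht.2) (Const.cut_le ht) m
  have key : wInt (kapExp m) ^ (m + 1) * V ^ m ≤
      (wInt ((m + 1 : ℕ) : ℝ) * ((m : ℝ) / (m + 1))) ^ m * ((m : ℝ) / (m - 1) * a) ^ m * V := by
    set P := (wInt ((m + 1 : ℕ) : ℝ) * ((m : ℝ) / (m + 1))) ^ m *
      ((m : ℝ) / (m - 1) * a) ^ m with hP
    have hr : Tendsto (fun L => P * (V + ((m + 1 : ℕ) : ℝ) * (V - Const.vl (Const.cut f L) m)))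
        atTop (𝓝 (P * V)) := by
      have := ((((tendsto_const_nhds (x := V)).sub hcut).const_mul (((m + 1 : ℕ) : ℝ))).const_add
        V).const_mul P
      simp only [hV, Const.vl, sub_self, mul_zero, add_zero] at this ⊢
      exact this
    refine le_of_tendsto_of_tendsto ((hcut.pow m).const_mul _) hr ?_
    filter_upwards [eventually_ge_atTop (1 : ℝ)] with L hL
    exact Const.core hm (hprof L hL) (fun t ht => Const.cut_le ht) hI01
      fun T K hT h0 => Const.test_lipschitz hc he hnn hyp hT h0
  have h := Const.step_algebra hm hV0 key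
  rw [Const.integral_even (hI m) (fun t => by rw [he]),
    Const.integral_even (hI (m - 1)) (fun t => by rw [he])]
  exact h

end Vale.Agent.P237
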