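import Mathlib

/-!
# P237: interfaces for Petty's inequality up to a universal constant

`wInt k = ∫₀^∞ (1 + u²)^(-k/2)`.  For `f` concave, even and above the circle on `[-1, 1]` that
satisfies the divergence test for every odd `C¹` function, the one-dimensional bound
`ConstOneDimSpec` loses only the factor `kap m = 1 - O(1/m²)` against the ball value `ballG m`;
`ConstBoundSpec` says the product of these factors stays positive.
-/

namespace Vale.Agent.P237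

open MeasureTheory Set

/-- `∫₀^∞ (1 + u²)^(-k/2)`. -/
noncomputable def wInt (k : ℝ) : ℝ := ∫ u in Ioi (0 : ℝ), (1 + u ^ 2) ^ (-(k / 2))

/-- The exponent `n - (n - 3)/n`, `n = m + 1`. -/
noncomputable def kapExp (m : ℕ) : ℝ := ((m : ℝ) ^ 2 + m + 3) / (m + 1)

/-- The loss of one induction step, from dimension `m` to `m + 1`. -/
noncomputable def kap (m : ℕ) : ℝ :=
  wInt (kapExp m) ^ (m + 1) / (wInt m ^ m * wInt (m + 3))

/-- The value of `(∫ f^(m-1))^m / (∫ f^m)^(m-1)` at the circle. -/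
noncomputable def ballG (m : ℕ) : ℝ :=
  (∫ t in (-1 : ℝ)..1, √(1 - t ^ 2) ^ (m - 1)) ^ m /
    (∫ t in (-1 : ℝ)..1, √(1 - t ^ 2) ^ m) ^ (m - 1)

/-- The one-dimensional step. -/
def ConstOneDimSpec : Prop :=
  ∀ (m : ℕ) (f : ℝ → ℝ), 3 ≤ m → ConcaveOn ℝ (Icc (-1 : ℝ) 1) f → (∀ t, f (-t) = f t) →
    (∀ t ∈ Icc (-1 : ℝ) 1, √(1 - t ^ 2) ≤ f t) →
    (∀ g : ℝ → ℝ, ContDiff ℝ 1 g → (∀ t, g (-t) = -g t) →
      (∫ t in (-1 : ℝ)..1,
          (2 * deriv g t - ((m + 1 : ℕ) : ℝ) * g t ^ 2 - 2 * t * g t * deriv g t) * f t ^ m) ≤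
        ∫ t in (-1 : ℝ)..1, f t ^ m) →
    kap m * ballG m * (∫ t in (-1 : ℝ)..1, f t ^ m) ^ (m - 1) ≤
      (∫ t in (-1 : ℝ)..1, f t ^ (m - 1)) ^ m

/-- The product of the losses stays above a positive constant. -/
def ConstBoundSpec : Prop :=
  (∀ m : ℕ, 3 ≤ m → 0 < kap m) ∧
    ∃ c : ℝ, 0 < c ∧ ∀ N : ℕ, c ≤ ∏ m ∈ Finset.Ico 3 N, kap m

end Vale.Agent.P237
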