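import Vale.Agent.P237.ConstSpec

/-!
# P237: the transport test for a profile vanishing at the end point

For a concave profile `h` on `[0, 1]` with `h 1 = 0` let `U` carry the cone measure
`(m h^m - t (h^m)')/n` to the measure with density `(1 + u²)^(-n/2)`, `n = m + 1`, and let
`tau u = u / √(1 + u²)`.  The test function is `tau ∘ U`.
-/

namespace Vale.Agent.P237.Const

open MeasureTheory Set Filter Topology intervalIntegral
open scoped NNReal

/-- `(1 + u²)^(-k/2)`. -/
noncomputable def wd (k : ℝ) (u : ℝ) : ℝ := (1 + u ^ 2) ^ (-(k / 2))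

lemma wInt_eq (k : ℝ) : wInt k = ∫ u in Ioi (0 : ℝ), wd k u := rfl

lemma base_pos (u : ℝ) : (0 : ℝ) < 1 + u ^ 2 := by positivity

lemma wd_pos (k u : ℝ) : 0 < wd k u := Real.rpow_pos_of_pos (base_pos u) _

@[fun_prop]
lemma continuous_wd (k : ℝ) : Continuous (wd k) :=
  (by fun_prop : Continuous fun u : ℝ => 1 + u ^ 2).rpow_const fun u => Or.inl (base_pos u).ne'

lemma wd_le_one {k : ℝ} (hk : 0 ≤ k) (u : ℝ) : wd k u ≤ 1 :=
  Real.rpow_le_one_of_one_le_of_nonpos (by nlinarith [sq_nonneg u]) (by linarith)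

lemma wd_anti {k : ℝ} (hk : 0 ≤ k) {x y : ℝ} (hx : 0 ≤ x) (hxy : x ≤ y) : wd k y ≤ wd k x :=
  Real.rpow_le_rpow_of_nonpos (base_pos x) (by nlinarith) (by linarith)

lemma wd_mul (k l u : ℝ) : wd k u * wd l u = wd (k + l) u := by
  rw [wd, wd, wd, ← Real.rpow_add (base_pos u)]; ring_nf

lemma wd_rpow (k r u : ℝ) : wd k u ^ r = wd (k * r) u := by
  rw [wd, wd, ← Real.rpow_mul (base_pos u).le]; ring_nf

lemma wd_two_mul (u : ℝ) : wd 2 u * (1 + u ^ 2) = 1 := by
  rw [wd]; norm_num [Real.rpow_neg_one]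
  exact inv_mul_cancel₀ (base_pos u).ne'

lemma hasDerivAt_wd (k u : ℝ) : HasDerivAt (wd k) (-(k * u * wd (k + 2) u)) u := by
  have h : HasDerivAt (fun u : ℝ => 1 + u ^ 2) (2 * u) u := by
    simpa using (hasDerivAt_pow 2 u).const_add 1
  refine (h.rpow_const (p := -(k / 2)) (Or.inl (base_pos u).ne')).congr_deriv ?_
  rw [wd, show -(k / 2) - 1 = -((k + 2) / 2) by ring]
  ring

/-- The primitive of `wd k`. -/
noncomputable def prim (k : ℝ) (x : ℝ) : ℝ := ∫ u in (0 : ℝ)..x, wd k u

lemma hasDerivAt_prim (k x : ℝ) : HasDerivAt (prim k) (wd k x) x :=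
  (continuous_wd k).integral_hasStrictDerivAt 0 x |>.hasDerivAt

@[simp] lemma prim_zero (k : ℝ) : prim k 0 = 0 := integral_same

lemma strictMono_prim (k : ℝ) : StrictMono (prim k) :=
  strictMono_of_hasDerivAt_pos (fun x => hasDerivAt_prim k x) fun x => wd_pos k x

lemma continuous_prim (k : ℝ) : Continuous (prim k) :=
  continuous_iff_continuousAt.2 fun x => (hasDerivAt_prim k x).continuousAt

lemma tendsto_prim {k : ℝ} (h : IntegrableOn (wd k) (Ioi 0)) :
    Tendsto (prim k) atTop (𝓝 (wInt k)) :=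
  intervalIntegral_tendsto_integral_Ioi 0 h tendsto_id

lemma prim_lt {k : ℝ} (h : IntegrableOn (wd k) (Ioi 0)) (x : ℝ) : prim k x < wInt k :=
  (strictMono_prim k (lt_add_one x)).trans_le
    ((strictMono_prim k).monotone.ge_of_tendsto (tendsto_prim h) (x + 1))

lemma prim_sub_ge {k : ℝ} (hk : 0 ≤ k) {x y : ℝ} (hx : 0 ≤ x) (hxy : x ≤ y) :
    wd k y * (y - x) ≤ prim k y - prim k x := by
  have hi := fun a b => (continuous_wd k).intervalIntegrable (μ := volume) a b
  rw [prim, prim, integral_interval_sub_left (hi _ _) (hi _ _), mul_comm, ← smul_eq_mul,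
    ← intervalIntegral.integral_const]
  exact integral_mono_on hxy intervalIntegrable_const (hi _ _)
    fun u hu => wd_anti hk (hx.trans hu.1) hu.2

lemma lipschitz_prim {k : ℝ} (hk : 0 ≤ k) : LipschitzWith 1 (prim k) := by
  refine lipschitzWith_of_nnnorm_deriv_le (fun x => (hasDerivAt_prim k x).differentiableAt) fun x => ?_
  rw [(hasDerivAt_prim k x).deriv, ← NNReal.coe_le_coe, coe_nnnorm, Real.norm_eq_abs,
    abs_of_pos (wd_pos k x)]
  exact wd_le_one hk x

/-- `u / √(1 + u²)`. -/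
noncomputable def tau (u : ℝ) : ℝ := u * wd 1 u

lemma hasDerivAt_tau (u : ℝ) : HasDerivAt tau (wd 3 u) u := by
  refine ((hasDerivAt_id' u).mul (hasDerivAt_wd 1 u)).congr_deriv ?_
  have h : wd 3 u * (1 + u ^ 2) = wd 1 u := by
    rw [show (3 : ℝ) = 1 + 2 by norm_num, ← wd_mul, mul_assoc, wd_two_mul, mul_one]
  norm_num
  linear_combination -h

@[simp] lemma tau_zero : tau 0 = 0 := by simp [tau]

lemma lipschitz_tau : LipschitzWith 1 tau := by
  refine lipschitzWith_of_nnnorm_deriv_le (fun x => (hasDerivAt_tau x).differentiableAt) fun x => ?_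
  rw [(hasDerivAt_tau x).deriv, ← NNReal.coe_le_coe, coe_nnnorm, Real.norm_eq_abs,
    abs_of_pos (wd_pos 3 x)]
  exact wd_le_one (by norm_num) x

lemma tau_sq (u : ℝ) : tau u ^ 2 = u ^ 2 * wd 2 u := by
  rw [tau, mul_pow, pow_two (wd 1 u), wd_mul]; norm_num

lemma tau_sq_le_one (u : ℝ) : tau u ^ 2 ≤ 1 := by
  rw [tau_sq]
  nlinarith [wd_two_mul u, wd_pos 2 u]

lemma monotone_tau : Monotone tau :=
  monotone_of_deriv_nonneg (fun x => (hasDerivAt_tau x).differentiableAt)
    fun x => (hasDerivAt_tau x).deriv ▸ (wd_pos 3 x).le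

lemma tau_nonneg {u : ℝ} (hu : 0 ≤ u) : 0 ≤ tau u := mul_nonneg hu (wd_pos 1 u).le

/-- `∫₀ˣ tau² γ ≤ b₀ / n`. -/
lemma integral_tau_sq_le {k : ℝ} (h : IntegrableOn (wd k) (Ioi 0)) {x : ℝ}
    (hx : 0 ≤ x) : k * (∫ u in (0 : ℝ)..x, tau u ^ 2 * wd k u) ≤ wInt k := by
  have hd : ∀ u, HasDerivAt (fun u => prim k u - u * wd k u)
      (k * (tau u ^ 2 * wd k u)) u := fun u => by
    refine ((hasDerivAt_prim k u).sub ((hasDerivAt_id' u).mul (hasDerivAt_wd k u))).congr_deriv ?_
    rw [tau_sq, ← wd_mul k 2]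
    ring
  have hc : Continuous fun u => k * (tau u ^ 2 * wd k u) := by
    have := lipschitz_tau.continuous; fun_prop
  rw [← intervalIntegral.integral_const_mul,
    integral_eq_sub_of_hasDerivAt (fun u _ => hd u) (hc.intervalIntegrable _ _)]
  have := prim_lt h x
  have := mul_nonneg hx (wd_pos k x).le
  simp only [prim_zero, zero_mul, sub_zero]
  linarith

/-- The profiles to which the test is applied. -/
structure Prof (h : ℝ → ℝ) : Prop where
  lip : ∃ K, LipschitzWith K h
  anti : Antitone h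
  pos : ∀ t, t < 1 → 0 < h t
  one : h 1 = 0

/-- The volume of the half profile. -/
noncomputable def vl (h : ℝ → ℝ) (m : ℕ) : ℝ := ∫ t in (0 : ℝ)..1, h t ^ m

/-- The cone measure of `[0, t]`. -/
noncomputable def cone (h : ℝ → ℝ) (m : ℕ) (t : ℝ) : ℝ :=
  (∫ s in (0 : ℝ)..t, h s ^ m) - t * h t ^ m / (m + 1)

namespace Prof

variable {h : ℝ → ℝ} (hp : Prof h) (m : ℕ)

include hp

lemma continuous : Continuous h := hp.lip.elim fun _ h => h.continuous

lemma nonneg {t : ℝ} (ht : t ≤ 1) : 0 ≤ h t := hp.one ▸ hp.anti ht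

lemma le_zero' {t : ℝ} (ht : 0 ≤ t) : h t ≤ h 0 := hp.anti ht

lemma deriv_nonpos (t : ℝ) : deriv h t ≤ 0 := hp.anti.deriv_nonpos

lemma lip_pow (j : ℕ) : ∃ K, LipschitzOnWith K (fun t => h t ^ j) (Icc 0 1) := by
  obtain ⟨K, hK⟩ := hp.lip
  refine ⟨(↑j * (h 0) ^ (j - 1) * K : ℝ).toNNReal, LipschitzOnWith.of_dist_le' fun x hx y hy => ?_⟩
  have b : ∀ z ∈ Icc (0 : ℝ) 1, |h z| ≤ h 0 := fun z hz => by
    rw [abs_of_nonneg (hp.nonneg hz.2)]; exact hp.le_zero' hz.1
  have e := hK.dist_le_mul x y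
  rw [Real.dist_eq] at e ⊢
  refine (abs_pow_sub_pow_le (h x) (h y) j).trans ?_
  have hm : max |h x| |h y| ≤ h 0 := max_le (b x hx) (b y hy)
  have h0 : 0 ≤ h 0 := hp.nonneg zero_le_one
  calc |h x - h y| * j * max |h x| |h y| ^ (j - 1)
      ≤ (K * dist x y) * j * h 0 ^ (j - 1) := by
        gcongr
    _ = ↑j * h 0 ^ (j - 1) * ↑K * dist x y := by ring

lemma ac_pow (j : ℕ) : AbsolutelyContinuousOnInterval (fun t => h t ^ j) 0 1 := by
  obtain ⟨K, hK⟩ := hp.lip_pow j
  rw [← uIcc_of_le (zero_le_one' ℝ)] at hK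
  exact hK.absolutelyContinuousOnInterval


lemma vl_pos : 0 < vl h m :=
  intervalIntegral_pos_of_pos_on ((hp.continuous.pow m).intervalIntegrable _ _)
    (fun t ht => pow_pos (hp.pos t ht.2) m) zero_lt_one

lemma cone_one (hm : m ≠ 0) : cone h m 1 = vl h m := by
  simp [cone, vl, hp.one, hm]

lemma lip_cone : ∃ K, LipschitzOnWith K (cone h m) (Icc 0 1) := by
  obtain ⟨K, hK⟩ := hp.lip_pow m
  refine ⟨(2 * h 0 ^ m + K : ℝ).toNNReal, LipschitzOnWith.of_dist_le' fun x hx y hy => ?_⟩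
  have e := hK.dist_le_mul x hx y hy
  rw [Real.dist_eq, Real.dist_eq] at e
  have hb : ∀ z ∈ Icc (0 : ℝ) 1, |h z ^ m| ≤ h 0 ^ m := fun z hz => by
    rw [abs_of_nonneg (pow_nonneg (hp.nonneg hz.2) m)]
    exact pow_le_pow_left₀ (hp.nonneg hz.2) (hp.le_zero' hz.1) m
  have hi : |(∫ s in (0 : ℝ)..x, h s ^ m) - ∫ s in (0 : ℝ)..y, h s ^ m| ≤ h 0 ^ m * |x - y| := by
    have hc : Continuous fun s => h s ^ m := hp.continuous.pow m
    rw [integral_interval_sub_left (hc.intervalIntegrable _ _) (hc.intervalIntegrable _ _),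
      ← Real.norm_eq_abs]
    refine norm_integral_le_of_norm_le_const fun z hz => ?_
    have : z ∈ Icc (0 : ℝ) 1 :=
      (Set.uIoc_subset_uIcc.trans (Set.uIcc_subset_Icc hy hx)) hz
    exact (Real.norm_eq_abs _).trans_le (hb z this)
  have h2 : |x * h x ^ m - y * h y ^ m| ≤ (h 0 ^ m + K) * |x - y| := by
    calc |x * h x ^ m - y * h y ^ m| = |(x - y) * h x ^ m + y * (h x ^ m - h y ^ m)| := by ring_nf
      _ ≤ |x - y| * |h x ^ m| + |y| * |h x ^ m - h y ^ m| := by
        rw [← abs_mul, ← abs_mul]; exact abs_add_le _ _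
      _ ≤ |x - y| * h 0 ^ m + 1 * (K * |x - y|) := by
        gcongr
        · exact hb x hx
        · rw [abs_of_nonneg hy.1]; exact hy.2
      _ = _ := by ring
  rw [Real.dist_eq, Real.dist_eq]
  calc |cone h m x - cone h m y|
      = |((∫ s in (0 : ℝ)..x, h s ^ m) - ∫ s in (0 : ℝ)..y, h s ^ m) -
          (x * h x ^ m - y * h y ^ m) / (m + 1)| := by rw [cone, cone]; ring_nf
    _ ≤ |(∫ s in (0 : ℝ)..x, h s ^ m) - ∫ s in (0 : ℝ)..y, h s ^ m| +
          |(x * h x ^ m - y * h y ^ m) / (m + 1)| := abs_sub _ _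
    _ ≤ h 0 ^ m * |x - y| + (h 0 ^ m + K) * |x - y| := by
        refine add_le_add hi ?_
        rw [abs_div, abs_of_pos (by positivity : (0 : ℝ) < m + 1)]
        exact (div_le_self (abs_nonneg _) (by linarith [(m.cast_nonneg : (0 : ℝ) ≤ m)])).trans h2
    _ = _ := by ring

lemma hasDerivAt_cone {t d : ℝ} (hd : HasDerivAt h d t) (hm : m ≠ 0) :
    HasDerivAt (cone h m) ((m : ℝ) / (m + 1) * h t ^ (m - 1) * (h t - t * d)) t := by
  have h1 : HasDerivAt (fun s => ∫ u in (0 : ℝ)..s, h u ^ m) (h t ^ m) t :=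
    ((hp.continuous.pow m).integral_hasStrictDerivAt 0 t).hasDerivAt
  refine (h1.sub (((hasDerivAt_id' t).mul (hd.pow m)).div_const ((m : ℝ) + 1))).congr_deriv ?_
  have e : h t ^ m = h t ^ (m - 1) * h t := (pow_sub_one_mul hm _).symm
  simp only [Pi.pow_apply, e]
  field_simp
  ring

lemma cone_lt {x y : ℝ} (hx : 0 ≤ x) (hxy : x < y) (hy : y ≤ 1) (hm : m ≠ 0) :
    cone h m x < cone h m y := by
  obtain ⟨K, hK⟩ := hp.lip_cone m
  have hsub : uIcc x y ⊆ Icc 0 1 := uIcc_subset_Icc ⟨hx, hxy.le.trans hy⟩ ⟨hx.trans hxy.le, hy⟩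
  have hac := (hK.mono hsub).absolutelyContinuousOnInterval
  rw [← sub_pos, ← hac.integral_deriv_eq_sub]
  refine lt_of_lt_of_le (intervalIntegral_pos_of_pos_on
    (f := fun t => (m : ℝ) / (m + 1) * h t ^ m)
    ((continuous_const.mul (hp.continuous.pow m)).intervalIntegrable _ _) (fun t ht => ?_) hxy) ?_
  · have : 0 < (m : ℝ) := by exact_mod_cast Nat.pos_of_ne_zero hm
    have := pow_pos (hp.pos t (ht.2.trans_le hy)) m
    positivity
  · obtain ⟨L, hL⟩ := hp.lip
    refine integral_mono_ae_restrict hxy.le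
      ((continuous_const.mul (hp.continuous.pow m)).intervalIntegrable _ _)
      hac.intervalIntegrable_deriv ?_
    rw [EventuallyLE, ae_restrict_iff' measurableSet_Icc]
    filter_upwards [hL.ae_differentiableAt_real] with t ht hti
    rw [(hp.hasDerivAt_cone m ht.hasDerivAt hm).deriv, ← pow_sub_one_mul hm (h t), mul_assoc]
    have := pow_nonneg (hp.nonneg (hti.2.trans hy)) (m - 1)
    refine mul_le_mul_of_nonneg_left ?_ (by positivity)
    refine mul_le_mul_of_nonneg_left ?_ this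
    nlinarith [hp.deriv_nonpos t, hx.trans hti.1]

lemma cone_mono {x y : ℝ} (hx : 0 ≤ x) (hxy : x ≤ y) (hy : y ≤ 1) (hm : m ≠ 0) :
    cone h m x ≤ cone h m y := by
  rcases hxy.eq_or_lt with rfl | h'
  · rfl
  · exact (hp.cone_lt m hx h' hy hm).le

end Prof

/-- The inverse of `prim k` on `[0, wInt k)`. -/
noncomputable def inv (k : ℝ) (y : ℝ) : ℝ := Function.invFunOn (prim k) (Ici 0) y

lemma inv_spec {k : ℝ} (h : IntegrableOn (wd k) (Ioi 0)) {y : ℝ} (hy : 0 ≤ y) (hy' : y < wInt k) :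
    0 ≤ inv k y ∧ prim k (inv k y) = y := by
  obtain ⟨M, hM, hM0⟩ :=
    (((tendsto_prim h).eventually_const_lt hy').and (eventually_ge_atTop 0)).exists
  obtain ⟨x, hx, hxy⟩ := intermediate_value_Icc hM0 (continuous_prim k).continuousOn
    (show y ∈ Icc (prim k 0) (prim k M) from ⟨(prim_zero k).symm ▸ hy, hM.le⟩)
  exact Function.invFunOn_pos ⟨x, hx.1, hxy⟩

lemma geom_le {n θ x y X Y : ℝ} (hn : 0 < n) (hθ : 0 ≤ θ) (h1 : 1 / n + θ = 1)
    (hx : 0 ≤ x) (hy : 0 ≤ y) (hX : 0 < X) (hY : 0 < Y) :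
    x ^ (1 / n) * y ^ θ ≤ X ^ (1 / n) * Y ^ θ * (1 / n / X * x + θ / Y * y) := by
  have h := Real.geom_mean_le_arith_mean2_weighted (one_div_nonneg.2 hn.le) hθ
    (div_nonneg hx hX.le) (div_nonneg hy hY.le) h1
  rw [Real.div_rpow hx hX.le, Real.div_rpow hy hY.le] at h
  have e := mul_le_mul_of_nonneg_left h
    (show 0 ≤ X ^ (1 / n) * Y ^ θ by positivity)
  refine le_trans (le_of_eq ?_) (e.trans (le_of_eq ?_))
  · have := Real.rpow_pos_of_pos hX (1 / n)
    have := Real.rpow_pos_of_pos hY θ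
    field_simp
  · ring

/-- The data of the test for a profile, up to the point `b < 1`. -/
lemma transport {h : ℝ → ℝ} (hp : Prof h) {m : ℕ} (hm : 3 ≤ m)
    (hint : IntegrableOn (wd ((m + 1 : ℕ) : ℝ)) (Ioi 0)) {b : ℝ} (hb0 : 0 < b) (hb1 : b < 1) :
    ∃ (T : ℝ → ℝ) (K : ℝ≥0), LipschitzWith K T ∧ T 0 = 0 ∧ Monotone T ∧ (∀ t, 0 ≤ T t ∧ T t ≤ 1) ∧
      (∫ t in (0 : ℝ)..1, h t ^ m * (((m + 1 : ℕ) : ℝ) * T t ^ 2 + 2 * t * T t * deriv T t)) ≤
        vl h m + ((m + 1 : ℕ) : ℝ) * (vl h m - cone h m b) ∧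
      ∀ X : ℝ, 0 < X → (∫ t in (0 : ℝ)..1, h t ^ m * deriv T t) ≤ X →
        prim (kapExp m) (inv ((m + 1 : ℕ) : ℝ)
            (wInt ((m + 1 : ℕ) : ℝ) * cone h m b / vl h m)) ≤
          (wInt ((m + 1 : ℕ) : ℝ) / vl h m * ((m : ℝ) / (m + 1))) ^ ((m : ℝ) / (m + 1)) *
          ((m : ℝ) / (m - 1) * ∫ t in (0 : ℝ)..1, h t ^ (m - 1)) ^ ((m : ℝ) / (m + 1)) *
          X ^ (1 / ((m : ℝ) + 1)) := by
  have hm0 : m ≠ 0 := by omega
  have hmR : (3 : ℝ) ≤ m := by exact_mod_cast hm
  set k : ℝ := ((m + 1 : ℕ) : ℝ) with hk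
  have hkm : k = (m : ℝ) + 1 := by simp [hk]
  have hk1 : 1 < k := by rw [hkm]; linarith
  have hk0 : 0 ≤ k := by linarith
  set V := vl h m with hV
  have hV0 : 0 < V := hp.vl_pos m
  have hW0 : 0 < wInt k := (prim_zero k).symm ▸ prim_lt hint 0
  set y : ℝ → ℝ := fun t => wInt k * cone h m t / V with hy
  have hc0 : cone h m 0 = 0 := by simp [cone]
  have hyr : ∀ t ∈ Icc (0 : ℝ) b, 0 ≤ y t ∧ y t < wInt k := fun t ht => by
    have h0 := hp.cone_mono m le_rfl ht.1 (ht.2.trans hb1.le) hm0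
    have h1 := hp.cone_lt m ht.1 (ht.2.trans_lt hb1) le_rfl hm0
    rw [hp.cone_one m hm0, ← hV] at h1
    rw [hc0] at h0
    exact ⟨by positivity, (div_lt_iff₀ hV0).2 (mul_lt_mul_of_pos_left h1 hW0)⟩
  set c : ℝ → ℝ := fun t => max 0 (min t b) with hcdef
  have hc : ∀ t, c t ∈ Icc (0 : ℝ) b :=
    fun t => ⟨le_max_left _ _, max_le hb0.le (min_le_right _ _)⟩
  have hci : ∀ t ∈ Icc (0 : ℝ) b, c t = t := fun t ht => by
    simp [hcdef, min_eq_left ht.2, max_eq_right ht.1]
  have hcl : LipschitzWith 1 c := (LipschitzWith.id.min_const b).const_max 0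
  set U : ℝ → ℝ := fun t => inv k (y (c t)) with hU
  have hUs : ∀ t, 0 ≤ U t ∧ prim k (U t) = y (c t) := fun t =>
    inv_spec hint (hyr _ (hc t)).1 (hyr _ (hc t)).2
  have hy_mono : ∀ s t, s ≤ t → y (c s) ≤ y (c t) := fun s t hst => by
    have := hp.cone_mono m (hc s).1 (show c s ≤ c t from max_le_max le_rfl (min_le_min hst le_rfl))
      ((hc t).2.trans hb1.le) hm0
    simp only [hy]
    gcongr
  have hUmono : Monotone U := fun s t hst =>
    (strictMono_prim k).le_iff_le.1 (by rw [(hUs s).2, (hUs t).2]; exact hy_mono s t hst)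
  set M := U b with hM
  have hUle : ∀ t, U t ≤ M := fun t => by
    have : U t = U (c t) := by simp only [hU, hci _ (hc t)]
    rw [this]; exact hUmono (hc t).2
  obtain ⟨KC, hKC⟩ := hp.lip_cone m
  set D : ℝ := wInt k / V * KC / wd k M with hD
  have hUlip : LipschitzWith D.toNNReal U := by
    refine LipschitzWith.of_dist_le' fun s t => ?_
    wlog hst : s ≤ t generalizing s t
    · rw [dist_comm, dist_comm s]; exact this t s (le_of_not_ge hst)
    rw [Real.dist_eq, Real.dist_eq, abs_sub_comm, abs_sub_comm s,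
      abs_of_nonneg (sub_nonneg.2 (hUmono hst)), abs_of_nonneg (sub_nonneg.2 hst)]
    have h1 := prim_sub_ge hk0 (hUs s).1 (hUmono hst)
    rw [(hUs s).2, (hUs t).2] at h1
    have h2 := hKC.dist_le_mul (c t) ⟨(hc t).1, (hc t).2.trans hb1.le⟩ (c s)
      ⟨(hc s).1, (hc s).2.trans hb1.le⟩
    have h3 : dist (c t) (c s) ≤ t - s := by
      simpa [Real.dist_eq, abs_of_nonneg (sub_nonneg.2 hst)] using hcl.dist_le_mul t s
    have h4 : y (c t) - y (c s) ≤ wInt k / V * KC * (t - s) := by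
      have : cone h m (c t) - cone h m (c s) ≤ KC * (t - s) := by
        rw [Real.dist_eq] at h2
        exact (le_abs_self _).trans (h2.trans (mul_le_mul_of_nonneg_left h3 KC.2))
      calc y (c t) - y (c s) = wInt k / V * (cone h m (c t) - cone h m (c s)) := by
            simp only [hy]; ring
        _ ≤ wInt k / V * (KC * (t - s)) := by gcongr
        _ = _ := by ring
    have h5 : wd k M * (U t - U s) ≤ wInt k / V * KC * (t - s) :=
      le_trans (le_trans (mul_le_mul_of_nonneg_right (wd_anti hk0 (hUs t).1 (hUle t))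
        (sub_nonneg.2 (hUmono hst))) h1) h4
    rw [hD, div_mul_eq_mul_div, le_div_iff₀ (wd_pos k M), mul_comm]
    exact h5
  set T : ℝ → ℝ := fun t => tau (U t) with hT
  have hTlip : LipschitzWith (1 * D.toNNReal) T := lipschitz_tau.comp hUlip
  have hU0 : U 0 = 0 := by
    have h1 := (hUs 0).2
    rw [hci 0 ⟨le_rfl, hb0.le⟩] at h1
    simp only [hy, hc0, mul_zero, zero_div] at h1
    exact (strictMono_prim k).injective (h1.trans (prim_zero k).symm)
  have hT01 : ∀ t, 0 ≤ T t ∧ T t ≤ 1 := fun t =>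
    ⟨tau_nonneg (hUs t).1, abs_le.1 ((sq_le_one_iff_abs_le_one _).1 (tau_sq_le_one (U t))) |>.2⟩
  have hTmono : Monotone T := monotone_tau.comp hUmono
  have hT'0 : ∀ t, 0 ≤ deriv T t := fun t => hTmono.deriv_nonneg
  obtain ⟨L, hL⟩ := hp.lip
  -- the derivative of the transport map
  have key : ∀ᵐ t, t ∈ Ioo 0 b → DifferentiableAt ℝ h t ∧ DifferentiableAt ℝ U t ∧
      wd k (U t) * deriv U t =
        wInt k / V * ((m : ℝ) / (m + 1) * h t ^ (m - 1) * (h t - t * deriv h t)) := by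
    filter_upwards [hL.ae_differentiableAt_real, hUlip.ae_differentiableAt_real] with t ht hu hti
    refine ⟨ht, hu, ?_⟩
    have e1 := (hasDerivAt_prim k (U t)).comp t hu.hasDerivAt
    have e2 := ((hp.hasDerivAt_cone m ht.hasDerivAt hm0).const_mul (wInt k)).div_const V
    have e : (fun s => prim k (U s)) =ᶠ[𝓝 t] fun s => wInt k * cone h m s / V := by
      filter_upwards [Ioo_mem_nhds hti.1 hti.2] with s hs
      rw [(hUs s).2, hci s ⟨hs.1.le, hs.2.le⟩]
    rw [(e1.congr_of_eventuallyEq e.symm).unique e2]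
    ring
  -- primitives along the transport
  have comp_ftc : ∀ F : ℝ → ℝ, Continuous F → (∀ u, |F u| ≤ 1) →
      (∫ t in (0 : ℝ)..b, F (U t) * deriv U t) = ∫ u in (0 : ℝ)..M, F u := by
    intro F hF hF1
    set P : ℝ → ℝ := fun x => ∫ u in (0 : ℝ)..x, F u
    have hP : ∀ x, HasDerivAt P (F x) x := fun x => (hF.integral_hasStrictDerivAt 0 x).hasDerivAt
    have hPl : LipschitzWith 1 P := by
      refine lipschitzWith_of_nnnorm_deriv_le (fun x => (hP x).differentiableAt) fun x => ?_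
      rw [(hP x).deriv, ← NNReal.coe_le_coe, coe_nnnorm, Real.norm_eq_abs]
      exact hF1 x
    have hac := ((hPl.comp hUlip).lipschitzOnWith (s := uIcc 0 b)).absolutelyContinuousOnInterval
    have h1 := hac.integral_deriv_eq_sub
    simp only [Function.comp_apply, hU0] at h1
    rw [show P 0 = 0 from integral_same, sub_zero] at h1
    rw [show (∫ u in (0 : ℝ)..M, F u) = P M from rfl, hM, ← h1]
    refine intervalIntegral.integral_congr_ae ?_
    filter_upwards [hUlip.ae_differentiableAt_real] with t hu _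
    exact ((hP (U t)).comp t hu.hasDerivAt).deriv.symm
  refine ⟨T, _, hTlip, by simp [hT, hU0], hTmono, hT01, ?_, ?_⟩
  · -- the second order term
    have hA := hp.ac_pow m
    have hTac := (hTlip.lipschitzOnWith (s := uIcc (0:ℝ) 1)).absolutelyContinuousOnInterval
    have hid := ((LipschitzWith.id : LipschitzWith 1 (id : ℝ → ℝ)).lipschitzOnWith
      (s := uIcc (0:ℝ) 1)).absolutelyContinuousOnInterval
    set P : ℝ → ℝ := fun t => id t * h t ^ m * (T t * T t) with hP
    have hPac : AbsolutelyContinuousOnInterval P 0 1 := (hid.mul hA).mul (hTac.mul hTac)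
    have hPI := hPac.integral_deriv_eq_sub
    obtain ⟨KC', hKC'⟩ := hp.lip_cone m
    have hCac : AbsolutelyContinuousOnInterval (cone h m) 0 1 :=
      LipschitzOnWith.absolutelyContinuousOnInterval (K := KC') (by rwa [uIcc_of_le zero_le_one])
    have hTc := hTlip.continuous
    have hi2 : IntervalIntegrable (fun t => T t ^ 2 * deriv (cone h m) t) volume 0 1 :=
      hCac.intervalIntegrable_deriv.continuousOn_mul (hTc.pow 2).continuousOn
    have e : ∫ t in (0 : ℝ)..1, h t ^ m * (k * T t ^ 2 + 2 * t * T t * deriv T t) =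
        ∫ t in (0 : ℝ)..1, (deriv P t + k * (T t ^ 2 * deriv (cone h m) t)) := by
      refine intervalIntegral.integral_congr_ae ?_
      filter_upwards [hL.ae_differentiableAt_real, hTlip.ae_differentiableAt_real] with t ht hu _
      have d1 : HasDerivAt P ((h t ^ m + t * (m * h t ^ (m - 1) * deriv h t)) * (T t * T t) +
          t * h t ^ m * (deriv T t * T t + T t * deriv T t)) t :=
        ((((hasDerivAt_id' t).mul (ht.hasDerivAt.pow m)).mul
          (hu.hasDerivAt.mul hu.hasDerivAt))).congr_deriv (by simp only [Pi.mul_apply, Pi.pow_apply]; ring)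
      rw [d1.deriv, (hp.hasDerivAt_cone m ht.hasDerivAt hm0).deriv, hkm, ← pow_sub_one_mul hm0 (h t)]
      field_simp
      ring
    rw [e, intervalIntegral.integral_add hPac.intervalIntegrable_deriv (hi2.const_mul k),
      hPI, intervalIntegral.integral_const_mul]
    have hP01 : P 1 - P 0 = 0 := by simp [hP, hp.one, hm0]
    have hb' : IntervalIntegrable (fun t => T t ^ 2 * deriv (cone h m) t) volume 0 b :=
      hi2.mono_set (uIcc_subset_uIcc_left (by rw [uIcc_of_le zero_le_one]; exact ⟨hb0.le, hb1.le⟩))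
    have hb'' : IntervalIntegrable (fun t => T t ^ 2 * deriv (cone h m) t) volume b 1 :=
      hi2.mono_set (uIcc_subset_uIcc_right (by rw [uIcc_of_le zero_le_one]; exact ⟨hb0.le, hb1.le⟩))
    rw [hP01, zero_add, ← intervalIntegral.integral_add_adjacent_intervals hb' hb'', mul_add]
    have hI1 : (∫ t in (0 : ℝ)..b, T t ^ 2 * deriv (cone h m) t) ≤ V / k := by
      have e1 : (∫ t in (0 : ℝ)..b, T t ^ 2 * deriv (cone h m) t) =
          ∫ t in (0 : ℝ)..b, V / wInt k * ((tau (U t) ^ 2 * wd k (U t)) * deriv U t) := by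
        refine intervalIntegral.integral_congr_ae ?_
        filter_upwards [key, hL.ae_differentiableAt_real, (countable_singleton b).ae_notMem volume]
          with t hkey ht htb hti
        rw [uIoc_of_le hb0.le] at hti
        obtain ⟨-, -, hk'⟩ := hkey ⟨hti.1, lt_of_le_of_ne hti.2 (by simpa using htb)⟩
        rw [(hp.hasDerivAt_cone m ht.hasDerivAt hm0).deriv, mul_assoc (tau (U t) ^ 2), hk']
        simp only [hT]
        field_simp
      have hbd : ∀ u, |tau u ^ 2 * wd k u| ≤ 1 := fun u => by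
        rw [abs_of_nonneg (mul_nonneg (sq_nonneg _) (wd_pos k u).le)]
        exact mul_le_one₀ (tau_sq_le_one u) (wd_pos k u).le (wd_le_one hk0 u)
      have hcont : Continuous fun u => tau u ^ 2 * wd k u :=
        (lipschitz_tau.continuous.pow 2).mul (continuous_wd k)
      rw [e1, intervalIntegral.integral_const_mul, comp_ftc _ hcont hbd]
      have h2 := integral_tau_sq_le (k := k) hint (x := M) (hUs b).1
      calc V / wInt k * ∫ u in (0 : ℝ)..M, tau u ^ 2 * wd k u
          ≤ V / wInt k * (wInt k / k) := by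
            gcongr
            rw [le_div_iff₀ (by linarith)]
            linarith
        _ = V / k := by field_simp
    have hI2 : (∫ t in b..1, T t ^ 2 * deriv (cone h m) t) ≤ V - cone h m b := by
      rw [hV, ← hp.cone_one m hm0, ← (hKC'.mono (uIcc_subset_Icc ⟨hb0.le, hb1.le⟩
        ⟨zero_le_one, le_rfl⟩)).absolutelyContinuousOnInterval.integral_deriv_eq_sub]
      refine integral_mono_ae_restrict hb1.le hb'' (hCac.intervalIntegrable_deriv.mono_set
        (uIcc_subset_uIcc_right (by rw [uIcc_of_le zero_le_one]; exact ⟨hb0.le, hb1.le⟩))) ?_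
      rw [EventuallyLE, ae_restrict_iff' measurableSet_Icc]
      filter_upwards [hL.ae_differentiableAt_real] with t ht hti
      refine mul_le_of_le_one_left ?_ (tau_sq_le_one _)
      rw [(hp.hasDerivAt_cone m ht.hasDerivAt hm0).deriv]
      have := hp.nonneg hti.2
      have : 0 ≤ h t - t * deriv h t := by nlinarith [hp.deriv_nonpos t, hti.1, hb0]
      positivity
    calc k * (∫ t in (0 : ℝ)..b, T t ^ 2 * deriv (cone h m) t) +
          k * ∫ t in b..1, T t ^ 2 * deriv (cone h m) t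
        ≤ k * (V / k) + k * (V - cone h m b) := by gcongr
      _ = _ := by field_simp
  · -- the first order term
    intro X hX hXle
    set e := kapExp m with he
    set θ : ℝ := (m : ℝ) / (m + 1) with hθ
    set C : ℝ := wInt k / V * ((m : ℝ) / (m + 1)) with hC
    set Y : ℝ := (m : ℝ) / (m - 1) * ∫ t in (0 : ℝ)..1, h t ^ (m - 1) with hY
    have hθ0 : 0 ≤ θ := by positivity
    have hθ1 : 1 / ((m : ℝ) + 1) + θ = 1 := by rw [hθ]; field_simp; ring
    have hC0 : 0 < C := by positivity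
    have hint1 : 0 < ∫ t in (0 : ℝ)..1, h t ^ (m - 1) := hp.vl_pos (m - 1)
    have hY0 : 0 < Y := by
      have : (0 : ℝ) < m - 1 := by linarith
      positivity
    have he0 : 0 ≤ e := by rw [he, kapExp]; positivity
    set P : ℝ → ℝ := fun t => id t * h t ^ (m - 1) with hP
    have hPac : AbsolutelyContinuousOnInterval P 0 1 :=
      (((LipschitzWith.id : LipschitzWith 1 (id : ℝ → ℝ)).lipschitzOnWith
        (s := uIcc (0:ℝ) 1)).absolutelyContinuousOnInterval).mul (hp.ac_pow (m - 1))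
    set g : ℝ → ℝ := fun t => h t ^ (m - 2) * (h t - t * deriv h t) with hg
    have hgd : ∀ᵐ t, g t = (m : ℝ) / (m - 1) * h t ^ (m - 1) - deriv P t / (m - 1) := by
      filter_upwards [hL.ae_differentiableAt_real] with t ht
      have d1 : HasDerivAt P (h t ^ (m - 1) + t * (((m - 1 : ℕ) : ℝ) * h t ^ (m - 1 - 1) *
          deriv h t)) t :=
        ((hasDerivAt_id' t).mul (ht.hasDerivAt.pow (m - 1))).congr_deriv (by simp)
      rw [d1.deriv, Nat.cast_sub (by omega : 1 ≤ m), show m - 1 - 1 = m - 2 by omega, hg,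
        ← pow_sub_one_mul (show m - 1 ≠ 0 by omega) (h t), show m - 1 - 1 = m - 2 by omega]
      have : (m : ℝ) - 1 ≠ 0 := by linarith
      push_cast
      field_simp
      ring
    have hc1 : Continuous fun t => h t ^ (m - 1) := hp.continuous.pow _
    have hci1 : IntervalIntegrable (fun t => (m : ℝ) / (m - 1) * h t ^ (m - 1)) volume 0 1 :=
      (hc1.intervalIntegrable _ _).const_mul _
    have hgi' : IntervalIntegrable
        (fun t => (m : ℝ) / (m - 1) * h t ^ (m - 1) - deriv P t / (m - 1)) volume 0 1 :=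
      hci1.sub
        (hPac.intervalIntegrable_deriv.div_const _)
    have hgi : IntervalIntegrable g volume 0 1 :=
      hgi'.congr_ae (ae_restrict_of_ae (hgd.mono fun t ht => ht.symm))
    have hgY : ∫ t in (0 : ℝ)..1, g t = Y := by
      rw [intervalIntegral.integral_congr_ae (hgd.mono fun t ht _ => ht),
        intervalIntegral.integral_sub hci1
          (hPac.intervalIntegrable_deriv.div_const _),
        intervalIntegral.integral_const_mul, intervalIntegral.integral_div,
        hPac.integral_deriv_eq_sub]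
      simp [hP, hp.one, show m - 1 ≠ 0 by omega, hY]
    have hTac := (hTlip.lipschitzOnWith (s := uIcc (0:ℝ) 1)).absolutelyContinuousOnInterval
    have hxi : IntervalIntegrable (fun t => h t ^ m * deriv T t) volume 0 1 :=
      hTac.intervalIntegrable_deriv.continuousOn_mul (hp.continuous.pow m).continuousOn
    have hsub : uIcc 0 b ⊆ uIcc (0 : ℝ) 1 :=
      uIcc_subset_uIcc_left (by rw [uIcc_of_le zero_le_one]; exact ⟨hb0.le, hb1.le⟩)
    set B : ℝ → ℝ := fun t => C ^ θ * (X ^ (1 / ((m : ℝ) + 1)) * Y ^ θ) *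
      (1 / ((m : ℝ) + 1) / X * (h t ^ m * deriv T t) + θ / Y * g t) with hB
    have hgnn : ∀ t ∈ Icc (0 : ℝ) 1, 0 ≤ g t := fun t ht => by
      have := hp.nonneg ht.2
      have : 0 ≤ h t - t * deriv h t := by nlinarith [hp.deriv_nonpos t, ht.1]
      positivity
    have hxnn : ∀ t ∈ Icc (0 : ℝ) 1, 0 ≤ h t ^ m * deriv T t := fun t ht =>
      mul_nonneg (pow_nonneg (hp.nonneg ht.2) _) (hT'0 t)
    have h1 : prim e M ≤ ∫ t in (0 : ℝ)..b, B t := by
      rw [prim, ← comp_ftc _ (continuous_wd e) fun u => by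
        rw [abs_of_pos (wd_pos e u)]; exact wd_le_one he0 u]
      refine integral_mono_ae_restrict hb0.le ?_
        (((hxi.mono_set hsub).const_mul _).add ((hgi.mono_set hsub).const_mul _) |>.const_mul _) ?_
      · exact (hUlip.lipschitzOnWith (s := uIcc 0 b)).absolutelyContinuousOnInterval
          |>.intervalIntegrable_deriv.continuousOn_mul
          ((continuous_wd e).comp hUlip.continuous).continuousOn
      rw [EventuallyLE, ae_restrict_iff' measurableSet_Icc]
      filter_upwards [key, (countable_singleton b).ae_notMem volume,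
        (countable_singleton (0 : ℝ)).ae_notMem volume] with t hkey htb ht0 hti
      obtain ⟨-, hu, hk'⟩ := hkey ⟨lt_of_le_of_ne hti.1 (by simpa [eq_comm] using ht0),
        lt_of_le_of_ne hti.2 (by simpa using htb)⟩
      have ht1 : t < 1 := hti.2.trans_lt hb1
      have hh := hp.pos t ht1
      have hH : 0 ≤ h t - t * deriv h t := by nlinarith [hp.deriv_nonpos t, hti.1]
      set v := deriv U t with hv
      have hv0 : 0 ≤ v := hUmono.deriv_nonneg
      have hT' : deriv T t = wd 3 (U t) * v := ((hasDerivAt_tau _).comp t hu.hasDerivAt).deriv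
      have hgt : g t = h t ^ (m - 2) * (h t - t * deriv h t) := rfl
      have hg0 : 0 ≤ g t := hgnn t ⟨hti.1, ht1.le⟩
      have hrel : wd k (U t) * v = C * (h t * g t) := by
        rw [hk', hC, hgt, show m - 1 = m - 2 + 1 by omega, pow_succ]
        ring
      have hn0 : (0 : ℝ) < (m : ℝ) + 1 := by positivity
      have hid : wd e (U t) * v =
          C ^ θ * ((h t ^ m * deriv T t) ^ (1 / ((m : ℝ) + 1)) * g t ^ θ) := by
        have hb : (wd k (U t) * v) ^ θ = (C * (h t * g t)) ^ θ := by rw [hrel]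
        rw [Real.mul_rpow (wd_pos _ _).le hv0, Real.mul_rpow hC0.le (mul_nonneg hh.le hg0),
          Real.mul_rpow hh.le hg0, wd_rpow] at hb
        have hkθ : k * θ = m := by rw [hkm, hθ]; field_simp
        rw [hkθ] at hb
        rw [hT', Real.mul_rpow (pow_nonneg hh.le _) (mul_nonneg (wd_pos _ _).le hv0),
          Real.mul_rpow (wd_pos _ _).le hv0, wd_rpow, ← Real.rpow_natCast (h t) m,
          ← Real.rpow_mul hh.le, show (m : ℝ) * (1 / ((m : ℝ) + 1)) = θ by rw [hθ]; ring]
        have hve : v = v ^ (1 / ((m : ℝ) + 1)) * v ^ θ := by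
          rw [← Real.rpow_add' hv0 (by rw [hθ1]; norm_num), hθ1, Real.rpow_one]
        have hee : e = 3 * (1 / ((m : ℝ) + 1)) + m := by rw [he, kapExp]; field_simp; ring
        conv_lhs => rw [hve, hee, ← wd_mul]
        calc wd (3 * (1 / ((m : ℝ) + 1))) (U t) * wd (m : ℝ) (U t) *
              (v ^ (1 / ((m : ℝ) + 1)) * v ^ θ)
            = wd (3 * (1 / ((m : ℝ) + 1))) (U t) * v ^ (1 / ((m : ℝ) + 1)) *
              (wd (m : ℝ) (U t) * v ^ θ) := by ring
          _ = _ := by rw [hb]; ring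
      simp only [hB]
      rw [hid, mul_assoc]
      exact mul_le_mul_of_nonneg_left
        (geom_le hn0 hθ0 hθ1 (hxnn t ⟨hti.1, ht1.le⟩) hg0 hX hY0) (Real.rpow_nonneg hC0.le _)
    have hMy : M = inv k (wInt k * cone h m b / V) := by
      simp only [hM, hU, hci b ⟨hb0.le, le_rfl⟩, hy]
    rw [← hMy]
    refine h1.trans ?_
    simp only [hB]
    rw [intervalIntegral.integral_const_mul, intervalIntegral.integral_add
      ((hxi.mono_set hsub).const_mul _) ((hgi.mono_set hsub).const_mul _),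
      intervalIntegral.integral_const_mul, intervalIntegral.integral_const_mul]
    have i1 : ∫ t in (0 : ℝ)..b, h t ^ m * deriv T t ≤ X :=
      le_trans (integral_mono_interval le_rfl hb0.le hb1.le
        ((ae_restrict_iff' measurableSet_Ioc).2 (ae_of_all _ fun t ht => hxnn t ⟨ht.1.le, ht.2⟩))
        hxi) hXle
    have i2 : ∫ t in (0 : ℝ)..b, g t ≤ Y :=
      le_trans (integral_mono_interval le_rfl hb0.le hb1.le
        ((ae_restrict_iff' measurableSet_Ioc).2 (ae_of_all _ fun t ht => hgnn t ⟨ht.1.le, ht.2⟩))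
        hgi) hgY.le
    calc C ^ θ * (X ^ (1 / ((m : ℝ) + 1)) * Y ^ θ) *
          (1 / ((m : ℝ) + 1) / X * (∫ t in (0 : ℝ)..b, h t ^ m * deriv T t) +
            θ / Y * ∫ t in (0 : ℝ)..b, g t)
        ≤ C ^ θ * (X ^ (1 / ((m : ℝ) + 1)) * Y ^ θ) *
          (1 / ((m : ℝ) + 1) / X * X + θ / Y * Y) := by
          gcongr
      _ = C ^ θ * (X ^ (1 / ((m : ℝ) + 1)) * Y ^ θ) * (1 / ((m : ℝ) + 1) + θ) := by
          field_simp
      _ = _ := by rw [hθ1]; ring

end Vale.Agent.P237.Const
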