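import Vale.Agent.P237.PerpCoord

/-!
# P237: the divergence test at a John position

Let `w` be the gauge of a body `K` with `0` inside and `t x = ⟪x, u⟫`.  Boundary integrals are
replaced by integrals over `K` of functions that are constant on rays: letting a shell
`(1 + ε) K \ K` shrink gives `n ∫ G (t/w) = ∫ (n G(t) + t G'(t))` and
`n ∫ g (t/w) ∂ᵤw = ∫ g'(t)`.  With `|∇ w| ≤ 1` this bounds the sum over a decomposition of the
identity of `∫ A_u (2 g' - n g² - 2 t g g')` by `n |K|`.
-/

namespace Vale.Agent.P237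

open MeasureTheory Set Filter Topology Metric
open scoped Pointwise RealInnerProductSpace ENNReal NNReal

namespace Fisher

variable {n : ℕ} {K : Set (E n)} {u : E n}

lemma nhds_zero (h0 : (0 : E n) ∈ interior K) : K ∈ 𝓝 (0 : E n) :=
  mem_interior_iff_mem_nhds.1 h0

lemma gauge_le_iff (hK : Body K) (h0 : (0 : E n) ∈ interior K) {r : ℝ} (hr : 0 < r) (x : E n) :
    gauge K x ≤ r ↔ x ∈ r • K := by
  rw [mem_smul_set_iff_inv_smul_mem₀ hr.ne', ← hK.compact.isClosed.closure_eq,
    ← gauge_le_one_iff_mem_closure hK.convex (nhds_zero h0), hK.compact.isClosed.closure_eq,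
    gauge_smul_of_nonneg (inv_nonneg.2 hr.le), smul_eq_mul, inv_mul_le_iff₀ hr, mul_one]

lemma fderiv_gauge_smul {c : ℝ} (hc : 0 < c) (x : E n) :
    fderiv ℝ (gauge K) (c • x) = fderiv ℝ (gauge K) x := by
  have e : (fun y => gauge K (c • y)) = fun y => c • gauge K y := by
    funext y
    exact gauge_smul_of_nonneg hc.le y
  have h := fderiv_comp_smul (f := gauge K) (x := x) c
  letI := invertibleOfNonzero hc.ne'
  rw [show (gauge K <| c • ·) = c • gauge K from e, fderiv_const_smul_of_invertible c] at h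
  exact smul_right_injective _ hc.ne' h.symm

lemma smul_subset (hK : Body K) (h0 : (0 : E n) ∈ interior K) {ε : ℝ} (hε : 0 ≤ ε) :
    K ⊆ (1 + ε) • K := fun x hx => by
  rw [← gauge_le_iff hK h0 (by linarith)]
  exact (gauge_le_one_of_mem hx).trans (by linarith)

lemma integrableOn_of_bdd (hK : IsCompact K) {F : E n → ℝ} (hF : Measurable F) {M : ℝ}
    (hb : ∀ x ∈ K, |F x| ≤ M) : IntegrableOn F K :=
  Measure.integrableOn_of_bounded hK.measure_lt_top.ne hF.aestronglyMeasurable
    ((ae_restrict_iff' hK.isClosed.measurableSet).2 (ae_of_all _ hb))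

/-- The integral over a shell of a function that is constant on rays. -/
lemma shell_eq (hK : Body K) (h0 : (0 : E n) ∈ interior K) {F : E n → ℝ}
    (hF : ∀ c : ℝ, 0 < c → ∀ x, F (c • x) = F x) (hm : Measurable F) {M : ℝ}
    (hb : ∀ x, |F x| ≤ M) {ε : ℝ} (hε : 0 ≤ ε) :
    ∫ x in ((1 + ε) • K) \ K, F x = ((1 + ε) ^ n - 1) * ∫ x in K, F x := by
  have hp : (0 : ℝ) < 1 + ε := by linarith
  have hc : IsCompact ((1 + ε) • K) := hK.compact.smul (1 + ε)
  rw [setIntegral_sdiff hK.compact.isClosed.measurableSet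
    (integrableOn_of_bdd hc hm fun x _ => hb x) (smul_subset hK h0 hε)]
  have h := Measure.setIntegral_comp_smul_of_pos (volume : Measure (E n)) F K hp
  simp only [hF _ hp, finrank_euclideanSpace_fin, smul_eq_mul] at h
  have hp' : (1 + ε) ^ n ≠ 0 := (pow_pos hp n).ne'
  rw [sub_mul, one_mul, h, ← mul_assoc, mul_inv_cancel₀ hp', one_mul]

lemma tendsto_shell_coeff : Tendsto (fun ε : ℝ => ε⁻¹ * ((1 + ε) ^ n - 1)) (𝓝[>] 0) (𝓝 (n : ℝ)) := by
  have h : HasDerivAt (fun ε : ℝ => (1 + ε) ^ n) (n : ℝ) 0 := by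
    simpa using ((hasDerivAt_id (0 : ℝ)).const_add 1).fun_pow n
  simpa using h.tendsto_slope_zero_right

/-- A shrinking shell normalised by its width sees only the value on rays. -/
lemma tendsto_shell (hK : Body K) (h0 : (0 : E n) ∈ interior K) {F P : E n → ℝ}
    (hF : ∀ c : ℝ, 0 < c → ∀ x, F (c • x) = F x) (hFm : Measurable F) {M : ℝ}
    (hFb : ∀ x, |F x| ≤ M) (hPm : Measurable P) {C : ℝ}
    (hPF : ∀ ε ∈ Ioc (0 : ℝ) 1, ∀ x ∈ ((1 + ε) • K) \ K, |P x - F x| ≤ C * ε) :
    Tendsto (fun ε => ε⁻¹ * ∫ x in ((1 + ε) • K) \ K, P x) (𝓝[>] 0)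
      (𝓝 (n * ∫ x in K, F x)) := by
  have hsmall : Tendsto (fun ε : ℝ => |C| * ε * (ε⁻¹ * ((1 + ε) ^ n - 1)) * vol K) (𝓝[>] 0)
      (𝓝 0) := by
    simpa using (((tendsto_id.mono_left nhdsWithin_le_nhds).const_mul |C|).mul
      (tendsto_shell_coeff (n := n))).mul_const (vol K)
  have hmain : Tendsto (fun ε : ℝ => ε⁻¹ * ((1 + ε) ^ n - 1) * ∫ x in K, F x) (𝓝[>] 0)
      (𝓝 (n * ∫ x in K, F x)) := (tendsto_shell_coeff (n := n)).mul_const _
  refine (Tendsto.congr' (f₁ := fun ε => ε⁻¹ * ((1 + ε) ^ n - 1) * (∫ x in K, F x) +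
    (ε⁻¹ * (∫ x in ((1 + ε) • K) \ K, P x) - ε⁻¹ * ((1 + ε) ^ n - 1) * ∫ x in K, F x))
    (by filter_upwards with ε; ring) ?_)
  rw [← add_zero ((n : ℝ) * ∫ x in K, F x)]
  refine hmain.add (squeeze_zero_norm' ?_ hsmall)
  filter_upwards [Ioc_mem_nhdsGT one_pos] with ε hε
  have hS : IsCompact ((1 + ε) • K) := hK.compact.smul (1 + ε)
  have hfin : volume (((1 + ε) • K) \ K) < ⊤ :=
    (measure_mono sdiff_subset).trans_lt hS.measure_lt_top
  have hSm : MeasurableSet (((1 + ε) • K) \ K) :=
    hS.isClosed.measurableSet.diff hK.compact.isClosed.measurableSet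
  have hvol : (volume (((1 + ε) • K) \ K)).toReal = ((1 + ε) ^ n - 1) * vol K := by
    have := shell_eq hK h0 (F := fun _ => (1 : ℝ)) (fun _ _ _ => rfl) measurable_const (M := 1)
      (fun _ => by simp) hε.1.le
    simpa [vol, Measure.real] using this
  have hFi : IntegrableOn F (((1 + ε) • K) \ K) :=
    Measure.integrableOn_of_bounded hfin.ne hFm.aestronglyMeasurable (ae_of_all _ hFb)
  have hPi : IntegrableOn P (((1 + ε) • K) \ K) := by
    refine Measure.integrableOn_of_bounded (M := M + C * ε) hfin.ne hPm.aestronglyMeasurable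
      ((ae_restrict_iff' hSm).2 (ae_of_all _ fun x hx => ?_))
    rw [Real.norm_eq_abs]
    have h1 := abs_le.1 (hPF ε hε x hx)
    have h2 := abs_le.1 (hFb x)
    exact abs_le.2 ⟨by linarith, by linarith⟩
  rw [mul_assoc, ← mul_sub, ← shell_eq hK h0 hF hFm hFb hε.1.le, ← integral_sub hPi hFi,
    norm_mul, norm_inv, Real.norm_eq_abs, abs_of_pos hε.1]
  refine (mul_le_mul_of_nonneg_left (norm_setIntegral_le_of_norm_le_const hfin
    fun x hx => ((Real.norm_eq_abs _).trans_le (hPF ε hε x hx)).trans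
      (mul_le_mul_of_nonneg_right (le_abs_self C) hε.1.le)) (inv_nonneg.2 hε.1.le)).trans
    (le_of_eq ?_)
  rw [Measure.real, hvol]
  ring

/-- Continuous functions are bounded on intervals. -/
lemma exists_bound {g : ℝ → ℝ} (hg : Continuous g) (r : ℝ) :
    ∃ M, 0 ≤ M ∧ ∀ s ∈ Icc (-r) r, |g s| ≤ M := by
  obtain ⟨M, hM⟩ := isCompact_Icc.exists_bound_of_continuousOn (hg.continuousOn (s := Icc (-r) r))
  exact ⟨max M 0, le_max_right _ _, fun s hs => (hM s hs).trans (le_max_left _ _)⟩

/-- Continuously differentiable functions are Lipschitz on intervals. -/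
lemma exists_lip {g : ℝ → ℝ} (hg : ContDiff ℝ 1 g) (r : ℝ) :
    ∃ M, 0 ≤ M ∧ ∀ a ∈ Icc (-r) r, ∀ b ∈ Icc (-r) r, |g a - g b| ≤ M * |a - b| := by
  obtain ⟨M, hM0, hM⟩ := exists_bound (hg.continuous_deriv le_rfl) r
  refine ⟨M, hM0, fun a ha b hb => ?_⟩
  simpa [Real.norm_eq_abs] using Convex.norm_image_sub_le_of_norm_deriv_le
    (fun x _ => (hg.differentiable one_ne_zero) x) (fun x hx => hM x hx) (convex_Icc (-r) r) hb ha

/-- The value of `t / w`, bounded and close to `t` on shells. -/
lemma exists_ratio_bound (hK : Body K) (h0 : (0 : E n) ∈ interior K) (u : E n) :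
    ∃ R, 0 ≤ R ∧ (∀ x, |⟪x, u⟫ / gauge K x| ≤ R) ∧
      ∀ ε ∈ Ioc (0 : ℝ) 1, ∀ x ∈ (1 + ε) • K, |⟪x, u⟫| ≤ 2 * R ∧
        (x ∉ K → |⟪x, u⟫ - ⟪x, u⟫ / gauge K x| ≤ R * ε) := by
  obtain ⟨r, hr, hKr⟩ := hK.compact.isBounded.subset_closedBall_lt 0 0
  have habs : Absorbent ℝ K := absorbent_nhds_zero (nhds_zero h0)
  have hle : ∀ x, |⟪x, u⟫| ≤ gauge K x * (r * ‖u‖) := fun x => by
    have h1 := le_gauge_of_subset_closedBall habs hr.le hKr (x := x)
    rw [div_le_iff₀ hr] at h1
    calc |⟪x, u⟫| ≤ ‖x‖ * ‖u‖ := abs_real_inner_le_norm _ _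
      _ ≤ gauge K x * r * ‖u‖ := mul_le_mul_of_nonneg_right h1 (norm_nonneg u)
      _ = gauge K x * (r * ‖u‖) := mul_assoc _ _ _
  have hR : 0 ≤ r * ‖u‖ := by positivity
  refine ⟨r * ‖u‖, hR, fun x => ?_, fun ε hε x hx => ?_⟩
  · rcases eq_or_lt_of_le (gauge_nonneg (s := K) x) with h | h
    · rw [← h, div_zero, abs_zero]; exact hR
    · rw [abs_div, abs_of_pos h, div_le_iff₀ h, mul_comm]
      exact hle x
  · have hw : gauge K x ≤ 1 + ε := (gauge_le_iff hK h0 (by linarith [hε.1]) x).2 hx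
    refine ⟨(hle x).trans (mul_le_mul_of_nonneg_right (by linarith [hε.2]) hR), fun hxK => ?_⟩
    have h1 : 1 < gauge K x := by
      by_contra hh
      exact hxK (by simpa using (gauge_le_iff hK h0 one_pos x).1 (not_lt.1 hh))
    have hd : 0 < gauge K x := by linarith
    have e : ⟪x, u⟫ - ⟪x, u⟫ / gauge K x = ⟪x, u⟫ / gauge K x * (gauge K x - 1) := by
      field_simp
    rw [e, abs_mul, abs_of_pos (sub_pos.2 h1)]
    refine mul_le_mul ?_ (by linarith) (by linarith) hR
    rw [abs_div, abs_of_pos hd, div_le_iff₀ hd, mul_comm]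
    exact hle x

lemma measurable_ratio (hK : Body K) (h0 : (0 : E n) ∈ interior K) {g : ℝ → ℝ} (hg : Continuous g)
    (u : E n) : Measurable fun x => g (⟪x, u⟫ / gauge K x) :=
  hg.measurable.comp ((measurable_id.inner measurable_const).div
    (continuous_gauge hK.convex (nhds_zero h0)).measurable)

lemma ratio_smul (g : ℝ → ℝ) {c : ℝ} (hc : 0 < c) (x : E n) :
    g (⟪c • x, u⟫ / gauge K (c • x)) = g (⟪x, u⟫ / gauge K x) := by
  rw [real_inner_smul_left, gauge_smul_of_nonneg hc.le, smul_eq_mul, mul_div_mul_left _ _ hc.ne']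

lemma bdd_ratio (hK : Body K) (h0 : (0 : E n) ∈ interior K) {g : ℝ → ℝ} (hg : Continuous g)
    (u : E n) : ∃ M, 0 ≤ M ∧ ∀ x, |g (⟪x, u⟫ / gauge K x)| ≤ M := by
  obtain ⟨R, -, hR, -⟩ := exists_ratio_bound hK h0 u
  obtain ⟨M, hM0, hM⟩ := exists_bound hg R
  exact ⟨M, hM0, fun x => hM _ (abs_le.1 (hR x))⟩

/-- `n ∫ G (t/w) = ∫ (n G(t) + t G'(t))`. -/
theorem ray_identity (hK : Body K) (h0 : (0 : E n) ∈ interior K) {G : ℝ → ℝ} (hG : ContDiff ℝ 1 G)
    (u : E n) :
    (n : ℝ) * ∫ x in K, G (⟪x, u⟫ / gauge K x) =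
      ∫ x in K, ((n : ℝ) * G ⟪x, u⟫ + ⟪x, u⟫ * deriv G ⟪x, u⟫) := by
  obtain ⟨R, hR0, hR, hRs⟩ := exists_ratio_bound hK h0 u
  obtain ⟨C, hC0, hC⟩ := exists_lip hG (2 * R)
  obtain ⟨M, -, hM⟩ := bdd_ratio hK h0 hG.continuous u
  have hlim := tendsto_shell hK h0 (F := fun x => G (⟪x, u⟫ / gauge K x))
    (P := fun x => G ⟪x, u⟫) (C := C * R) (fun c hc x => ratio_smul G hc x)
    (measurable_ratio hK h0 hG.continuous u) hM
    (hG.continuous.measurable.comp (measurable_id.inner measurable_const)) fun ε hε x hx => by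
      have hh := hRs ε hε x hx.1
      refine (hC _ (abs_le.1 hh.1) _ (abs_le.1 ((hR x).trans (by linarith)))).trans ?_
      rw [mul_assoc]
      exact mul_le_mul_of_nonneg_left (hh.2 hx.2) hC0
  have hcont : Continuous fun x : E n => G ⟪x, u⟫ :=
    hG.continuous.comp (continuous_id.inner continuous_const)
  have hd : HasDerivAt (fun s : ℝ => ∫ x in K, s ^ n * G (s * ⟪x, u⟫))
      (∫ x in K, ((n : ℝ) * G ⟪x, u⟫ + ⟪x, u⟫ * deriv G ⟪x, u⟫)) 1 := by
    have hc' : Continuous (Function.uncurry fun (s : ℝ) (x : E n) =>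
        (n : ℝ) * s ^ (n - 1) * G (s * ⟪x, u⟫) + s ^ n * (deriv G (s * ⟪x, u⟫) * ⟪x, u⟫)) := by
      have := hG.continuous
      have := hG.continuous_deriv le_rfl
      fun_prop
    obtain ⟨B, hB⟩ := (isCompact_Icc (a := (0 : ℝ)) (b := 2)).prod hK.compact
      |>.exists_bound_of_continuousOn hc'.continuousOn
    have := (hasDerivAt_integral_of_dominated_loc_of_deriv_le (μ := volume.restrict K)
      (F := fun (s : ℝ) (x : E n) => s ^ n * G (s * ⟪x, u⟫))
      (F' := fun (s : ℝ) (x : E n) =>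
        (n : ℝ) * s ^ (n - 1) * G (s * ⟪x, u⟫) + s ^ n * (deriv G (s * ⟪x, u⟫) * ⟪x, u⟫))
      (bound := fun _ => B) (Icc_mem_nhds (show (0 : ℝ) < 1 by norm_num) (show (1 : ℝ) < 2 by norm_num))
      (Eventually.of_forall fun s => by
        exact (by have := hG.continuous; fun_prop : Continuous fun x : E n =>
          s ^ n * G (s * ⟪x, u⟫)).aestronglyMeasurable)
      (by
        have : Continuous fun x : E n => (1 : ℝ) ^ n * G (1 * ⟪x, u⟫) := by
          have := hG.continuous; fun_prop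
        exact this.continuousOn.integrableOn_compact hK.compact)
      (hc'.comp (Continuous.prodMk_right (1 : ℝ))).aestronglyMeasurable
      ((ae_restrict_iff' hK.compact.isClosed.measurableSet).2
        (ae_of_all _ fun x hx s hs => hB (s, x) ⟨hs, hx⟩))
      (integrableOn_const hK.compact.measure_lt_top.ne)
      (ae_of_all _ fun x s _ => by
        have h1 := hasDerivAt_pow n s
        have h2 := ((hG.differentiable one_ne_zero) (s * ⟪x, u⟫)).hasDerivAt.comp s
          ((hasDerivAt_id s).mul_const ⟪x, u⟫)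
        simpa [Function.comp_def] using h1.fun_mul h2)).2
    simp only [one_pow, mul_one, one_mul] at this
    simpa [mul_comm] using this
  refine tendsto_nhds_unique (hlim.congr' ?_) hd.tendsto_slope_zero_right
  filter_upwards [self_mem_nhdsWithin] with ε (hε : 0 < ε)
  have hp : (0 : ℝ) < 1 + ε := by linarith
  have h := Measure.setIntegral_comp_smul_of_pos (volume : Measure (E n))
    (fun x => G ⟪x, u⟫) K hp
  simp only [real_inner_smul_left, finrank_euclideanSpace_fin, smul_eq_mul] at h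
  rw [setIntegral_sdiff hK.compact.isClosed.measurableSet
    (hcont.continuousOn.integrableOn_compact (hK.compact.smul (1 + ε))) (smul_subset hK h0 hε.le)]
  simp only [smul_eq_mul, integral_const_mul, one_pow, one_mul, h]
  rw [← mul_assoc, mul_inv_cancel₀ (pow_pos hp n).ne', one_mul]

/-- `n ∫ g (t/w) ∂ᵤw = ∫ g'(t)`. -/
theorem normal_identity (hK : Body K) (h0 : (0 : E n) ∈ interior K) (hu : ‖u‖ = 1) {g : ℝ → ℝ}
    (hg : ContDiff ℝ 1 g) :
    (n : ℝ) * ∫ x in K, g (⟪x, u⟫ / gauge K x) * fderiv ℝ (gauge K) x u =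
      ∫ x in K, deriv g ⟪x, u⟫ := by
  obtain ⟨L, hL⟩ := hK.convex.lipschitz_gauge (nhds_zero h0)
  obtain ⟨R, hR0, hR, hRs⟩ := exists_ratio_bound hK h0 u
  obtain ⟨C, hC0, hC⟩ := exists_lip hg (2 * R + 1)
  obtain ⟨B, hB0, hB⟩ := bdd_ratio hK h0 hg.continuous u
  obtain ⟨D, hD0, hD⟩ := exists_bound (hg.continuous_deriv le_rfl) (2 * R)
  have hdir : ∀ x, |fderiv ℝ (gauge K) x u| ≤ L := fun x => by
    rw [← Real.norm_eq_abs]
    simpa [hu] using ((fderiv ℝ (gauge K) x).le_opNorm u).trans
      (mul_le_mul_of_nonneg_right (norm_fderiv_le_of_lipschitz ℝ hL) (norm_nonneg u))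
  have hmd : Measurable fun x => fderiv ℝ (gauge K) x u := measurable_fderiv_apply_const ℝ _ u
  have hlim := tendsto_shell hK h0
    (F := fun x => g (⟪x, u⟫ / gauge K x) * fderiv ℝ (gauge K) x u)
    (P := fun x => g ⟪x, u⟫ * fderiv ℝ (gauge K) x u) (M := B * L) (C := C * R * L)
    (fun c hc x => by rw [ratio_smul g hc, fderiv_gauge_smul hc])
    ((measurable_ratio hK h0 hg.continuous u).mul hmd)
    (fun x => by rw [abs_mul]; exact mul_le_mul (hB x) (hdir x) (abs_nonneg _) hB0)
    ((hg.continuous.measurable.comp (measurable_id.inner measurable_const)).mul hmd)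
    fun ε hε x hx => by
      have hh := hRs ε hε x hx.1
      rw [← sub_mul, abs_mul]
      have h1 : |g ⟪x, u⟫ - g (⟪x, u⟫ / gauge K x)| ≤ C * R * ε := by
        refine (hC _ (abs_le.1 (hh.1.trans (by linarith))) _
          (abs_le.1 ((hR x).trans (by linarith)))).trans ?_
        rw [mul_assoc]
        exact mul_le_mul_of_nonneg_left (hh.2 hx.2) hC0
      calc _ ≤ C * R * ε * L := mul_le_mul h1 (hdir x) (abs_nonneg _)
            (mul_nonneg (mul_nonneg hC0 hR0) hε.1.le)
        _ = C * R * L * ε := by ring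
  refine tendsto_nhds_unique hlim ?_
  -- a globally Lipschitz test agreeing with `g ⟪·, u⟫` near `2 K`
  set f : E n → ℝ := fun x => g (max (-(2 * R + 1)) (min (2 * R + 1) ⟪x, u⟫)) with hf
  have hfeq : ∀ x, |⟪x, u⟫| ≤ 2 * R + 1 → f x = g ⟪x, u⟫ := fun x hx => by
    rw [hf]
    simp only
    rw [min_eq_right (abs_le.1 hx).2, max_eq_right (abs_le.1 hx).1]
  have hmem : ∀ y : ℝ, max (-(2 * R + 1)) (min (2 * R + 1) y) ∈ Icc (-(2 * R + 1)) (2 * R + 1) :=
    fun y => ⟨le_max_left _ _, max_le (by linarith) (min_le_left _ _)⟩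
  have hflip : LipschitzWith ⟨C, hC0⟩ f := LipschitzWith.of_dist_le_mul fun x y => by
    rw [Real.dist_eq, dist_eq_norm]
    refine (hC _ (hmem _) _ (hmem _)).trans ?_
    refine mul_le_mul_of_nonneg_left ?_ hC0
    refine (abs_max_sub_max_le_max _ _ _ _).trans ?_
    rw [sub_self, abs_zero, max_eq_right (abs_nonneg _)]
    refine (abs_min_sub_min_le_max _ _ _ _).trans ?_
    rw [sub_self, abs_zero, max_eq_right (abs_nonneg _), ← inner_sub_left]
    simpa [hu] using abs_real_inner_le_norm (x - y) u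
  have hderivf : ∀ x, |⟪x, u⟫| ≤ 2 * R → lineDeriv ℝ f x u = deriv g ⟪x, u⟫ := fun x hx => by
    have e : (fun s : ℝ => f (x + s • u)) =ᶠ[𝓝 0] fun s => g (⟪x, u⟫ + s) := by
      filter_upwards [Metric.ball_mem_nhds (0 : ℝ) one_pos] with s hs
      rw [Metric.mem_ball, dist_zero_right, Real.norm_eq_abs] at hs
      have e' : ⟪x + s • u, u⟫ = ⟪x, u⟫ + s := by
        simp [inner_add_left, real_inner_smul_left, real_inner_self_eq_norm_sq, hu]
      rw [hfeq _ (by rw [e']; exact (abs_add_le _ _).trans (by linarith)), e']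
    rw [lineDeriv, e.deriv_eq, deriv_comp_const_add, add_zero]
  have hnull1 : volume (frontier K) = 0 := hK.convex.addHaar_frontier volume
  have hgm : Measurable fun x : E n => deriv g ⟪x, u⟫ :=
    (hg.continuous_deriv le_rfl).measurable.comp (measurable_id.inner measurable_const)
  have key : ∀ ε ∈ Ioc (0 : ℝ) 1,
      |ε⁻¹ * (∫ x in ((1 + ε) • K) \ K, g ⟪x, u⟫ * fderiv ℝ (gauge K) x u) -
        ∫ x in K, deriv g ⟪x, u⟫| ≤ D * (((1 + ε) ^ n - 1) * vol K) := by
    intro ε hε
    have hp : (0 : ℝ) < 1 + ε := by linarith [hε.1]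
    set S := ((1 + ε) • K) \ K with hS
    set ρ : E n → ℝ := fun x => max 0 (min 1 (1 + (1 - gauge K x) / ε)) with hρ
    have hρlip : LipschitzWith ⟨L / ε, by have := hε.1; positivity⟩ ρ :=
      LipschitzWith.of_dist_le_mul fun x y => by
        rw [Real.dist_eq]
        refine (abs_max_sub_max_le_max _ _ _ _).trans ?_
        rw [sub_self, abs_zero, max_eq_right (abs_nonneg _)]
        refine (abs_min_sub_min_le_max _ _ _ _).trans ?_
        rw [sub_self, abs_zero, max_eq_right (abs_nonneg _)]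
        have h := hL.dist_le_mul x y
        rw [Real.dist_eq] at h
        have e : 1 + (1 - gauge K x) / ε - (1 + (1 - gauge K y) / ε) =
            (gauge K y - gauge K x) / ε := by ring
        rw [e, abs_div, abs_of_pos hε.1, abs_sub_comm]
        show _ ≤ (L : ℝ) / ε * dist x y
        rw [div_mul_eq_mul_div]
        exact div_le_div_of_nonneg_right h hε.1.le
    have hSc : IsCompact ((1 + ε) • K) := hK.compact.smul (1 + ε)
    have hout : ∀ x, x ∉ (1 + ε) • K → ρ x = 0 := fun x hx => by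
      have : 1 + ε < gauge K x := by
        by_contra h; exact hx ((gauge_le_iff hK h0 hp x).1 (not_lt.1 h))
      refine max_eq_left ((min_le_right _ _).trans ?_)
      rw [one_add_div hε.1.ne']
      exact div_nonpos_of_nonpos_of_nonneg (by linarith) hε.1.le
    have hin : ∀ x ∈ K, ρ x = 1 := fun x hx => by
      rw [hρ]
      simp only
      rw [min_eq_left (by
        have : 0 ≤ (1 - gauge K x) / ε := div_nonneg (sub_nonneg.2 (gauge_le_one_of_mem hx)) hε.1.le
        linarith), max_eq_right zero_le_one]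
    have hρsupp : HasCompactSupport ρ := HasCompactSupport.intro hSc hout
    have hparts := LipschitzWith.integral_lineDeriv_mul_eq (μ := (volume : Measure (E n))) hflip hρlip hρsupp u
    have hnull2 : volume (frontier ((1 + ε) • K)) = 0 :=
      (hK.convex.smul (1 + ε)).addHaar_frontier volume
    have hinS : ∀ x ∈ (1 + ε) • K, |⟪x, u⟫| ≤ 2 * R := fun x hx => (hRs ε hε x hx).1
    have hLHS : ∫ x, lineDeriv ℝ f x u * ρ x =
        (∫ x in K, deriv g ⟪x, u⟫) + ∫ x in S, deriv g ⟪x, u⟫ * ρ x := by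
      rw [← setIntegral_eq_integral_of_forall_compl_eq_zero (s := (1 + ε) • K)
        (fun x hx => by rw [hout x hx, mul_zero]),
        setIntegral_congr_fun hSc.isClosed.measurableSet
          (fun x hx => by simp only; rw [hderivf x (hinS x hx)] :
            EqOn (fun x => lineDeriv ℝ f x u * ρ x) (fun x => deriv g ⟪x, u⟫ * ρ x) _)]
      have hint : IntegrableOn (fun x => deriv g ⟪x, u⟫ * ρ x) ((1 + ε) • K) :=
        (((hg.continuous_deriv le_rfl).comp (continuous_id.inner continuous_const)).mul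
          hρlip.continuous).continuousOn.integrableOn_compact hSc
      rw [setIntegral_congr_fun (g := fun x => deriv g ⟪x, u⟫ * ρ x)
          hK.compact.isClosed.measurableSet (fun x hx => by simp [hin x hx] :
            EqOn (fun x => deriv g ⟪x, u⟫) (fun x => deriv g ⟪x, u⟫ * ρ x) K), hS,
        setIntegral_sdiff hK.compact.isClosed.measurableSet hint (smul_subset hK h0 hε.1.le)]
      ring
    have hRHS : ∫ x, lineDeriv ℝ ρ x (-u) * f x =
        ε⁻¹ * ∫ x in S, g ⟪x, u⟫ * fderiv ℝ (gauge K) x u := by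
      have hSm : MeasurableSet S := hSc.isClosed.measurableSet.diff hK.compact.isClosed.measurableSet
      rw [← integral_const_mul, ← integral_indicator hSm]
      refine integral_congr_ae ?_
      filter_upwards [measure_eq_zero_iff_ae_notMem.1 hnull1,
        measure_eq_zero_iff_ae_notMem.1 hnull2, hL.ae_differentiableAt] with x hx1 hx2 hxd
      have hKs : x ∈ K → x ∈ interior K := fun h => by
        by_contra hh; exact hx1 ⟨subset_closure h, hh⟩
      have hS2 : x ∈ (1 + ε) • K → x ∈ interior ((1 + ε) • K) := fun h => by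
        by_contra hh; exact hx2 ⟨subset_closure h, hh⟩
      have line : ∀ {φ : E n → ℝ}, ρ =ᶠ[𝓝 x] φ → ∀ v, lineDeriv ℝ ρ x v = lineDeriv ℝ φ x v :=
        fun hφ v => hφ.lineDeriv_eq
      by_cases hxK : x ∈ K
      · rw [indicator_of_notMem (fun h => h.2 hxK),
          line (φ := fun _ => 1) (eventually_of_mem (isOpen_interior.mem_nhds (hKs hxK))
            fun y hy => hin y (interior_subset hy)), lineDeriv, deriv_const, zero_mul]
      by_cases hxS : x ∈ (1 + ε) • K
      · rw [indicator_of_mem (show x ∈ S from ⟨hxS, hxK⟩)]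
        have hev : ρ =ᶠ[𝓝 x] fun y => 1 + (1 - gauge K y) / ε := by
          filter_upwards [isOpen_interior.mem_nhds (hS2 hxS),
            hK.compact.isClosed.isOpen_compl.mem_nhds hxK] with y hy hyK
          have h1 : gauge K y ≤ 1 + ε := (gauge_le_iff hK h0 hp y).2 (interior_subset hy)
          have h2 : 1 < gauge K y := by
            by_contra h; exact hyK (by simpa using (gauge_le_iff hK h0 one_pos y).1 (not_lt.1 h))
          have h3 : 0 ≤ 1 + (1 - gauge K y) / ε := by
            rw [one_add_div hε.1.ne']; exact div_nonneg (by linarith) hε.1.le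
          have h4 : 1 + (1 - gauge K y) / ε ≤ 1 := by
            have := div_nonpos_of_nonpos_of_nonneg (by linarith : 1 - gauge K y ≤ 0) hε.1.le
            linarith
          rw [hρ]
          simp only
          rw [min_eq_right h4, max_eq_right h3]
        have hd : HasFDerivAt (fun y => 1 + (1 - gauge K y) / ε)
            (-(ε⁻¹ • fderiv ℝ (gauge K) x)) x := by
          have := ((hxd.hasFDerivAt.const_sub 1).const_smul ε⁻¹).const_add (1 : ℝ)
          simpa [div_eq_inv_mul, smul_eq_mul, smul_neg] using this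
        rw [line hev, hd.differentiableAt.lineDeriv_eq_fderiv, hd.fderiv,
          hfeq x ((hinS x hxS).trans (by linarith))]
        simp
        ring
      · rw [indicator_of_notMem (fun h => hxS h.1),
          line (φ := fun _ => 0) (eventually_of_mem (hSc.isClosed.isOpen_compl.mem_nhds hxS)
            fun y hy => hout y hy), lineDeriv, deriv_const, zero_mul]
    rw [← hRHS, ← hparts, hLHS, add_sub_cancel_left, ← Real.norm_eq_abs]
    have hfin : volume S < ⊤ := (measure_mono sdiff_subset).trans_lt hSc.measure_lt_top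
    refine (norm_setIntegral_le_of_norm_le_const hfin (C := D) fun x hx => ?_).trans (le_of_eq ?_)
    · have hρ01 : |ρ x| ≤ 1 := by
        rw [hρ]
        exact abs_le.2 ⟨by linarith [le_max_left (0 : ℝ) (min 1 (1 + (1 - gauge K x) / ε))],
          max_le zero_le_one (min_le_left _ _)⟩
      rw [Real.norm_eq_abs, abs_mul]
      simpa using mul_le_mul (hD _ (abs_le.1 (hinS x hx.1))) hρ01 (abs_nonneg _) hD0
    · have := shell_eq hK h0 (F := fun _ => (1 : ℝ)) (fun _ _ _ => rfl) measurable_const (M := 1)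
        (fun _ => by simp) hε.1.le
      simp only [setIntegral_const, smul_eq_mul, mul_one] at this
      rw [this, vol, Measure.real]
  refine tendsto_iff_norm_sub_tendsto_zero.2 (squeeze_zero' (Eventually.of_forall fun _ => norm_nonneg _)
    (g := fun ε : ℝ => D * (((1 + ε) ^ n - 1) * vol K)) ?_ ?_)
  · filter_upwards [Ioc_mem_nhdsGT one_pos] with ε hε
    simpa [Real.norm_eq_abs] using key ε hε
  · have : Tendsto (fun ε : ℝ => D * (((1 + ε) ^ n - 1) * vol K)) (𝓝 0)
        (𝓝 (D * (((1 + 0) ^ n - 1) * vol K))) := (by fun_prop : Continuous _).tendsto 0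
    simpa using this.mono_left nhdsWithin_le_nhds

end Fisher

open Fisher in
/-- The divergence test for a decomposition of the identity. -/
theorem fisher_test {n : ℕ} {K : Set (E n)} (hK : Body K) (hb : closedBall 0 1 ⊆ K) {N : ℕ}
    (u : Fin N → E n) (c : Fin N → ℝ) (hc : ∀ i, 0 ≤ c i) (hu : ∀ i, ‖u i‖ = 1)
    (hsum : ∀ x : E n, ∑ i, c i * ⟪x, u i⟫ ^ 2 = ‖x‖ ^ 2) (g : Fin N → ℝ → ℝ)
    (hg : ∀ i, ContDiff ℝ 1 (g i)) :
    ∑ i, c i * ∫ t, (2 * deriv (g i) t - n * g i t ^ 2 - 2 * t * g i t * deriv (g i) t) *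
      sliceVol K (u i) t ≤ n * vol K := by
  have h0 : (0 : E n) ∈ interior K :=
    interior_maximal (ball_subset_closedBall.trans hb) isOpen_ball (mem_ball_self one_pos)
  have hL1 : LipschitzWith 1 (gauge K) := by
    simpa using hK.convex.lipschitzWith_gauge (r := 1) one_pos (ball_subset_closedBall.trans hb)
  set d : Fin N → E n → ℝ := fun i x => fderiv ℝ (gauge K) x (u i) with hd
  set a : Fin N → E n → ℝ := fun i x => g i (⟪x, u i⟫ / gauge K x) with ha
  have hpt : ∀ x, ∑ i, c i * d i x ^ 2 ≤ 1 := fun x => by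
    have e : ∀ i, d i x = ⟪gradient (gauge K) x, u i⟫ := fun i => (inner_gradient_left).symm
    simp only [e, hsum]
    rw [gradient, LinearIsometryEquiv.norm_map]
    have h : ‖fderiv ℝ (gauge K) x‖ ≤ 1 := by simpa using norm_fderiv_le_of_lipschitz ℝ hL1 (x₀ := x)
    nlinarith [norm_nonneg (fderiv ℝ (gauge K) x)]
  have hterm : ∀ i, ∫ t, (2 * deriv (g i) t - n * g i t ^ 2 - 2 * t * g i t * deriv (g i) t) *
      sliceVol K (u i) t = ∫ x in K, n * (2 * (a i x * d i x) - a i x ^ 2) := by
    intro i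
    have hgc := (hg i).continuous
    have hgd := (hg i).continuous_deriv le_rfl
    obtain ⟨M, hM0, hM⟩ := bdd_ratio hK h0 hgc (u i)
    have hdb : ∀ x, |d i x| ≤ 1 := fun x => by
      rw [← Real.norm_eq_abs]
      have := ((fderiv ℝ (gauge K) x).le_opNorm (u i)).trans
        (mul_le_mul_of_nonneg_right (norm_fderiv_le_of_lipschitz ℝ hL1) (norm_nonneg (u i)))
      simpa [hu i] using this
    have hma : Measurable (a i) := measurable_ratio hK h0 hgc (u i)
    have i1 : IntegrableOn (fun x => a i x * d i x) K :=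
      integrableOn_of_bdd hK.compact (hma.mul (measurable_fderiv_apply_const ℝ _ _)) (M := M * 1)
        fun x _ => by rw [abs_mul]; exact mul_le_mul (hM x) (hdb x) (abs_nonneg _) hM0
    have i2 : IntegrableOn (fun x => a i x ^ 2) K :=
      integrableOn_of_bdd hK.compact (hma.pow_const 2) (M := M ^ 2)
        fun x _ => by rw [abs_pow]; exact pow_le_pow_left₀ (abs_nonneg _) (hM x) 2
    rw [integral_const_mul, integral_sub (i1.const_mul 2) i2, integral_const_mul, mul_sub,
      mul_left_comm, normal_identity hK h0 (hu i) (hg i),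
      ray_identity hK h0 (G := fun s => g i s ^ 2) ((hg i).pow 2) (u i),
      ← setIntegral_inner_eq hK.compact (hu i) (by fun_prop : Continuous fun t =>
        2 * deriv (g i) t - (n : ℝ) * g i t ^ 2 - 2 * t * g i t * deriv (g i) t),
      ← integral_const_mul, ← integral_sub
        (Continuous.continuousOn (by fun_prop) |>.integrableOn_compact hK.compact)
        (Continuous.continuousOn (by
          have : Continuous (deriv fun s => g i s ^ 2) := ((hg i).pow 2).continuous_deriv le_rfl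
          fun_prop) |>.integrableOn_compact hK.compact)]
    refine integral_congr_ae (ae_of_all _ fun x => ?_)
    simp only
    rw [deriv_fun_pow (((hg i).differentiable one_ne_zero) _) 2]
    simp
    ring
  simp only [hterm, ← integral_const_mul]
  have hint : ∀ i, IntegrableOn (fun x => c i * (n * (2 * (a i x * d i x) - a i x ^ 2))) K := by
    intro i
    obtain ⟨M, hM0, hM⟩ := bdd_ratio hK h0 (hg i).continuous (u i)
    have hdb : ∀ x, |d i x| ≤ 1 := fun x => by
      rw [← Real.norm_eq_abs]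
      have := ((fderiv ℝ (gauge K) x).le_opNorm (u i)).trans
        (mul_le_mul_of_nonneg_right (norm_fderiv_le_of_lipschitz ℝ hL1) (norm_nonneg (u i)))
      simpa [hu i] using this
    have hma : Measurable (a i) := measurable_ratio hK h0 (hg i).continuous (u i)
    refine integrableOn_of_bdd hK.compact
      (((((hma.mul (measurable_fderiv_apply_const ℝ _ _)).const_mul 2).sub
        (hma.pow_const 2)).const_mul (n : ℝ)).const_mul (c i))
      (M := |c i| * (n * (2 * M + M ^ 2))) fun x _ => ?_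
    rw [abs_mul, abs_mul, Nat.abs_cast]
    gcongr
    refine (abs_sub _ _).trans (add_le_add ?_ ?_)
    · rw [abs_mul, abs_mul, abs_two]
      calc 2 * (|a i x| * |d i x|) ≤ 2 * (M * 1) := by gcongr; exacts [hM x, hdb x]
        _ = 2 * M := by ring
    · rw [abs_pow]; exact pow_le_pow_left₀ (abs_nonneg _) (hM x) 2
  rw [← integral_finsetSum _ (fun i _ => hint i)]
  calc ∫ x in K, ∑ i, c i * (n * (2 * (a i x * d i x) - a i x ^ 2))
      ≤ ∫ _ in K, (n : ℝ) := by
        refine setIntegral_mono (integrable_finsetSum _ fun i _ => hint i)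
          (integrableOn_const hK.compact.measure_lt_top.ne) fun x => ?_
        calc ∑ i, c i * (n * (2 * (a i x * d i x) - a i x ^ 2))
            ≤ ∑ i, (n : ℝ) * (c i * d i x ^ 2) := Finset.sum_le_sum fun i _ => by
              have h : 0 ≤ c i * n * (a i x - d i x) ^ 2 :=
                mul_nonneg (mul_nonneg (hc i) n.cast_nonneg) (sq_nonneg _)
              nlinarith
          _ ≤ n := by
              rw [← Finset.mul_sum]
              exact mul_le_of_le_one_right n.cast_nonneg (hpt x)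
    _ = n * vol K := by simp [vol, Measure.real, mul_comm]

/-- The divergence test at a John position of a symmetric body, on `[-1, 1]`. -/
theorem fisher_test_interval {n : ℕ} {K : Set (E n)} (hK : Body K) (hneg : ∀ x ∈ K, -x ∈ K)
    (hb : closedBall 0 1 ⊆ K) {N : ℕ} (u : Fin N → E n) (c : Fin N → ℝ) (hc : ∀ i, 0 ≤ c i)
    (hu : ∀ i, ‖u i‖ = 1) (hcon : ∀ i, ∀ x ∈ K, ⟪x, u i⟫ ≤ 1)
    (hsum : ∀ x : E n, ∑ i, c i * ⟪x, u i⟫ ^ 2 = ‖x‖ ^ 2) (g : Fin N → ℝ → ℝ)
    (hg : ∀ i, ContDiff ℝ 1 (g i)) :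
    ∑ i, c i * ∫ t in (-1 : ℝ)..1,
      (2 * deriv (g i) t - n * g i t ^ 2 - 2 * t * g i t * deriv (g i) t) * sliceVol K (u i) t
        ≤ n * vol K := by
  refine le_trans (le_of_eq ?_) (fisher_test hK hb u c hc hu hsum g hg)
  refine Finset.sum_congr rfl fun i _ => ?_
  rw [intervalIntegral.integral_of_le (by norm_num), ← integral_Icc_eq_integral_Ioc,
    setIntegral_eq_integral_of_forall_compl_eq_zero]
  intro t ht
  have he : {y : Perp (u i) | t • u i + (y : E n) ∈ K} = ∅ := by
    refine eq_empty_of_forall_notMem fun y hy => ht ?_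
    have e : ⟪perpCoord (u i) (t, y), u i⟫ = t := inner_perpCoord (hu i) (t, y)
    have h1 := hcon i (perpCoord (u i) (t, y)) hy
    have h2 := hcon i (-perpCoord (u i) (t, y)) (hneg _ hy)
    rw [inner_neg_left, e] at h2
    rw [e] at h1
    exact ⟨by linarith, h1⟩
  rw [sliceVol, he, measure_empty, ENNReal.toReal_zero, mul_zero]

end Vale.Agent.P237
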