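import Vale.Agent.P237.Final
import Vale.Agent.P237.Fisher
import Vale.Agent.P237.SliceGen
import Vale.Agent.P237.ConstSpec

/-!
# P237: Petty's inequality in every dimension up to a universal constant, from the specs of
`ConstSpec.lean`
-/

namespace Vale.Agent.P237

open MeasureTheory Set Metric
open scoped RealInnerProductSpace Pointwise

namespace Constant

/-- The volume of the unit ball of `E k`. -/
noncomputable def kappa (k : ℕ) : ℝ := vol (closedBall (0 : E k) 1)

lemma kappa_pos (k : ℕ) : 0 < kappa k :=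
  (body_of_ball_subset (convex_closedBall _ _) (isCompact_closedBall _ _) subset_rfl).vol_pos

/-- The conjectured minimum of `R`. -/
noncomputable def ballValue (n : ℕ) : ℝ := kappa (n - 1) ^ n * kappa n ^ (2 - (n : ℤ))

lemma kappa_succ {m : ℕ} (hm : 2 ≤ m) :
    kappa (m + 1) = kappa m * ∫ t in (-1 : ℝ)..1, √(1 - t ^ 2) ^ m := by
  obtain ⟨u, hu⟩ : ∃ u : E (m + 1), ‖u‖ = 1 :=
    ⟨EuclideanSpace.single 0 1, by simp⟩
  have hB : SymBody (closedBall (0 : E (m + 1)) 1) :=
    ⟨body_of_ball_subset (convex_closedBall _ _) (isCompact_closedBall _ _) subset_rfl,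
      fun x hx => by simpa using hx⟩
  have h1 : ∀ x ∈ closedBall (0 : E (m + 1)) 1, ⟪x, u⟫ ≤ 1 := fun x hx => by
    refine (real_inner_le_norm _ _).trans ?_
    rw [hu, mul_one]
    exact mem_closedBall_zero_iff.1 hx
  have h : SliceGen.Adm (closedBall (0 : E (m + 1)) 1) u := ⟨hB, hu, h1, subset_rfl⟩
  obtain ⟨e⟩ := exists_perpIso hu
  rw [kappa, kappa, ← (sliceGen_facts hm hB hu h1 subset_rfl).2.2.2.2.1,
    ← intervalIntegral.integral_const_mul]
  refine intervalIntegral.integral_congr fun t ht => ?_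
  rw [uIcc_of_le (by norm_num : (-1 : ℝ) ≤ 1)] at ht
  have ht2 : 0 ≤ 1 - t ^ 2 := by nlinarith [ht.1, ht.2]
  have hsect : SliceGen.sect e (closedBall (0 : E (m + 1)) 1) t = closedBall 0 √(1 - t ^ 2) := by
    refine subset_antisymm (fun z hz => ?_) (SliceGen.closedBall_subset_sect h e ht)
    have hz' : ‖perpCoord u (t, e.symm z)‖ ≤ 1 := mem_closedBall_zero_iff.1 hz
    have h2 : ‖perpCoord u (t, e.symm z)‖ ^ 2 ≤ 1 := pow_le_one₀ (norm_nonneg _) hz'
    rw [norm_sq_perpCoord hu] at h2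
    rw [mem_closedBall_zero_iff]
    refine Real.le_sqrt_of_sq_le ?_
    simp only [LinearIsometryEquiv.norm_map] at h2
    linarith
  rw [← SliceGen.vol_sect (e := e) hB.toBody.compact, hsect,
    show closedBall (0 : E m) √(1 - t ^ 2) = √(1 - t ^ 2) • closedBall (0 : E m) 1 by
      rw [_root_.smul_closedBall _ _ zero_le_one, smul_zero,
        Real.norm_of_nonneg (Real.sqrt_nonneg _), mul_one],
    vol_smul, abs_of_nonneg (Real.sqrt_nonneg _)]
  ring

lemma ballValue_succ {m : ℕ} (hm : 3 ≤ m) : ballValue (m + 1) = ballValue m * ballG m := by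
  obtain ⟨j, rfl⟩ : ∃ j, m = j + 1 := ⟨m - 1, by omega⟩
  have h1 := kappa_succ (m := j) (by omega)
  have h2 := kappa_succ (m := j + 1) (by omega)
  have p0 := kappa_pos j
  have p1 := kappa_pos (j + 1)
  have e1 : ∫ t in (-1 : ℝ)..1, √(1 - t ^ 2) ^ j = kappa (j + 1) / kappa j := by
    rw [h1]; field_simp
  have e2 : ∫ t in (-1 : ℝ)..1, √(1 - t ^ 2) ^ (j + 1) = kappa (j + 1 + 1) / kappa (j + 1) := by
    rw [h2]; field_simp
  have p2 := kappa_pos (j + 1 + 1)
  simp only [ballValue, ballG, Nat.add_sub_cancel, e1, e2]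
  rw [show (2 : ℤ) - ((j + 1 + 1 : ℕ) : ℤ) = -(j : ℤ) by push_cast; ring,
    show (2 : ℤ) - ((j + 1 : ℕ) : ℤ) = 1 - (j : ℤ) by push_cast; ring, zpow_neg, zpow_natCast,
    zpow_sub₀ p1.ne', zpow_one, zpow_natCast, div_pow, div_pow]
  field_simp
  ring

lemma ballValue_three : ballValue 3 = 3 * Real.pi ^ 2 / 4 := by
  have h2 : kappa 2 = Real.pi := by
    rw [kappa, vol, EuclideanSpace.volume_closedBall_fin_two]
    simp [Real.pi_pos.le]
  have hπ := Real.pi_ne_zero
  rw [ballValue, show (3 : ℕ) - 1 = 2 from rfl, h2, kappa, vol_ball3,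
    show (2 : ℤ) - ((3 : ℕ) : ℤ) = -1 by norm_num, zpow_neg_one]
  field_simp

/-- One step of the induction. -/
theorem step (hD : ConstOneDimSpec) {m : ℕ} (hm : 3 ≤ m) (hk : 0 < kap m) {r : ℝ} (hr : 0 ≤ r)
    (hR : ∀ C : Set (E m), Body C → r * vol C ^ (m - 1) ≤ vol (projBody C))
    {K : Set (E (m + 1))} (hK : Body K) :
    r * (kap m * ballG m) * vol K ^ m ≤ vol (projBody K) := by
  have hn : 2 ≤ m + 1 := by omega
  have H := hyps.toDualityHyps
  obtain ⟨M₀, hM₀, hmin⟩ := exists_minimizer H johnSpec hn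
  obtain ⟨T, N, u, c, hb, hc, hu, hle, hsum⟩ := johnSpec (m + 1) M₀ hn hM₀.1
  set M := T '' M₀
  have hS : SymBody M := hM₀.1.image T
  have hRT := R_image (by omega : 1 ≤ m + 1) T M₀
  have hmin' : R M ≤ R (projBody M) :=
    hRT ▸ hmin _ (projBodySpec (m + 1) _ hn hS.toBody).1.toBody
  set V := vol M with hV
  have hV0 : 0 < V := hS.toBody.vol_pos
  have hκ : 0 < kappa m := kappa_pos m
  set f : Fin N → ℝ → ℝ := fun i t => (sliceVol M (u i) t / kappa m) ^ (1 / (m : ℝ)) with hf
  have hA : ∀ i t, 0 ≤ sliceVol M (u i) t := fun i t => ENNReal.toReal_nonneg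
  have hfm : ∀ i t, f i t ^ m = sliceVol M (u i) t / kappa m := fun i t => by
    rw [hf]
    simp only [one_div]
    exact Real.rpow_inv_natCast_pow (div_nonneg (hA i t) hκ.le) (by omega)
  have hfa : ∀ i t, f i t ^ (m - 1) = sliceVol M (u i) t ^ (((m : ℝ) - 1) / m) *
      (kappa m ^ (((m : ℝ) - 1) / m))⁻¹ := fun i t => by
    rw [hf]
    simp only
    rw [← Real.rpow_natCast, ← Real.rpow_mul (div_nonneg (hA i t) hκ.le),
      Real.div_rpow (hA i t) hκ.le, div_eq_mul_inv,
      show 1 / (m : ℝ) * ((m - 1 : ℕ) : ℝ) = ((m : ℝ) - 1) / m by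
        rw [Nat.cast_sub (by omega)]; push_cast; ring]
  obtain ⟨i, hi⟩ : ∃ i, kap m * ballG m * (∫ t in (-1 : ℝ)..1, f i t ^ m) ^ (m - 1) ≤
      (∫ t in (-1 : ℝ)..1, f i t ^ (m - 1)) ^ m := by
    by_contra hcon
    push Not at hcon
    have hex : ∀ i, ∃ g : ℝ → ℝ, ContDiff ℝ 1 g ∧ (∫ t in (-1 : ℝ)..1, f i t ^ m) <
        ∫ t in (-1 : ℝ)..1,
          (2 * deriv g t - ((m + 1 : ℕ) : ℝ) * g t ^ 2 - 2 * t * g t * deriv g t) * f i t ^ m := by
      intro i
      obtain ⟨hconc, heven, -, hge, -, -⟩ := sliceGen_facts (by omega) hS (hu i) (hle i) hb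
      by_contra hno
      push Not at hno
      refine (hcon i).not_ge (hD m (f i) hm ?_ ?_ ?_ fun g hg _ => hno g hg)
      · have e : f i = fun t => (kappa m ^ (1 / (m : ℝ)))⁻¹ *
            sliceVol M (u i) t ^ (1 / (m : ℝ)) := by
          funext t
          rw [hf]
          simp only
          rw [Real.div_rpow (hA i t) hκ.le, div_eq_inv_mul]
        rw [e]
        simpa [smul_eq_mul] using
          hconc.smul (inv_nonneg.2 (Real.rpow_nonneg hκ.le (1 / (m : ℝ))))
      · exact fun t => by simp only [hf, heven]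
      · intro t ht
        have h := hge t ht
        rw [mul_comm] at h
        change √(1 - t ^ 2) ^ m * kappa m ≤ _ at h
        rw [← le_div_iff₀ (kappa_pos m)] at h
        refine le_trans (le_of_eq ?_) (Real.rpow_le_rpow (by positivity) h (by positivity))
        rw [one_div, Real.pow_rpow_inv_natCast (Real.sqrt_nonneg _) (by omega)]
    choose g hg hgt using hex
    have hfish := fisher_test_interval hS.toBody hS.neg_mem hb u c hc hu hle hsum g hg
    have hlt : ∀ i, V < ∫ t in (-1 : ℝ)..1,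
        (2 * deriv (g i) t - ((m + 1 : ℕ) : ℝ) * g i t ^ 2 - 2 * t * g i t * deriv (g i) t) *
          sliceVol M (u i) t := by
      intro i
      have h := hgt i
      simp only [hfm, ← mul_div_assoc, intervalIntegral.integral_div,
        (sliceGen_facts (by omega) hS (hu i) (hle i) hb).2.2.2.2.1, ← hV] at h
      exact (div_lt_div_iff_of_pos_right hκ).1 h
    have hcn := john_weight hu hsum
    obtain ⟨i₀, -, hi₀⟩ : ∃ i ∈ (Finset.univ : Finset (Fin N)), 0 < c i := by
      by_contra h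
      push Not at h
      have := Finset.sum_nonpos h
      rw [hcn] at this
      have : (0 : ℝ) < ((m + 1 : ℕ) : ℝ) := by positivity
      linarith
    have hlt2 : ∑ i, c i * V < ∑ i, c i * ∫ t in (-1 : ℝ)..1,
        (2 * deriv (g i) t - ((m + 1 : ℕ) : ℝ) * g i t ^ 2 - 2 * t * g i t * deriv (g i) t) *
          sliceVol M (u i) t :=
      Finset.sum_lt_sum (fun i _ => mul_le_mul_of_nonneg_left (hlt i).le (hc i))
        ⟨i₀, Finset.mem_univ _, mul_lt_mul_of_pos_left (hlt i₀) hi₀⟩
    rw [← Finset.sum_mul, hcn] at hlt2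
    exact (hlt2.trans_le hfish).false
  simp only [hfm, hfa, intervalIntegral.integral_div, intervalIntegral.integral_mul_const,
    (sliceGen_facts (by omega) hS (hu i) (hle i) hb).2.2.2.2.1, ← hV] at hi
  set W := ∫ t in (-1 : ℝ)..1, sliceVol M (u i) t ^ (((m : ℝ) - 1) / m)
  have hW : kap m * ballG m * V ^ (m - 1) ≤ W ^ m := by
    rw [mul_pow, div_pow, inv_pow, ← Real.rpow_natCast (kappa m ^ (((m : ℝ) - 1) / m)) m,
      ← Real.rpow_mul hκ.le, div_mul_cancel₀ _ (by positivity),
      show (m : ℝ) - 1 = ((m - 1 : ℕ) : ℝ) by rw [Nat.cast_sub (by omega)]; simp,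
      Real.rpow_natCast, ← div_eq_mul_inv, ← mul_div_assoc,
      div_le_div_iff_of_pos_right (by positivity)] at hi
    exact hi
  have h1 := sliceGen_bound pvProjSpec pvBasicSpec projBodySpec (by omega) hr hR hS (hu i) (hle i) hb
  have h2 := pv_proj_le_of_R_le H hn hS hmin' (hle i)
  rw [mul_one, ← hV] at h2
  have h3 : r * (kap m * ballG m * V ^ (m - 1)) ≤ vol (projBody M) / V :=
    (mul_le_mul_of_nonneg_left hW hr).trans (h1.trans h2)
  rw [le_div_iff₀ hV0] at h3
  have h4 : r * (kap m * ballG m) ≤ R M := by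
    rw [R, ← hV, Nat.add_sub_cancel, le_div_iff₀ (pow_pos hV0 m)]
    refine le_trans (le_of_eq ?_) h3
    have e : V ^ m = V ^ (m - 1) * V := by rw [← pow_succ]; congr 1; omega
    rw [e]
    ring
  have h5 := h4.trans (hRT ▸ hmin K hK)
  rwa [R, Nat.add_sub_cancel, le_div_iff₀ (pow_pos hK.vol_pos m)] at h5

lemma ballValue_nonneg (n : ℕ) : 0 ≤ ballValue n := by
  have := kappa_pos (n - 1)
  have := kappa_pos n
  rw [ballValue]
  positivity

/-- The bound with the explicit product of losses. -/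
theorem product_bound (hD : ConstOneDimSpec) (hk : ∀ m, 3 ≤ m → 0 < kap m) : ∀ n : ℕ, 3 ≤ n →
    ∀ K : Set (E n), Body K →
      (∏ m ∈ Finset.Ico 3 n, kap m) * ballValue n * vol K ^ (n - 1) ≤ vol (projBody K) := by
  intro n hn
  induction n, hn using Nat.le_induction with
  | base =>
    intro K hK
    rw [Finset.Ico_self, Finset.prod_empty, one_mul, ballValue_three]
    have := petty_ge hyps hK
    rwa [R, le_div_iff₀ (pow_pos hK.vol_pos _)] at this
  | succ n hn ih =>
    intro K hK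
    have hr : 0 ≤ (∏ m ∈ Finset.Ico 3 n, kap m) * ballValue n :=
      mul_nonneg (Finset.prod_nonneg fun m hm => (hk m (Finset.mem_Ico.1 hm).1).le)
        (ballValue_nonneg n)
    refine le_trans (le_of_eq ?_) (step hD hn (hk n hn) hr ih hK)
    rw [Nat.add_sub_cancel, Finset.prod_Ico_succ_top hn, ballValue_succ hn]
    ring

/-- Petty's inequality up to a universal constant. -/
theorem petty_constant (hD : ConstOneDimSpec) (hB : ConstBoundSpec) :
    ∃ c : ℝ, 0 < c ∧ ∀ n : ℕ, 3 ≤ n → ∀ K : Set (E n), Convex ℝ K → IsCompact K →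
      (interior K).Nonempty →
      c * ((volume (closedBall (0 : E (n - 1)) 1)).toReal ^ n *
          (volume (closedBall (0 : E n) 1)).toReal ^ (2 - (n : ℤ))) *
        (volume K).toReal ^ (n - 1) ≤ (volume (ProjectionBody K)).toReal := by
  obtain ⟨hk, c, hc, hprod⟩ := hB
  refine ⟨c, hc, fun n hn K h1 h2 h3 => ?_⟩
  have hK : Body K := ⟨h1, h2, h3⟩
  rw [projectionBody_eq hyps (by omega) hK]
  refine le_trans ?_ (product_bound hD hk n hn K hK)
  exact mul_le_mul_of_nonneg_right (mul_le_mul_of_nonneg_right (hprod n) (ballValue_nonneg n))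
    (pow_nonneg ENNReal.toReal_nonneg _)

end Constant

end Vale.Agent.P237
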