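import Mathlib

/-!
# P237 (Petty's projection-volume conjecture): common definitions

`pv K v` is the volume added to `K` by the segment `[0, v]`; for a unit vector `v` it equals the
volume of the orthogonal projection of `K` on `v^⊥` (`PvProjSpec`).  It is the support function
of the projection body.
-/

namespace Vale.Agent.P237

open MeasureTheory Set Filter Topology
open scoped Pointwise RealInnerProductSpace ENNReal

/-- Euclidean space of dimension `n`. -/
abbrev E (n : ℕ) := EuclideanSpace ℝ (Fin n)

/-- Real-valued Lebesgue volume. -/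
noncomputable def vol {n : ℕ} (K : Set (E n)) : ℝ := (volume K).toReal

/-- A convex body. -/
structure Body {n : ℕ} (K : Set (E n)) : Prop where
  convex : Convex ℝ K
  compact : IsCompact K
  interior_nonempty : (interior K).Nonempty

/-- An origin-symmetric convex body. -/
structure SymBody {n : ℕ} (K : Set (E n)) : Prop extends Body K where
  neg_mem : ∀ x ∈ K, -x ∈ K

/-- The volume added to `K` by the segment `[0, v]`. -/
noncomputable def pv {n : ℕ} (K : Set (E n)) (v : E n) : ℝ :=
  vol (K + segment ℝ 0 v) - vol K

/-- The orthogonal hyperplane to `u`. -/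
noncomputable abbrev Perp {n : ℕ} (u : E n) : Submodule ℝ (E n) := (ℝ ∙ u)ᗮ

/-- The `(n-1)`-dimensional volume of the orthogonal projection of `K` on `u^⊥`. -/
noncomputable def projVol {n : ℕ} (K : Set (E n)) (u : E n) : ℝ :=
  (volume ((Perp u).orthogonalProjectionOnto '' K)).toReal

/-- The `(n-1)`-dimensional volume of the section of `K` by `{x : ⟪x, u⟫ = t}` (`u` a unit vector). -/
noncomputable def sliceVol {n : ℕ} (K : Set (E n)) (u : E n) (t : ℝ) : ℝ :=
  (volume {y : Perp u | t • u + (y : E n) ∈ K}).toReal

/-- The projection body, in the form with support function `pv K`. -/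
noncomputable def projBody {n : ℕ} (K : Set (E n)) : Set (E n) := {y | ∀ v, ⟪y, v⟫ ≤ pv K v}

/-- The zonoid generated by the measure `μ`. -/
noncomputable def zon {n : ℕ} (μ : Measure (E n)) : Set (E n) :=
  {y | ∀ v, ⟪y, v⟫ ≤ (1 / 2) * ∫ w, |⟪v, w⟫| ∂μ}

/-- The normalized projection volume. -/
noncomputable def R {n : ℕ} (K : Set (E n)) : ℝ := vol (projBody K) / vol K ^ (n - 1)

end Vale.Agent.P237
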