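import Vale.Agent.P237.Spec
import Vale.Agent.P237.BrunnMinkowski
import Vale.Agent.P237.PerpCoord

/-!
# P237: sections of a symmetric body by parallel planes

Concavity of the square root of the section area (planar Brunn–Minkowski), symmetry, the lower
bound from the inscribed ball, and the two slicing identities.
-/

namespace Vale.Agent.P237

open MeasureTheory Set Metric
open scoped Pointwise RealInnerProductSpace ENNReal

variable {n : ℕ}

theorem slice_convex {K : Set (E n)} (hK : Convex ℝ K) (u : E n) {a b t s : ℝ} {y z : Perp u}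
    (hy : t • u + (y : E n) ∈ K) (hz : s • u + (z : E n) ∈ K) (ha : 0 ≤ a) (hb : 0 ≤ b)
    (hab : a + b = 1) :
    (a • t + b • s) • u + ((a • y + b • z : Perp u) : E n) ∈ K := by
  have h := hK hy hz ha hb hab
  have e : (a • t + b • s) • u + ((a • y + b • z : Perp u) : E n)
      = a • (t • u + (y : E n)) + b • (s • u + (z : E n)) := by
    push_cast
    simp only [smul_eq_mul, smul_add, add_smul, mul_smul]
    abel
  rw [e]
  exact h

theorem slice_isCompact {K : Set (E n)} (hK : IsCompact K) {u : E n} (hu : ‖u‖ = 1) (t : ℝ) :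
    IsCompact {y : Perp u | t • u + (y : E n) ∈ K} := by
  refine Metric.isCompact_of_isClosed_isBounded (hK.isClosed.preimage (by fun_prop)) ?_
  obtain ⟨r, hr⟩ := hK.isBounded.subset_closedBall 0
  refine (Metric.isBounded_closedBall (x := (0 : Perp u)) (r := r)).subset fun y hy => ?_
  have h1 := norm_sq_perpCoord hu (t, y)
  have h2 : ‖perpCoord u (t, y)‖ ≤ r := mem_closedBall_zero_iff.1 (hr hy)
  rw [mem_closedBall_zero_iff]
  nlinarith [norm_nonneg y, norm_nonneg (perpCoord u (t, y)), sq_nonneg t]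

theorem vol_smul_two {c : ℝ} (hc : 0 ≤ c) (X : Set (E 2)) :
    √(vol (c • X)) = c * √(vol X) := by
  unfold vol
  rw [Measure.addHaar_smul_of_nonneg volume hc, finrank_euclideanSpace_fin, ENNReal.toReal_mul,
    ENNReal.toReal_ofReal (by positivity), Real.sqrt_mul (by positivity), Real.sqrt_sq hc]

theorem concave_sqrt_sliceVol (hBM : BMSpec) {K : Set (E 3)} {u : E 3} (hK : IsCompact K)
    (hKc : Convex ℝ K) (hu : ‖u‖ = 1) (hball : closedBall 0 1 ⊆ K) :
    ConcaveOn ℝ (Icc (-1 : ℝ) 1) (fun t => √(sliceVol K u t)) := by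
  obtain ⟨e⟩ := exists_perpIso (n := 2) (u := u) hu
  set S : ℝ → Set (Perp u) := fun t => {y | t • u + (y : E 3) ∈ K} with hS
  have hvol : ∀ t, vol (e '' S t) = sliceVol K u t := fun t => by
    have := e.symm.measurePreserving.measure_preimage_emb
      e.symm.toHomeomorph.measurableEmbedding (S t)
    rw [vol, LinearIsometryEquiv.image_eq_preimage_symm, this]
    rfl
  have hne : ∀ t ∈ Icc (-1 : ℝ) 1, (S t).Nonempty := fun t ht => by
    refine ⟨0, hball ?_⟩
    rw [mem_closedBall_zero_iff, Submodule.coe_zero, add_zero, norm_smul, hu, mul_one,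
      Real.norm_eq_abs]
    exact abs_le.2 ⟨ht.1, ht.2⟩
  have hcs : ∀ t, Convex ℝ (S t) := fun t y hy z hz a b ha hb hab => by
    have h := slice_convex hKc u hy hz ha hb hab
    rwa [Convex.combo_self hab] at h
  refine ⟨convex_Icc _ _, fun x hx y hy a b ha hb hab => ?_⟩
  have hsub : a • (e '' S x) + b • (e '' S y) ⊆ e '' S (a • x + b • y) := by
    rintro _ ⟨_, ⟨_, ⟨p, hp, rfl⟩, rfl⟩, _, ⟨_, ⟨q, hq, rfl⟩, rfl⟩, rfl⟩
    exact ⟨a • p + b • q, slice_convex hKc u hp hq ha hb hab, by simp⟩
  have hcomp : ∀ t, IsCompact (e '' S t) := fun t => (slice_isCompact hK hu t).image e.continuous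
  have hconv : ∀ t, Convex ℝ (e '' S t) := fun t =>
    (hcs t).linear_image (e.toLinearEquiv : Perp u →ₗ[ℝ] E 2)
  have hbm := hBM 2 (a • (e '' S x)) (b • (e '' S y)) (by norm_num)
    ((hconv x).smul a) ((hcomp x).smul a) ((hne x hx).image _).smul_set
    ((hconv y).smul b) ((hcomp y).smul b) ((hne y hy).image _).smul_set
  simp only [Nat.cast_ofNat, ← Real.sqrt_eq_rpow, vol_smul_two ha, vol_smul_two hb, hvol] at hbm
  refine hbm.trans (Real.sqrt_le_sqrt ?_)
  rw [← hvol]
  exact ENNReal.toReal_mono (hcomp _).measure_lt_top.ne (measure_mono hsub)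

theorem sliceSpec_of (hBM : BMSpec) : SliceSpec := by
  intro K u hK hu h1 hball
  have hcpt := hK.compact
  have hlow : ∀ x ∈ K, -1 ≤ ⟪x, u⟫ := fun x hx => by
    have := h1 (-x) (hK.neg_mem x hx)
    rw [inner_neg_left] at this
    linarith
  have hzero : ∀ t, t ∉ Icc (-1 : ℝ) 1 → sliceVol K u t = 0 := fun t ht => by
    have : {y : Perp u | t • u + (y : E 3) ∈ K} = ∅ := by
      refine eq_empty_of_forall_notMem fun y hy => ht ?_
      have e : ⟪perpCoord u (t, y), u⟫ = t := inner_perpCoord hu (t, y)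
      have h2 := hlow (perpCoord u (t, y)) hy
      have h3 := h1 (perpCoord u (t, y)) hy
      rw [e] at h2 h3
      exact ⟨h2, h3⟩
    rw [sliceVol, this, measure_empty, ENNReal.toReal_zero]
  have hint : ∀ g : ℝ → ℝ, Continuous g →
      ∫ t in (-1 : ℝ)..1, g t * sliceVol K u t = ∫ x in K, g ⟪x, u⟫ := fun g hg => by
    rw [setIntegral_inner_eq hcpt hu hg, intervalIntegral.integral_of_le (by norm_num),
      ← integral_Icc_eq_integral_Ioc, setIntegral_eq_integral_of_forall_compl_eq_zero]
    intro t ht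
    rw [hzero t ht, mul_zero]
  refine ⟨concave_sqrt_sliceVol hBM hcpt hK.convex hu hball, fun t => ?_, fun t =>
    ENNReal.toReal_nonneg, fun t ht => ?_, ?_, hint (fun t => t ^ 2) (by fun_prop)⟩
  · have e : {y : Perp u | -t • u + (y : E 3) ∈ K} =
        -{y : Perp u | t • u + (y : E 3) ∈ K} := by
      ext y
      have hn : ∀ x : E 3, -x ∈ K ↔ x ∈ K :=
        fun x => ⟨fun h => neg_neg x ▸ hK.neg_mem _ h, hK.neg_mem x⟩
      simp only [Set.mem_neg, mem_setOf_eq, Submodule.coe_neg]
      rw [← hn (t • u + -(y : E 3)), neg_add, neg_neg, neg_smul]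
    rw [sliceVol, e, Measure.measure_neg, sliceVol]
  · have hsq : 0 ≤ 1 - t ^ 2 := by nlinarith [ht.1, ht.2]
    have hsub : closedBall (0 : Perp u) (√(1 - t ^ 2)) ⊆
        {y : Perp u | t • u + (y : E 3) ∈ K} := fun y hy => hball ?_
    · have hvol : volume (closedBall (0 : Perp u) (√(1 - t ^ 2))) =
          ENNReal.ofReal (Real.pi * (1 - t ^ 2)) := by
        haveI : Nontrivial (Perp u) :=
          Module.nontrivial_of_finrank_eq_succ (n := 1) (finrank_perp (n := 2) hu)
        rw [InnerProductSpace.volume_closedBall_of_dim_even (k := 1)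
            (by rw [finrank_perp (n := 2) hu]), finrank_perp (n := 2) hu,
          ← ENNReal.ofReal_pow (Real.sqrt_nonneg _), Real.sq_sqrt hsq,
          ← ENNReal.ofReal_mul hsq]
        congr 1
        simp [mul_comm]
      have := ENNReal.toReal_mono (slice_isCompact hcpt hu t).measure_lt_top.ne
        (measure_mono (μ := volume) hsub)
      rwa [hvol, ENNReal.toReal_ofReal (mul_nonneg Real.pi_pos.le hsq)] at this
    · rw [mem_closedBall_zero_iff] at hy ⊢
      have h2 := norm_sq_perpCoord hu (t, y)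
      have h3 : ‖perpCoord u (t, y)‖ ^ 2 ≤ 1 := by
        nlinarith [Real.sq_sqrt hsq, norm_nonneg y, Real.sqrt_nonneg (1 - t ^ 2)]
      change ‖perpCoord u (t, y)‖ ≤ 1
      nlinarith [norm_nonneg (perpCoord u (t, y))]
  · have := hint (fun _ => 1) continuous_const
    simpa [vol, Measure.real] using this

/-- The elementary facts about sections, unconditionally. -/
theorem sliceSpec : SliceSpec := sliceSpec_of bmSpec

end Vale.Agent.P237
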