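import Vale.Agent.P237.BrascampLieb
import Vale.Agent.P237.SliceBasic
import Vale.Agent.P237.SliceGen

/-!
# P237: a contact point with large slice entropy

Subadditivity of entropy from the geometric Brascamp-Lieb inequality, for the uniform law on a
symmetric body in John position.
-/

namespace Vale.Agent.P237

open MeasureTheory Set Filter Topology
open scoped RealInnerProductSpace ENNReal

/-- The entropy of the marginal density `sliceVol K u / vol K` on `[-1, 1]`. -/
noncomputable def sliceEntropy {n : ℕ} (K : Set (E n)) (u : E n) : ℝ :=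
  ∫ t in (-1 : ℝ)..1, Real.negMulLog (sliceVol K u t / vol K)

namespace EntropyContact

open SliceGen

lemma measurable_sliceVol {n : ℕ} {K : Set (E n)} (hK : IsCompact K) {u : E n} (hu : ‖u‖ = 1) :
    Measurable (sliceVol K u) :=
  (measurable_measure_prodMk_left
    (hK.isClosed.measurableSet.preimage (measurableEmbedding_perpCoord hu).measurable)).ennreal_toReal

/-- Slicing, for measurable functions of `⟪x, u⟫`. -/
lemma slice_integral {n : ℕ} {K : Set (E n)} {u : E n} (hK : IsCompact K) (hu : ‖u‖ = 1)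
    {g : ℝ → ℝ} (hg : Measurable g) (hgi : Integrable fun t => g t * sliceVol K u t) :
    IntegrableOn (fun x => g ⟪x, u⟫) K ∧ ∫ x in K, g ⟪x, u⟫ = ∫ t, g t * sliceVol K u t := by
  have hme := measurableEmbedding_perpCoord hu
  have hKm : MeasurableSet (perpCoord u ⁻¹' K) :=
    hK.isClosed.measurableSet.preimage hme.measurable
  have hm : ∀ t : ℝ, MeasurableSet {y : Perp u | t • u + (y : E n) ∈ K} := fun t =>
    hK.isClosed.measurableSet.preimage
      (by fun_prop : Measurable fun y : Perp u => t • u + (y : E n))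
  have hfin : ∀ t : ℝ, volume {y : Perp u | t • u + (y : E n) ∈ K} ≠ ⊤ := fun t =>
    (slice_isCompact hK hu t).measure_lt_top.ne
  have hI : Integrable ((perpCoord u ⁻¹' K).indicator fun p : ℝ × Perp u => g p.1) := by
    rw [Measure.volume_eq_prod, integrable_prod_iff
      (by exact ((hg.comp measurable_fst).indicator hKm).aestronglyMeasurable)]
    refine ⟨.of_forall fun t => ?_, hgi.norm.congr (.of_forall fun t => ?_)⟩
    · show Integrable (({y : Perp u | t • u + (y : E n) ∈ K}).indicator fun _ => g t)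
      rw [integrable_indicator_iff (hm t)]
      exact integrableOn_const (hfin t)
    · show ‖g t * sliceVol K u t‖ =
        ∫ y, ‖({y : Perp u | t • u + (y : E n) ∈ K}).indicator (fun _ => g t) y‖
      simp only [norm_indicator_eq_indicator_norm]
      rw [integral_indicator_const _ (hm t)]
      simp [sliceVol, Measure.real, abs_mul, mul_comm]
  have hg' : IntegrableOn (fun x => g ⟪x, u⟫) K := by
    refine ((measurePreserving_perpCoord hu).integrableOn_comp_preimage hme).1 ?_
    rw [← integrable_indicator_iff hKm]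
    simpa [Function.comp_def, inner_perpCoord hu] using hI
  refine ⟨hg', ?_⟩
  rw [← (measurePreserving_perpCoord hu).setIntegral_preimage_emb hme]
  simp only [inner_perpCoord hu]
  rw [← integral_indicator hKm, Measure.volume_eq_prod, integral_prod _ hI]
  refine integral_congr_ae (.of_forall fun t => ?_)
  show ∫ y, ({y : Perp u | t • u + (y : E n) ∈ K}).indicator (fun _ => g t) y = _
  rw [integral_indicator_const _ (hm t)]
  simp [sliceVol, Measure.real, mul_comm]

lemma abs_inner_lt {n : ℕ} {K : Set (E n)} (hK : SymBody K) {u : E n} (hu : ‖u‖ = 1)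
    (h1 : ∀ x ∈ K, ⟪x, u⟫ ≤ 1) {x : E n} (hx : x ∈ interior K) : ⟪x, u⟫ ∈ Ioo (-1 : ℝ) 1 := by
  obtain ⟨ε, hε, hb⟩ := Metric.isOpen_iff.1 isOpen_interior x hx
  have hmem : ∀ s : ℝ, |s| < ε → x + s • u ∈ K := fun s hs => interior_subset (hb (by
    simp [Metric.mem_ball, dist_eq_norm, norm_smul, hu, hs]))
  have e : ⟪u, u⟫ = (1 : ℝ) := by rw [real_inner_self_eq_norm_sq, hu, one_pow]
  have a := h1 _ (hmem (ε / 2) (by rw [abs_of_pos (by linarith)]; linarith))
  have b := h1 _ (hK.neg_mem _ (hmem (-(ε / 2)) (by rw [abs_neg, abs_of_pos (by linarith)]; linarith)))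
  rw [inner_add_left, real_inner_smul_left, e] at a
  rw [inner_neg_left, inner_add_left, real_inner_smul_left, e] at b
  constructor <;> linarith

lemma sum_weights {n N : ℕ} {u : Fin N → E n} {c : Fin N → ℝ} (hu : ∀ i, ‖u i‖ = 1)
    (hsum : ∀ x : E n, ∑ i, c i * ⟪x, u i⟫ ^ 2 = ‖x‖ ^ 2) : ∑ i, c i = n := by
  set e := EuclideanSpace.basisFun (Fin n) ℝ
  have h1 : ∀ i, ∑ k, ⟪e k, u i⟫ ^ 2 = 1 := fun i => by
    have := e.sum_sq_norm_inner_right (u i)
    simpa only [Real.norm_eq_abs, sq_abs, hu i, one_pow] using this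
  calc ∑ i, c i = ∑ i, ∑ k, c i * ⟪e k, u i⟫ ^ 2 := by simp [← Finset.mul_sum, h1]
    _ = n := by rw [Finset.sum_comm]; simp [hsum]

end EntropyContact

open SliceGen EntropyContact in
/-- In John position, `log vol K` is at most the weighted sum of the slice entropies. -/
theorem log_vol_le_sum_sliceEntropy {m : ℕ} (hm : 2 ≤ m) {K : Set (E (m + 1))} (hK : SymBody K)
    (hb : Metric.closedBall 0 1 ⊆ K) {N : ℕ} (u : Fin N → E (m + 1)) (c : Fin N → ℝ)
    (hc : ∀ i, 0 ≤ c i) (hu : ∀ i, ‖u i‖ = 1) (h1 : ∀ i, ∀ x ∈ K, ⟪x, u i⟫ ≤ 1)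
    (hsum : ∀ x : E (m + 1), ∑ i, c i * ⟪x, u i⟫ ^ 2 = ‖x‖ ^ 2) :
    Real.log (vol K) ≤ ∑ i, c i * sliceEntropy K (u i) := by
  have hV : 0 < vol K := ENNReal.toReal_pos
    (Measure.measure_pos_of_nonempty_interior volume hK.interior_nonempty).ne'
    hK.compact.measure_lt_top.ne
  set V := vol K with hVdef
  set p : Fin N → ℝ → ℝ := fun i t => sliceVol K (u i) t / V with hp
  have hadm : ∀ i, Adm K (u i) := fun i => ⟨hK, hu i, h1 i, hb⟩
  have hfacts := fun i => sliceGen_facts hm hK (hu i) (h1 i) hb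
  have hball : 0 < vol (Metric.closedBall (0 : E m) 1) := ENNReal.toReal_pos
    (Metric.measure_closedBall_pos volume 0 one_pos).ne'
    (isCompact_closedBall (0 : E m) 1).measure_lt_top.ne
  have hpos : ∀ i, ∀ t ∈ Ioo (-1 : ℝ) 1, 0 < sliceVol K (u i) t := fun i t ht =>
    (mul_pos hball (pow_pos (Real.sqrt_pos.2 (by nlinarith [ht.1, ht.2])) m)).trans_le
      ((hfacts i).2.2.2.1 t (Ioo_subset_Icc_self ht))
  have hcont : ∀ i, ContinuousOn (p i) (Ioo (-1 : ℝ) 1) := fun i => by
    have h2 := (((hfacts i).1.subset Ioo_subset_Icc_self (convex_Ioo _ _)).continuousOn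
      isOpen_Ioo).pow m
    refine (h2.congr fun t _ => ?_).div_const V
    show sliceVol K (u i) t = (sliceVol K (u i) t ^ (1 / (m : ℝ))) ^ m
    rw [one_div, Real.rpow_inv_natCast_pow ((hfacts i).2.2.1 t) (by omega)]
  have hint : ∀ i, Integrable (p i) := fun i =>
    (integrable_sliceVol hK.compact (hu i)).div_const V
  have hmass : ∀ i, ∫ t in Ioo (-1 : ℝ) 1, p i t = 1 := fun i => by
    rw [integral_div, ← integral_Ioc_eq_integral_Ioo,
      ← intervalIntegral.integral_of_le (by norm_num), (hfacts i).2.2.2.2.1, div_self hV.ne']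
  have hmeas : ∀ i, Measurable (p i) := fun i =>
    (measurable_sliceVol hK.compact (hu i)).div_const V
  have hbd : ∀ i t, p i t ∈ Icc 0 (sliceVol K (u i) 0 / V) := fun i t => by
    refine ⟨div_nonneg ENNReal.toReal_nonneg hV.le, div_le_div_of_nonneg_right ?_ hV.le⟩
    by_cases ht : t ∈ Icc (-1 : ℝ) 1
    · have ht' : -t ∈ Icc (-1 : ℝ) 1 := ⟨by linarith [ht.2], by linarith [ht.1]⟩
      have h := (hfacts i).1.2 ht ht' (by norm_num : (0 : ℝ) ≤ 1 / 2) (by norm_num : (0 : ℝ) ≤ 1 / 2)
        (by norm_num)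
      simp only [smul_eq_mul] at h
      rw [(hfacts i).2.1, ← add_mul, show (1 / 2 : ℝ) + 1 / 2 = 1 by norm_num, one_mul,
        show 1 / 2 * t + 1 / 2 * -t = (0 : ℝ) by ring] at h
      exact (Real.rpow_le_rpow_iff ((hfacts i).2.2.1 t) ((hfacts i).2.2.1 0) (by positivity)).1 h
    · rw [sliceVol_eq_zero (hadm i) ht]; exact ENNReal.toReal_nonneg
  have hnm : ∀ i, Integrable fun t => Real.log (p i t) * sliceVol K (u i) t := fun i => by
    obtain ⟨M, hM⟩ := (isCompact_Icc (a := (0 : ℝ)) (b := sliceVol K (u i) 0 / V))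
      |>.exists_bound_of_continuousOn Real.continuous_negMulLog.continuousOn
    have hin : IntegrableOn (fun t => -V * Real.negMulLog (p i t)) (Icc (-1 : ℝ) 1) :=
      (Measure.integrableOn_of_bounded measure_Icc_lt_top.ne
        (Real.continuous_negMulLog.measurable.comp (hmeas i)).aestronglyMeasurable
        (ae_of_all _ fun t => hM _ (hbd i t))).const_mul _
    have := hin.integrable_of_forall_notMem_eq_zero fun t ht => by
      simp [hp, sliceVol_eq_zero (hadm i) ht]
    refine this.congr (.of_forall fun t => ?_)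
    simp [hp, Real.negMulLog]
    field_simp
  have hlog : ∀ i, IntegrableOn (fun x => Real.log (p i ⟪x, u i⟫)) K ∧
      ∫ x in K, Real.log (p i ⟪x, u i⟫) = ∫ t, Real.log (p i t) * sliceVol K (u i) t := fun i =>
    slice_integral hK.compact (hu i) (g := fun t => Real.log (p i t))
      (Real.measurable_log.comp (hmeas i)) (hnm i)
  have hsl : ∀ i, ∫ x in K, Real.log (p i ⟪x, u i⟫) = -V * sliceEntropy K (u i) := fun i => by
    refine (hlog i).2.trans ?_
    rw [sliceEntropy, intervalIntegral.integral_of_le (by norm_num),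
      ← integral_Icc_eq_integral_Ioc, ← integral_const_mul,
      setIntegral_eq_integral_of_forall_compl_eq_zero fun t ht => by
        simp [sliceVol_eq_zero (hadm i) ht]]
    refine integral_congr_ae (.of_forall fun t => ?_)
    have : V ≠ 0 := hV.ne'
    simp [hp, Real.negMulLog]
    rw [← hVdef]
    field_simp
  set P : E (m + 1) → ℝ := fun x => ∏ i, p i ⟪x, u i⟫ ^ c i with hP
  have hP0 : ∀ x, 0 ≤ P x := fun x => Finset.prod_nonneg fun i _ => Real.rpow_nonneg (hbd i _).1 _
  have hPm : Measurable P := Finset.measurable_prod _ fun i _ =>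
    ((hmeas i).comp (measurable_id.inner measurable_const)).pow_const _
  have hPi : IntegrableOn P K := Measure.integrableOn_of_bounded hK.compact.measure_lt_top.ne
    hPm.aestronglyMeasurable (M := ∏ i, (sliceVol K (u i) 0 / V) ^ c i) (ae_of_all _ fun x => by
      rw [Real.norm_of_nonneg (hP0 x)]
      exact Finset.prod_le_prod (fun i _ => Real.rpow_nonneg (hbd i _).1 _)
        fun i _ => Real.rpow_le_rpow (hbd i _).1 (hbd i _).2 (hc i))
  have hBL := geometric_brascamp_lieb u c hc hu hsum (fun _ => (-1 : ℝ)) (fun _ => 1) p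
    (fun _ => by norm_num) hcont (fun i t ht => div_pos (hpos i t ht) hV)
    (fun i => (hint i).integrableOn)
  simp only [hmass, Real.one_rpow, Finset.prod_const_one, ENNReal.ofReal_one] at hBL
  have hnull : volume (frontier K) = 0 := hK.convex.addHaar_frontier volume
  have hae : ∀ᵐ x ∂volume.restrict K, ∀ i, ⟪x, u i⟫ ∈ Ioo (-1 : ℝ) 1 := by
    rw [ae_restrict_iff' hK.compact.isClosed.measurableSet]
    filter_upwards [measure_eq_zero_iff_ae_notMem.1 hnull] with x hx hxK i
    refine abs_inner_lt hK (hu i) (h1 i) ?_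
    by_contra h
    exact hx ⟨subset_closure hxK, h⟩
  have hP1 : ∫ x in K, P x ≤ 1 := by
    rw [integral_eq_lintegral_of_nonneg_ae (ae_of_all _ hP0) hPm.aestronglyMeasurable]
    refine ENNReal.toReal_le_of_le_ofReal zero_le_one ?_
    rw [ENNReal.ofReal_one]
    refine le_trans ?_ hBL
    exact lintegral_mono' (Measure.restrict_mono_ae (((ae_restrict_iff'
      hK.compact.isClosed.measurableSet).1 hae).mono fun x hx => hx)) le_rfl
  have hpt : ∀ᵐ x ∂volume.restrict K,
      Real.log V + ∑ i, c i * Real.log (p i ⟪x, u i⟫) ≤ V * P x - 1 := by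
    filter_upwards [hae] with x hx
    have hpp : ∀ i, 0 < p i ⟪x, u i⟫ := fun i => div_pos (hpos i _ (hx i)) hV
    have hPp : 0 < P x := Finset.prod_pos fun i _ => Real.rpow_pos_of_pos (hpp i) _
    have := Real.log_le_sub_one_of_pos (mul_pos hV hPp)
    rw [Real.log_mul hV.ne' hPp.ne', Real.log_prod (fun i _ => (Real.rpow_pos_of_pos (hpp i) _).ne')]
      at this
    simpa [Real.log_rpow (hpp _)] using this
  have hs : IntegrableOn (fun x => ∑ i, c i * Real.log (p i ⟪x, u i⟫)) K :=
    integrable_finsetSum _ fun i _ => ((hlog i).1).const_mul (c i)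
  have hconst : ∀ r : ℝ, IntegrableOn (fun _ : E (m + 1) => r) K := fun r =>
    integrableOn_const hK.compact.measure_lt_top.ne
  have hfinal : ∫ x in K, (Real.log V + ∑ i, c i * Real.log (p i ⟪x, u i⟫)) ≤
      ∫ x in K, (V * P x - 1) :=
    integral_mono_ae ((hconst (Real.log V)).add hs) ((hPi.const_mul V).sub (hconst 1)) hpt
  rw [integral_add (hconst (Real.log V)) hs, integral_sub (hPi.const_mul V) (hconst 1),
    integral_const_mul, integral_finsetSum _ (fun i _ =>
      ((hlog i).1.integrable.const_mul (c i) : Integrable (fun x => c i * Real.log (p i ⟪x, u i⟫))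
        (volume.restrict K)))] at hfinal
  simp only [integral_const_mul, hsl, setIntegral_const, smul_eq_mul, mul_one] at hfinal
  rw [show volume.real K = V from rfl] at hfinal
  have e : ∑ i, c i * (-V * sliceEntropy K (u i)) = -V * ∑ i, c i * sliceEntropy K (u i) := by
    rw [Finset.mul_sum]; exact Finset.sum_congr rfl fun i _ => by ring
  rw [e] at hfinal
  nlinarith

/-- Some contact point has slice entropy at least `log vol K / n`. -/
theorem exists_sliceEntropy_ge {m : ℕ} (hm : 2 ≤ m) {K : Set (E (m + 1))} (hK : SymBody K)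
    (hb : Metric.closedBall 0 1 ⊆ K) {N : ℕ} (u : Fin N → E (m + 1)) (c : Fin N → ℝ)
    (hc : ∀ i, 0 ≤ c i) (hu : ∀ i, ‖u i‖ = 1) (h1 : ∀ i, ∀ x ∈ K, ⟪x, u i⟫ ≤ 1)
    (hsum : ∀ x : E (m + 1), ∑ i, c i * ⟪x, u i⟫ ^ 2 = ‖x‖ ^ 2) :
    ∃ i, Real.log (vol K) / (m + 1 : ℕ) ≤ sliceEntropy K (u i) := by
  have h := log_vol_le_sum_sliceEntropy hm hK hb u c hc hu h1 hsum
  have hw := EntropyContact.sum_weights hu hsum
  by_contra hne
  push Not at hne
  obtain ⟨i, -, hi⟩ : ∃ i ∈ (Finset.univ : Finset (Fin N)), 0 < c i := by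
    refine Finset.exists_lt_of_sum_lt ?_
    simp [hw]
    positivity
  have : ∑ i, c i * sliceEntropy K (u i) < ∑ i, c i * (Real.log (vol K) / (m + 1 : ℕ)) :=
    Finset.sum_lt_sum (fun j _ => mul_le_mul_of_nonneg_left (hne j).le (hc j))
      ⟨i, Finset.mem_univ i, mul_lt_mul_of_pos_left (hne i) hi⟩
  rw [← Finset.sum_mul, hw, mul_div_cancel₀ _ (by positivity)] at this
  linarith

end Vale.Agent.P237
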