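import Mathlib

/-!
# P237, module G: the certificate for the key two-variable inequality

`key_ineq` is the positivity needed for the monotonicity of the tangent homotopy in `OneDim.lean`.
It is certified on dyadic boxes in the variables `(s, r)` by nonnegativity of Bernstein
coefficients; all arithmetic is on integers and is checked by the kernel.
-/

namespace Vale.Agent.P237

namespace OneDimCert

open Real

/-- Value of a polynomial given by its coefficient list. -/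
def pev (x : ℝ) : List ℤ → ℝ
  | [] => 0
  | a :: t => a + x * pev x t

/-- Value of a homogeneous polynomial given by its coefficient list. -/
def hev (v u : ℝ) : List ℤ → ℝ
  | [] => 0
  | a :: t => a * v ^ t.length + u * hev v u t

/-- Multiplication by the linear form `A v + B u`, with an extra leading term. -/
def ml (A B : ℤ) : ℤ → List ℤ → List ℤ
  | c, [] => [c]
  | c, a :: t => (c + A * a) :: ml A B (B * a) t

lemma ml_length (A B : ℤ) : ∀ (c : ℤ) (l : List ℤ), (ml A B c l).length = l.length + 1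
  | c, [] => rfl
  | c, a :: t => by simp [ml, ml_length A B (B * a) t]

lemma hev_ml (A B : ℤ) (v u : ℝ) : ∀ (c : ℤ) (l : List ℤ),
    hev v u (ml A B c l) = c * v ^ l.length + (A * v + B * u) * hev v u l
  | c, [] => by simp [ml, hev]
  | c, a :: t => by
    simp only [ml, hev, ml_length, hev_ml A B v u (B * a) t, List.length_cons, Int.cast_add,
      Int.cast_mul, pow_succ]
    ring

/-- `(v + u) ^ n`. -/
def binrow : ℕ → List ℤ
  | 0 => [1]
  | n + 1 => ml 1 1 0 (binrow n)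

lemma binrow_length : ∀ n, (binrow n).length = n + 1
  | 0 => rfl
  | n + 1 => by simp [binrow, ml_length, binrow_length n]

lemma hev_binrow (v u : ℝ) : ∀ n, hev v u (binrow n) = (v + u) ^ n
  | 0 => by simp [binrow, hev]
  | n + 1 => by
    simp only [binrow, hev_ml, hev_binrow v u n, Int.cast_zero, Int.cast_one, pow_succ]
    ring

lemma hev_zip (v u : ℝ) (c : ℤ) : ∀ l m : List ℤ, l.length = m.length →
    hev v u (List.zipWith (fun x y => c * x + y) l m) = c * hev v u l + hev v u m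
  | [], [], _ => by simp [hev]
  | a :: l, b :: m, h => by
    simp only [List.length_cons, Nat.add_right_cancel_iff] at h
    simp only [List.zipWith_cons_cons, hev, hev_zip v u c l m h, List.length_zipWith, h,
      min_self, Int.cast_add, Int.cast_mul]
    ring

/-- Bernstein coefficients of `D ^ n * p (x)` on `[A / D, B / D]`. -/
def tr (A B D : ℤ) : List ℤ → List ℤ
  | [] => []
  | a :: t => List.zipWith (fun x y => a * D ^ t.length * x + y) (binrow t.length)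
      (ml A B 0 (tr A B D t))

lemma tr_length (A B D : ℤ) : ∀ p, (tr A B D p).length = p.length
  | [] => rfl
  | a :: t => by simp [tr, binrow_length, ml_length, tr_length A B D t]

lemma hev_tr {A B D : ℤ} {v u x : ℝ} (hvu : v + u = 1) (hx : (A * v + B * u : ℝ) = D * x) :
    ∀ p, hev v u (tr A B D p) * D = (D : ℝ) ^ p.length * pev x p
  | [] => by simp [tr, hev, pev]
  | a :: t => by
    simp only [tr]
    rw [hev_zip _ _ _ _ _ (by simp [binrow_length, ml_length, tr_length]), hev_binrow, hvu, one_pow,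
      hev_ml, hx, add_mul, Int.cast_zero, zero_mul, zero_add, mul_assoc ((D : ℝ) * x), hev_tr hvu hx t,
      List.length_cons, pow_succ, pev]
    push_cast
    ring

lemma hev_nonneg {v u : ℝ} (hv : 0 ≤ v) (hu : 0 ≤ u) :
    ∀ l : List ℤ, (l.all (0 ≤ ·)) = true → 0 ≤ hev v u l
  | [], _ => le_rfl
  | a :: t, h => by
    simp only [List.all_cons, Bool.and_eq_true, decide_eq_true_eq] at h
    exact add_nonneg (mul_nonneg (by exact_mod_cast h.1) (pow_nonneg hv _))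
      (mul_nonneg hu (hev_nonneg hv hu t h.2))

lemma pev_nonneg {A B D : ℤ} (hAB : A < B) (hD : 0 < D) {x : ℝ} (hA : (A : ℝ) ≤ D * x)
    (hB : D * x ≤ (B : ℝ)) (p : List ℤ) (h : ((tr A B D p).all (0 ≤ ·)) = true) : 0 ≤ pev x p := by
  have hw : (0 : ℝ) < B - A := by exact_mod_cast sub_pos.2 hAB
  have hv : 0 ≤ (B - D * x) / ((B : ℝ) - A) := div_nonneg (by linarith) hw.le
  have hu : 0 ≤ (D * x - A) / ((B : ℝ) - A) := div_nonneg (by linarith) hw.le
  have := hev_tr (A := A) (B := B) (D := D) (v := (B - D * x) / ((B : ℝ) - A))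
    (u := (D * x - A) / ((B : ℝ) - A)) (x := x) (by field_simp; ring) (by field_simp; ring) p
  have hD' : (0 : ℝ) < D := by exact_mod_cast hD
  exact nonneg_of_mul_nonneg_right (this ▸ mul_nonneg (hev_nonneg hv hu _ h) hD'.le) (pow_pos hD' _)

/-- Four rows of Bernstein coefficients, transformed in the second variable. -/
def chk4 (A B D : ℤ) : List ℤ → List ℤ → List ℤ → List ℤ → Bool
  | a :: l0, b :: l1, c :: l2, d :: l3 =>
      (tr A B D [a, b, c, d]).all (0 ≤ ·) && chk4 A B D l0 l1 l2 l3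
  | [], [], [], [] => true
  | _, _, _, _ => false

lemma chk4_nonneg {A B D : ℤ} (hAB : A < B) (hD : 0 < D) {r : ℝ} (hA : (A : ℝ) ≤ D * r)
    (hB : D * r ≤ (B : ℝ)) {v u : ℝ} (hv : 0 ≤ v) (hu : 0 ≤ u) :
    ∀ l0 l1 l2 l3 : List ℤ, chk4 A B D l0 l1 l2 l3 = true →
      0 ≤ hev v u l0 + r * hev v u l1 + r ^ 2 * hev v u l2 + r ^ 3 * hev v u l3 ∧
      l1.length = l0.length ∧ l2.length = l0.length ∧ l3.length = l0.length
  | a :: l0, b :: l1, c :: l2, d :: l3, h => by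
    simp only [chk4, Bool.and_eq_true] at h
    obtain ⟨h0, e1, e2, e3⟩ := chk4_nonneg hAB hD hA hB hv hu l0 l1 l2 l3 h.2
    have h4 : 0 ≤ pev r [a, b, c, d] := pev_nonneg hAB hD hA hB _ h.1
    refine ⟨?_, by simp [e1], by simp [e2], by simp [e3]⟩
    simp only [pev, mul_zero, add_zero] at h4
    simp only [hev, e1, e2, e3]
    nlinarith [mul_nonneg h4 (pow_nonneg hv l0.length), mul_nonneg hu h0]
  | [], [], [], [], _ => by simp [hev]

/-- Integer square roots: `sqTab k` is at most `10 ^ 5 * √(1 - (k / 100) ^ 2)`. -/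
def sqTab : List ℤ :=
  [100000, 99994, 99979, 99954, 99919, 99874, 99819, 99754, 99679, 99594,
   99498, 99393, 99277, 99151, 99015, 98868, 98711, 98544, 98366, 98178,
   97979, 97770, 97549, 97319, 97077, 96824, 96560, 96286, 96000, 95702,
   95393, 95073, 94741, 94398, 94042, 93674, 93295, 92903, 92498, 92081,
   91651, 91208, 90752, 90282, 89799, 89302, 88791, 88266, 87726, 87172,
   86602, 86017, 85416, 84799, 84166, 83516, 82849, 82164, 81461, 80740,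
   80000, 79240, 78460, 77659, 76837, 75993, 75126, 74236, 73321, 72380,
   71414, 70420, 69397, 68344, 67260, 66143, 64992, 63804, 62577, 61310,
   60000, 58642, 57236, 55776, 54258, 52678, 51029, 49305, 47497, 45596,
   43588, 41460, 39191, 36755, 34117, 31224, 28000, 24310, 19899, 14106,
   0]

/-- Trapezoidal sums: `trap k` is at most `2 * 10 ^ 7 * ∫_0^(k/100) √(1 - x²)`. -/
def trap : ℕ → ℤ
  | 0 => 0
  | k + 1 => trap k + sqTab.getD k 0 + sqTab.getD (k + 1) 0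

/-- Lower bound for `10 ^ 6 * ∫_0^(k/100) √(1 - x²)`. -/
def ktab (k : ℕ) : ℤ := trap k / 20

/-- The rows (powers of `r`) of the polynomial to be certified. -/
def rows (al be : ℤ) (ke ks qn m7 m1 : ℕ) : List ℤ × List ℤ × List ℤ × List ℤ :=
  let c0 : ℤ := 30 * qn * al
  let c1 : ℤ := 30 * qn * be
  let c2 : ℤ := 6 * qn * (ktab ke + ktab ks) - 300 * ks * qn * qn
  let c3 : ℤ := -(60000 * qn * ke)
  let c4 : ℤ := -(3000000 * ks)
  let c5 : ℤ := 2 * qn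
  let c6 : ℤ := -(15000 * qn * m7)
  let c7 : ℤ := -(60000 * qn * m1)
  ([c2 + c4 + 7 * c6 + c7, 2 * c0 + c3 - 4175850 * c5 - 4 * c6, -c4, 2 * c1 + 2100000 * c5,
      0, 0, 0],
   [2 * c0 + c3 - 2783900 * c5 - 4 * c6, -c7, -2 * c0 + 2 * c1 - c3 + 6983900 * c5 + 4 * c6, 0,
      -2 * c1 - 4200000 * c5, 0, 0],
   [0, -c0 + 2100000 * c5, 0, c0 - c1 - 5250000 * c5, 0, c1 + 3150000 * c5, 0],
   [0, 0, -840000 * c5, 0, 1680000 * c5, 0, -840000 * c5])

/-- Partition trees with certificate parameters at the leaves. -/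
inductive Tree where
  | leaf (al be : ℤ) (ke ks qn m7 m1 : ℕ)
  | outT
  | outY
  | sS (l r : Tree)
  | sR (l r : Tree)

/-- `(al + be x) / 10 ^ 5 ≤ √(1 - x)` at `x = (A / 1024) ^ 2`. -/
def chordOk (al be A : ℤ) : Bool :=
  A ^ 2 ≤ 1048576 && (al * 1048576 + be * A ^ 2 ≤ 0 ||
    (al * 1048576 + be * A ^ 2) ^ 2 ≤ 10000000000 * 1048576 * (1048576 - A ^ 2))

/-- The checker; a box is `[A / 1024, B / 1024] × [A' / 1024, B' / 1024]`. -/
def check : Tree → ℤ → ℤ → ℤ → ℤ → Bool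
  | .leaf al be ke ks qn m7 m1, A, B, A', B' =>
      A < B && A' < B' && 0 ≤ A && 0 < qn && ke ≤ 100 && ks ≤ 100 && chordOk al be A &&
      chordOk al be B &&
      (let p := rows al be ke ks qn m7 m1
       chk4 A' B' 1024 (tr A B 1024 p.1) (tr A B 1024 p.2.1) (tr A B 1024 p.2.2.1)
         (tr A B 1024 p.2.2.2))
  | .outT, A, _, A', _ => 1048576 < A * A' && 0 ≤ A && 0 ≤ A'
  | .outY, A, B, A', _ => 7 * 1073741824 < 4 * (A * 1048576 + (1048576 - A ^ 2) * A') &&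
      7 * 1073741824 < 4 * (B * 1048576 + (1048576 - B ^ 2) * A') && 0 ≤ A' && A ≤ B &&
      0 ≤ A && B ≤ 1024
  | .sS l r, A, B, A', B' => check l A ((A + B) / 2) A' B' && check r ((A + B) / 2) B A' B'
  | .sR l r, A, B, A', B' => check l A B A' ((A' + B') / 2) && check r A B ((A' + B') / 2) B'

/-- The certificate. -/
def cert : Tree :=
  .sS
  (.sR
  (.sR
  (.sR
  (.sS
  (.leaf 100000 (-50807) 93 12 99 0 0)
  (.sS
  (.leaf 100122 (-52763) 84 31 95 0 0)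
  (.sR
  (.leaf 100545 (-55771) 84 44 90 0 0)
  (.leaf 100545 (-55771) 67 44 90 0 0))))
  (.sR
  (.sS
  (.sS
  (.leaf 100000 (-50197) 73 6 100 0 0)
  (.leaf 100012 (-51010) 61 19 98 0 0))
  (.sS
  (.sR
  (.leaf 100122 (-52763) 57 31 95 0 0)
  (.sR
  (.leaf 100122 (-52763) 43 31 95 0 0)
  (.leaf 100122 (-52763) 28 31 95 0 0)))
  (.sR
  (.sR
  (.leaf 100545 (-55771) 50 44 90 0 0)
  (.sS
  (.leaf 100402 (-54758) 43 41 91 0 0)
  (.sS
  (.leaf 100659 (-56100) 38 45 89 0 0)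
  (.sR
  (.leaf 100893 (-57164) 38 48 87 0 0)
  (.leaf 100893 (-57164) 31 48 87 0 0)))))
  (.sS
  (.leaf 100402 (-54758) 20 41 91 0 0)
  (.sR
  (.leaf 100765 (-56650) 19 47 88 0 0)
  (.leaf 100765 (-56650) 0 47 88 0 0))))))
  (.leaf 100000 (-53590) 0 25 97 0 0)))
  (.sS
  (.leaf 100000 (-50807) 0 12 99 0 0)
  (.leaf 100231 (-54518) 0 38 93 5 0)))
  (.outY))
  (.sS
  (.sR
  (.sR
  (.sR
  (.sS
  (.sR
  (.leaf 101785 (-60730) 76 56 83 0 0)
  (.sR
  (.leaf 101785 (-60730) 63 56 83 0 0)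
  (.sS
  (.leaf 101370 (-59073) 53 53 85 0 0)
  (.leaf 102363 (-62212) 48 59 80 0 0))))
  (.sR
  (.leaf 105150 (-69346) 66 69 73 0 0)
  (.leaf 105150 (-69346) 47 69 73 0 0)))
  (.sR
  (.sS
  (.sS
  (.sR
  (.sR
  (.leaf 101370 (-59073) 41 53 85 0 0)
  (.leaf 101370 (-59073) 29 53 85 0 0))
  (.sR
  (.sR
  (.sS
  (.leaf 101194 (-58369) 17 52 86 0 0)
  (.leaf 101580 (-59737) 9 55 84 0 0))
  (.leaf 101370 (-59073) 0 53 85 0 0))
  (.leaf 101370 (-59073) 0 53 85 0 0)))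
  (.sR
  (.leaf 102363 (-62212) 29 59 80 0 0)
  (.leaf 102363 (-62212) 0 59 80 0 0)))
  (.sS
  (.sR
  (.leaf 103986 (-66366) 22 66 75 0 0)
  (.leaf 103986 (-66366) 0 66 75 0 0))
  (.leaf 106680 (-72066) 0 72 70 0 0)))
  (.leaf 102969 (-65469) 0 62 78 0 0)))
  (.sS
  (.sR
  (.leaf 101785 (-60730) 0 56 83 0 0)
  (.sS
  (.sR
  (.leaf 101370 (-59073) 0 53 85 0 0)
  (.outY))
  (.sR
  (.sR
  (.leaf 102363 (-62212) 0 59 80 0 0)
  (.sS
  (.sR
  (.leaf 102074 (-61296) 0 58 82 0 0)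
  (.sR
  (.leaf 102074 (-61296) 0 58 82 0 20)
  (.sS
  (.sS
  (.leaf 101876 (-60672) 0 57 82 0 0)
  (.sR
  (.leaf 102007 (-61074) 0 57 82 0 0)
  (.sR
  (.leaf 102007 (-61074) 0 57 82 0 20)
  (.leaf 102007 (-61074) 0 57 82 0 50))))
  (.leaf 102218 (-61706) 0 59 81 0 50))))
  (.sS
  (.sR
  (.leaf 102532 (-62597) 0 60 80 0 20)
  (.outT))
  (.leaf 102887 (-63553) 0 62 79 0 50))))
  (.sS
  (.sS
  (.leaf 101940 (-60874) 0 57 82 20 50)
  (.outT))
  (.outT)))))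
  (.sR
  (.leaf 105150 (-69346) 0 69 73 0 5)
  (.sS
  (.sR
  (.sR
  (.leaf 103986 (-66366) 0 66 75 0 20)
  (.outT))
  (.outT))
  (.outT)))))
  (.sS
  (.outY)
  (.outT)))
  (.sS
  (.sR
  (.sR
  (.sR
  (.leaf 115246 (-87294) 44 81 58 0 0)
  (.leaf 115246 (-87294) 0 81 58 0 0))
  (.sR
  (.leaf 115246 (-87294) 0 81 58 0 10)
  (.outT)))
  (.outT))
  (.sS
  (.sR
  (.sR
  (.leaf 140422 (-120177) 9 91 42 0 0)
  (.leaf 140422 (-120177) 0 91 42 0 20))
  (.outT))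
  (.sS
  (.sR
  (.sR
  (.leaf 182260 (-167779) 5 95 30 0 0)
  (.leaf 182260 (-167779) 0 95 30 0 5))
  (.outT))
  (.sR
  (.leaf 403162 (-403163) 0 98 18 0 0)
  (.outT))))))

lemma cert_ok : check cert 0 1024 0 4096 = true := by decide +kernel

/-- Validity of one table entry. -/
def sqOk (k : ℕ) (z : ℤ) : Bool := 0 ≤ z && z ^ 2 ≤ 1000000 * (10000 - (k : ℤ) ^ 2)

lemma sqTab_ok : ((List.range 101).all fun k => sqOk k (sqTab.getD k 0)) = true := by
  decide +kernel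

lemma chord_le {a b x p q : ℝ} (hax : a ≤ x) (hxb : x ≤ b) (hab : a < b)
    (hp : p ≤ √(1 - a ^ 2)) (hq : q ≤ √(1 - b ^ 2)) (ha : a ^ 2 ≤ 1) (hb : b ^ 2 ≤ 1) :
    ((b - x) * p + (x - a) * q) / (b - a) ≤ √(1 - x ^ 2) := by
  have hw : 0 < b - a := sub_pos.2 hab
  have hP := sq_sqrt (sub_nonneg.2 ha)
  have hQ := sq_sqrt (sub_nonneg.2 hb)
  set P := √(1 - a ^ 2)
  set Q := √(1 - b ^ 2)
  refine le_trans (div_le_div_of_nonneg_right (add_le_add (mul_le_mul_of_nonneg_left hp (by linarith))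
    (mul_le_mul_of_nonneg_left hq (by linarith))) hw.le) ?_
  refine le_sqrt_of_sq_le ?_
  rw [div_pow, div_le_iff₀ (pow_pos hw 2)]
  have key : ((b - x) * P + (x - a) * Q) ^ 2 + (b - x) * (x - a) * (P - Q) ^ 2 +
      (b - x) * (x - a) * (b - a) ^ 2 = (1 - x ^ 2) * (b - a) ^ 2 := by
    linear_combination (b - a) * (b - x) * hP + (b - a) * (x - a) * hQ
  linarith [mul_nonneg (mul_nonneg (sub_nonneg.2 hxb) (sub_nonneg.2 hax)) (sq_nonneg (P - Q)),
    mul_nonneg (mul_nonneg (sub_nonneg.2 hxb) (sub_nonneg.2 hax)) (sq_nonneg (b - a))]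

lemma sqOk_iff {k : ℕ} {z : ℤ} (h : sqOk k z = true) :
    z ^ 2 ≤ 1000000 * (10000 - (k : ℤ) ^ 2) :=
  of_decide_eq_true (Bool.and_eq_true_iff.1 h).2

lemma sq_bound {x y : ℝ} (h : y ^ 2 ≤ 1000000 * (10000 - x ^ 2)) :
    y / 100000 ≤ √(1 - (x / 100) ^ 2) :=
  le_sqrt_of_sq_le (by rw [div_pow, div_pow]; linarith)

lemma sqOk_cast {a b : ℤ} (h : b ^ 2 ≤ 1000000 * (10000 - a ^ 2)) :
    (b : ℝ) ^ 2 ≤ 1000000 * (10000 - (a : ℝ) ^ 2) := by exact_mod_cast h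

lemma sqOk_le {k : ℕ} {z : ℤ} (h : sqOk k z = true) :
    (z : ℝ) / 100000 ≤ √(1 - ((k : ℝ) / 100) ^ 2) :=
  sq_bound (by simpa using sqOk_cast (a := (k : ℤ)) (sqOk_iff h))

lemma sqTab_le {k : ℕ} (hk : k ≤ 100) :
    (sqTab.getD k 0 : ℝ) / 100000 ≤ √(1 - ((k : ℝ) / 100) ^ 2) :=
  sqOk_le (List.all_eq_true.1 sqTab_ok k (List.mem_range.2 (Nat.lt_succ_of_le hk)))

lemma trap_step {a p q : ℝ} (ha : 0 ≤ a) (hb : a + 1 / 100 ≤ 1)
    (hp : p / 100000 ≤ √(1 - a ^ 2)) (hq : q / 100000 ≤ √(1 - (a + 1 / 100) ^ 2)) :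
    (p + q) / 20000000 ≤ ∫ x in a..(a + 1 / 100), √(1 - x ^ 2) := by
  have hval : (∫ x in a..(a + 1 / 100), (p / 100000 + (x - a) * (100 * ((q - p) / 100000)))) =
      (p + q) / 20000000 := by
    rw [intervalIntegral.integral_comp_sub_right
      (fun y => p / 100000 + y * (100 * ((q - p) / 100000))),
      intervalIntegral.integral_add intervalIntegrable_const
      (intervalIntegral.intervalIntegrable_id.mul_const _), intervalIntegral.integral_const,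
      intervalIntegral.integral_mul_const, integral_id]
    simp only [smul_eq_mul]
    ring
  rw [← hval]
  refine intervalIntegral.integral_mono_on (by linarith)
    (Continuous.intervalIntegrable (by fun_prop) _ _)
    ((continuous_const.sub (continuous_pow 2)).sqrt.intervalIntegrable _ _) fun x hx => ?_
  refine le_trans (le_of_eq ?_) (chord_le hx.1 hx.2 (by linarith) hp hq (by nlinarith) (by nlinarith))
  field_simp
  ring

lemma trap_le : ∀ k ≤ 100, (trap k : ℝ) ≤ 20000000 * ∫ x in (0 : ℝ)..(k / 100), √(1 - x ^ 2) := by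
  intro k hk
  induction k with
  | zero => simp [trap]
  | succ k ih =>
    have hi : ∀ a b : ℝ, IntervalIntegrable (fun x : ℝ => √(1 - x ^ 2)) MeasureTheory.volume a b :=
      fun a b => (continuous_const.sub (continuous_pow 2)).sqrt.intervalIntegrable a b
    have he : ((k + 1 : ℕ) : ℝ) / 100 = (k : ℝ) / 100 + 1 / 100 := by push_cast; ring
    have hb1 : (k : ℝ) + 1 ≤ 100 := by exact_mod_cast hk
    have h2 := sqTab_le hk
    rw [he] at h2
    have hstep := trap_step (a := (k : ℝ) / 100) (by positivity) (by linarith)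
      (sqTab_le (by omega : k ≤ 100)) h2
    rw [he, ← intervalIntegral.integral_add_adjacent_intervals (hi 0 ((k : ℝ) / 100)) (hi _ _),
      show trap (k + 1) = trap k + sqTab.getD k 0 + sqTab.getD (k + 1) 0 from rfl,
      Int.cast_add, Int.cast_add]
    have ih' := ih (by omega)
    linarith

lemma ktab_le {k : ℕ} (hk : k ≤ 100) :
    (ktab k : ℝ) / 1000000 ≤ ∫ x in (0 : ℝ)..(k / 100), √(1 - x ^ 2) := by
  have h1 : ((ktab k : ℤ) : ℝ) * 20 ≤ (trap k : ℝ) := by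
    exact_mod_cast Int.ediv_mul_le (trap k) (by norm_num)
  linarith [trap_le k hk]

lemma chordOk_le {al be A : ℤ} (h : chordOk al be A = true) :
    (A : ℝ) ^ 2 / 1048576 ≤ 1 ∧
      ((al : ℝ) + be * ((A : ℝ) ^ 2 / 1048576)) / 100000 ≤ √(1 - (A : ℝ) ^ 2 / 1048576) := by
  simp only [chordOk, Bool.and_eq_true, Bool.or_eq_true, decide_eq_true_eq] at h
  have h1 : (A : ℝ) ^ 2 ≤ 1048576 := by exact_mod_cast h.1
  refine ⟨by linarith, ?_⟩
  rcases h.2 with h2 | h2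
  · have : (al : ℝ) * 1048576 + be * (A : ℝ) ^ 2 ≤ 0 := by exact_mod_cast h2
    exact le_trans (by linarith) (sqrt_nonneg _)
  · have : ((al : ℝ) * 1048576 + be * (A : ℝ) ^ 2) ^ 2 ≤
        10000000000 * 1048576 * (1048576 - (A : ℝ) ^ 2) := by exact_mod_cast h2
    exact le_sqrt_of_sq_le (by nlinarith)

lemma chord_sq {al be A B : ℤ} {s : ℝ} (hAB : A < B) (h0 : 0 ≤ A)
    (hA : (A : ℝ) ≤ 1024 * s) (hB : 1024 * s ≤ (B : ℝ))
    (cA : chordOk al be A = true) (cB : chordOk al be B = true) :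
    ((al : ℝ) + be * s ^ 2) / 100000 ≤ √(1 - s ^ 2) := by
  obtain ⟨hA1, hA2⟩ := chordOk_le cA
  obtain ⟨hB1, hB2⟩ := chordOk_le cB
  have hA0 : (0 : ℝ) ≤ A := by exact_mod_cast h0
  have hab : (A : ℝ) ^ 2 / 1048576 < (B : ℝ) ^ 2 / 1048576 := by
    have : (A : ℝ) < B := by exact_mod_cast hAB
    gcongr
  set a := (A : ℝ) ^ 2 / 1048576
  set b := (B : ℝ) ^ 2 / 1048576
  have hax : a ≤ s ^ 2 := by simp only [a]; nlinarith
  have hxb : s ^ 2 ≤ b := by simp only [b]; nlinarith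
  have hw : 0 < b - a := sub_pos.2 hab
  have hP := sq_sqrt (sub_nonneg.2 hA1)
  have hQ := sq_sqrt (sub_nonneg.2 hB1)
  set P := √(1 - a)
  set Q := √(1 - b)
  calc ((al : ℝ) + be * s ^ 2) / 100000
      = ((b - s ^ 2) * ((al + be * a) / 100000) + (s ^ 2 - a) * ((al + be * b) / 100000)) / (b - a) := by
        field_simp; ring
    _ ≤ ((b - s ^ 2) * P + (s ^ 2 - a) * Q) / (b - a) :=
        div_le_div_of_nonneg_right (add_le_add (mul_le_mul_of_nonneg_left hA2 (by linarith))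
          (mul_le_mul_of_nonneg_left hB2 (by linarith))) hw.le
    _ ≤ √(1 - s ^ 2) := by
        refine le_sqrt_of_sq_le ?_
        rw [div_pow, div_le_iff₀ (pow_pos hw 2)]
        have key : ((b - s ^ 2) * P + (s ^ 2 - a) * Q) ^ 2 +
            (b - s ^ 2) * (s ^ 2 - a) * (P - Q) ^ 2 = (1 - s ^ 2) * (b - a) ^ 2 := by
          linear_combination (b - a) * (b - s ^ 2) * hP + (b - a) * (s ^ 2 - a) * hQ
        linarith [mul_nonneg (mul_nonneg (sub_nonneg.2 hxb) (sub_nonneg.2 hax)) (sq_nonneg (P - Q))]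

/-- `y = s + (1 - s²) r`. -/
def yy (s r : ℝ) : ℝ := s + (1 - s ^ 2) * r

/-- The lower bound for the derivative of the homotopy, with the tangent points `e`, `σ` free. -/
noncomputable def Phi (e σ s r : ℝ) : ℝ :=
  √(1 - s ^ 2) * (yy s r - s * (1 - s ^ 2) * r ^ 2 / 2)
    + ((∫ x in (0 : ℝ)..e, √(1 - x ^ 2)) - e * yy s r)
    + ((∫ x in (0 : ℝ)..σ, √(1 - x ^ 2)) - σ * √(1 - s ^ 2))
    - (13839 / 10000 + 7 / 5 * (1 - s ^ 2)) * (s / 2 + (1 - s ^ 2) * r / 3)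
    + 14 / 5 * (s ^ 2 * (1 - s ^ 2) * r / 3 + s * (1 - s ^ 2) ^ 2 * r ^ 2 / 4)
    - 7 / 5 * (1 - s ^ 2) * (s ^ 3 * r ^ 2 / 4 + (1 - s ^ 2) * s ^ 2 * r ^ 3 / 5)

lemma leaf_core {al be K1 K2 ke ks qn m7 m1 s r : ℝ}
    (hb : (al + be * s ^ 2) / 100000 ≤ √(1 - s ^ 2))
    (hK1 : K1 / 1000000 ≤ ∫ x in (0 : ℝ)..(ke / 100), √(1 - x ^ 2))
    (hK2 : K2 / 1000000 ≤ ∫ x in (0 : ℝ)..(ks / 100), √(1 - x ^ 2))
    (hks : 0 ≤ ks) (hq : 0 < qn) (hm7 : 0 ≤ m7) (hm1 : 0 ≤ m1)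
    (hs : s * r ≤ 1) (hy : yy s r ≤ 7 / 4) (hs1 : s ≤ 1) (hs0 : 0 ≤ s) (hr : 0 ≤ r)
    (h : 0 ≤ 30 * qn * al * (2 * (yy s r - s * (1 - s ^ 2) * r ^ 2 / 2))
      + 30 * qn * be * (2 * s ^ 2 * (yy s r - s * (1 - s ^ 2) * r ^ 2 / 2))
      + (6 * qn * (K1 + K2) - 300 * ks * qn * qn) - 60000 * qn * ke * yy s r
      - 3000000 * ks * (1 - s ^ 2)
      + 2 * qn * (3000000 * (
        - (13839 / 10000 + 7 / 5 * (1 - s ^ 2)) * (s / 2 + (1 - s ^ 2) * r / 3)
        + 14 / 5 * (s ^ 2 * (1 - s ^ 2) * r / 3 + s * (1 - s ^ 2) ^ 2 * r ^ 2 / 4)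
        - 7 / 5 * (1 - s ^ 2) * (s ^ 3 * r ^ 2 / 4 + (1 - s ^ 2) * s ^ 2 * r ^ 3 / 5)))
      - 15000 * qn * m7 * (7 - 4 * yy s r) - 60000 * qn * m1 * (1 - s * r)) :
    0 ≤ Phi (ke / 100) (ks / 100) s r := by
  have hB2 : 0 ≤ 1 - s ^ 2 := by nlinarith
  have hbb : √(1 - s ^ 2) ^ 2 = 1 - s ^ 2 := sq_sqrt hB2
  have hF : 0 ≤ yy s r - s * (1 - s ^ 2) * r ^ 2 / 2 := by
    have := mul_nonneg (mul_nonneg hB2 hr) (show 0 ≤ 1 - s * r / 2 by linarith)
    rw [yy]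
    linarith
  rw [Phi]
  set b := √(1 - s ^ 2)
  set F := yy s r - s * (1 - s ^ 2) * r ^ 2 / 2
  set Y := yy s r
  have t1 := mul_le_mul_of_nonneg_right hb hF
  have t2 : ks / 100 * b ≤ ks * (qn * qn / 10000 + (1 - s ^ 2)) / (2 * qn) := by
    rw [le_div_iff₀ (by positivity)]
    nlinarith [mul_nonneg hks (sq_nonneg (b - qn / 100))]
  have t7 : 0 ≤ m7 * (7 - 4 * Y) := mul_nonneg hm7 (by linarith)
  have t8 : 0 ≤ m1 * (1 - s * r) := mul_nonneg hm1 (by linarith)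
  refine nonneg_of_mul_nonneg_right (le_trans h ?_) (show (0 : ℝ) < 6000000 * qn by positivity)
  have u1 := mul_le_mul_of_nonneg_left t1 (show (0 : ℝ) ≤ 6000000 * qn by positivity)
  have u2 := mul_le_mul_of_nonneg_left t2 (show (0 : ℝ) ≤ 6000000 * qn by positivity)
  have u3 := mul_le_mul_of_nonneg_left (add_le_add hK1 hK2) (show (0 : ℝ) ≤ 6000000 * qn by positivity)
  have e2 : 6000000 * qn * (ks * (qn * qn / 10000 + (1 - s ^ 2)) / (2 * qn)) =
      300 * ks * qn * qn + 3000000 * ks * (1 - s ^ 2) := by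
    field_simp
    ring
  rw [e2] at u2
  linarith [mul_nonneg hq.le t7, mul_nonneg hq.le t8]

lemma leaf_sound {al be : ℤ} {ke ks qn m7 m1 : ℕ} {A B A' B' : ℤ} {s r : ℝ}
    (h : check (.leaf al be ke ks qn m7 m1) A B A' B' = true)
    (hA : (A : ℝ) ≤ 1024 * s) (hB : 1024 * s ≤ (B : ℝ))
    (hA' : (A' : ℝ) ≤ 1024 * r) (hB' : 1024 * r ≤ (B' : ℝ))
    (hs : s * r ≤ 1) (hy : yy s r ≤ 7 / 4) (hs1 : s ≤ 1) (hs0 : 0 ≤ s) (hr : 0 ≤ r) :
    ∃ e σ, e ∈ Set.Icc (0 : ℝ) 1 ∧ σ ∈ Set.Icc (0 : ℝ) 1 ∧ 0 ≤ Phi e σ s r := by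
  simp only [check, Bool.and_eq_true, decide_eq_true_eq] at h
  obtain ⟨⟨⟨⟨⟨⟨⟨⟨hAB, hAB'⟩, h0⟩, hq⟩, hke⟩, hks⟩, cA⟩, cB⟩, hc⟩ := h
  refine ⟨ke / 100, ks / 100, ⟨by positivity, ?_⟩, ⟨by positivity, ?_⟩, ?_⟩
  · rw [div_le_one (by norm_num)]; exact_mod_cast hke
  · rw [div_le_one (by norm_num)]; exact_mod_cast hks
  have hw : (0 : ℝ) < B - A := by exact_mod_cast sub_pos.2 hAB
  have hv : 0 ≤ (B - 1024 * s) / ((B : ℝ) - A) := div_nonneg (by linarith) hw.le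
  have hu : 0 ≤ (1024 * s - A) / ((B : ℝ) - A) := div_nonneg (by linarith) hw.le
  obtain ⟨v, hvd⟩ : ∃ v, v = (B - 1024 * s) / ((B : ℝ) - A) := ⟨_, rfl⟩
  obtain ⟨u, hud⟩ : ∃ u, u = (1024 * s - A) / ((B : ℝ) - A) := ⟨_, rfl⟩
  rw [← hvd] at hv
  rw [← hud] at hu
  have hvu : v + u = 1 := by simp only [hvd, hud]; field_simp; ring
  have hx : (A * v + B * u : ℝ) = ((1024 : ℤ) : ℝ) * s := by
    simp only [hvd, hud]; push_cast; field_simp; ring
  obtain ⟨h4, -, -, -⟩ := chk4_nonneg hAB' (by norm_num) (r := r) (by push_cast; exact hA')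
    (by push_cast; exact hB') hv hu _ _ _ _ hc
  have e := fun p => hev_tr (A := A) (B := B) (D := 1024) (x := s) hvu hx p
  have h5 := mul_nonneg h4 (show (0 : ℝ) ≤ ((1024 : ℤ) : ℝ) by norm_num)
  rw [add_mul, add_mul, add_mul, mul_assoc r, mul_assoc (r ^ 2), mul_assoc (r ^ 3), e, e, e, e] at h5
  simp only [rows, List.length_cons, List.length_nil, pev] at h5
  push_cast at h5
  have hK1 := ktab_le hke
  have hK2 := ktab_le hks
  clear hc h4 e hx hvu hv hu hvd hud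
  exact leaf_core (al := (al : ℝ)) (be := (be : ℝ)) (K1 := (ktab ke : ℝ)) (K2 := (ktab ks : ℝ))
    (ke := (ke : ℝ)) (ks := (ks : ℝ)) (qn := (qn : ℝ)) (m7 := (m7 : ℝ)) (m1 := (m1 : ℝ))
    (chord_sq hAB h0 hA hB cA cB) hK1 hK2 (by positivity) (by exact_mod_cast hq) (by positivity)
    (by positivity) hs hy hs1 hs0 hr (le_of_le_of_eq (div_nonneg h5 (by norm_num :
      (0 : ℝ) ≤ 1024 ^ 7)) (by simp only [yy]; ring))

lemma sound : ∀ (T : Tree) (A B A' B' : ℤ) (s r : ℝ), check T A B A' B' = true →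
    (A : ℝ) ≤ 1024 * s → 1024 * s ≤ (B : ℝ) → (A' : ℝ) ≤ 1024 * r → 1024 * r ≤ (B' : ℝ) →
    s * r ≤ 1 → yy s r ≤ 7 / 4 → s ≤ 1 → 0 ≤ s → 0 ≤ r →
    ∃ e σ, e ∈ Set.Icc (0 : ℝ) 1 ∧ σ ∈ Set.Icc (0 : ℝ) 1 ∧ 0 ≤ Phi e σ s r
  | .leaf .., A, B, A', B', s, r, h, hA, hB, hA', hB', hs, hy, h1, h0, hr =>
    leaf_sound h hA hB hA' hB' hs hy h1 h0 hr
  | .outT, A, B, A', B', s, r, h, hA, hB, hA', hB', hs, hy, h1, h0, hr => by
    simp only [check, Bool.and_eq_true, decide_eq_true_eq] at h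
    have h2 : (1048576 : ℝ) < A * A' := by exact_mod_cast h.1.1
    have : (A : ℝ) * A' ≤ (1024 * s) * (1024 * r) :=
      mul_le_mul hA hA' (by exact_mod_cast h.2) (by linarith)
    nlinarith
  | .outY, A, B, A', B', s, r, h, hA, hB, hA', hB', hs, hy, h1, h0, hr => by
    simp only [check, Bool.and_eq_true, decide_eq_true_eq] at h
    obtain ⟨⟨⟨⟨⟨hL, hR⟩, hA0⟩, hAB⟩, -⟩, -⟩ := h
    have hL' : (7 * 1073741824 : ℝ) < 4 * (A * 1048576 + (1048576 - (A : ℝ) ^ 2) * A') := by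
      exact_mod_cast hL
    have hR' : (7 * 1073741824 : ℝ) < 4 * (B * 1048576 + (1048576 - (B : ℝ) ^ 2) * A') := by
      exact_mod_cast hR
    have hA0' : (0 : ℝ) ≤ A' := by exact_mod_cast hA0
    rw [yy] at hy
    have hm : (1 - s ^ 2) * (A' : ℝ) ≤ (1 - s ^ 2) * (1024 * r) :=
      mul_le_mul_of_nonneg_left hA' (by nlinarith)
    have hc := mul_nonneg (mul_nonneg hA0' (sub_nonneg.2 hA)) (sub_nonneg.2 hB)
    exfalso
    rcases le_total (1048576 - (A' : ℝ) * (A + B)) 0 with h' | h'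
    · nlinarith [mul_nonneg (sub_nonneg.2 hB) (neg_nonneg.2 h')]
    · nlinarith [mul_nonneg (sub_nonneg.2 hA) h']
  | .sS l g, A, B, A', B', s, r, h, hA, hB, hA', hB', hs, hy, h1, h0, hr => by
    simp only [check, Bool.and_eq_true] at h
    rcases le_total (1024 * s) (((A + B) / 2 : ℤ) : ℝ) with hm | hm
    · exact sound l A _ A' B' s r h.1 hA hm hA' hB' hs hy h1 h0 hr
    · exact sound g _ B A' B' s r h.2 hm hB hA' hB' hs hy h1 h0 hr
  | .sR l g, A, B, A', B', s, r, h, hA, hB, hA', hB', hs, hy, h1, h0, hr => by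
    simp only [check, Bool.and_eq_true] at h
    rcases le_total (1024 * r) (((A' + B') / 2 : ℤ) : ℝ) with hm | hm
    · exact sound l A B A' _ s r h.1 hA hB hA' hm hs hy h1 h0 hr
    · exact sound g A B _ B' s r h.2 hA hB hm hB' hs hy h1 h0 hr

/-- The key inequality. -/
theorem key_ineq {s r : ℝ} (h0 : 0 ≤ s) (h1 : s ≤ 1) (hr : 0 ≤ r) (hs : s * r ≤ 1)
    (hy : yy s r ≤ 7 / 4) :
    ∃ e σ, e ∈ Set.Icc (0 : ℝ) 1 ∧ σ ∈ Set.Icc (0 : ℝ) 1 ∧ 0 ≤ Phi e σ s r := by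
  refine sound cert 0 1024 0 4096 s r cert_ok (by push_cast; linarith) (by push_cast; linarith)
    (by push_cast; linarith) ?_ hs hy h1 h0 hr
  rw [yy] at hy
  push_cast
  nlinarith [mul_nonneg hr (sq_nonneg s), mul_nonneg h0 hr]

end OneDimCert

end Vale.Agent.P237
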