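import Vale.Agent.P237.Spec
import Vale.Agent.P237.OneDimCert

/-!
# P237, module G: the one-dimensional inequality

For `0 ≤ b < 1` let `F b` be the minimum of `f` and the tangent of the circle at `b` on `[0, b]`,
and the circle on `[b, 1]`.  Then `b ↦ 2 (∫ F b)² - ∫ w (F b)²` is nondecreasing: its right
derivative is controlled by `OneDimCert.key_ineq`.  At `b = 0` this is the value of the circle,
and `F b → f` as `b → 1`.
-/

namespace Vale.Agent.P237

namespace OneDim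

open MeasureTheory Set Filter Topology Real intervalIntegral OneDimCert
open scoped Interval

/-- The weight. -/
noncomputable def wt (x : ℝ) : ℝ := 3 * π ^ 2 / 16 - 7 / 15 + 7 / 5 * x ^ 2

/-- The tangent to the circle at `β`, evaluated at `x`. -/
noncomputable def tang (x β : ℝ) : ℝ := (1 - β * x) / √(1 - β ^ 2)

/-- The homotopy from the circle to `f`. -/
noncomputable def hom (f : ℝ → ℝ) (b x : ℝ) : ℝ := min (f x) (tang x (max b x))

lemma sqrt_pos_of_lt {β : ℝ} (h0 : 0 ≤ β) (h1 : β < 1) : 0 < √(1 - β ^ 2) :=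
  sqrt_pos.2 (by nlinarith)

lemma tang_self (x : ℝ) : tang x x = √(1 - x ^ 2) := by
  rw [tang, ← sq, div_sqrt]

lemma circle_le_tang {x β : ℝ} (hβ0 : 0 ≤ β) (hβ1 : β < 1) (hx0 : 0 ≤ x) (hx1 : x ≤ 1) :
    √(1 - x ^ 2) ≤ tang x β := by
  rw [tang, le_div_iff₀ (sqrt_pos_of_lt hβ0 hβ1), ← sqrt_mul (by nlinarith)]
  refine sqrt_le_iff.2 ⟨by nlinarith, ?_⟩
  nlinarith [sq_nonneg (x - β)]

lemma tang_mono {x β β' : ℝ} (hx : 0 ≤ x) (h1 : x ≤ β) (h2 : β ≤ β') (h3 : β' < 1) :
    tang x β ≤ tang x β' := by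
  have hs := sqrt_pos_of_lt (hx.trans h1) (h2.trans_lt h3)
  have hs' := sqrt_pos_of_lt (hx.trans (h1.trans h2)) h3
  rw [tang, tang, div_le_div_iff₀ hs hs']
  refine le_of_pow_le_pow_left₀ two_ne_zero (mul_nonneg (by nlinarith) hs.le) ?_
  rw [mul_pow, mul_pow, sq_sqrt (by nlinarith), sq_sqrt (by nlinarith)]
  nlinarith [mul_nonneg (sub_nonneg.2 h2)
    (add_nonneg (mul_nonneg (sub_nonneg.2 h1) (show 0 ≤ 1 - β' * x by nlinarith))
      (mul_nonneg (show 0 ≤ β' - x by linarith) (show 0 ≤ 1 - β * x by nlinarith)))]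

lemma hasDerivAt_tang {x β : ℝ} (h0 : 0 ≤ β) (h1 : β < 1) :
    HasDerivAt (tang x) ((β - x) / √(1 - β ^ 2) ^ 3) β := by
  have hs := sqrt_pos_of_lt h0 h1
  have hq : (0 : ℝ) < 1 - β ^ 2 := by nlinarith
  have h := ((hasDerivAt_id β).mul_const x |>.const_sub 1).div
    (((hasDerivAt_pow 2 β).const_sub 1).sqrt hq.ne') hs.ne'
  refine h.congr_deriv ?_
  simp only [id_eq, one_mul, Nat.cast_ofNat, Nat.add_one_sub_one, pow_one]
  field_simp
  rw [sq_sqrt hq.le]
  ring

lemma tang_sub_le {x β β' B : ℝ} (hx : 0 ≤ x) (h1 : x ≤ β) (h2 : β ≤ β') (h3 : β' ≤ B)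
    (hB : B < 1) : tang x β' - tang x β ≤ 1 / √(1 - B ^ 2) ^ 3 * (β' - β) := by
  have hd : ∀ z ∈ Icc β β', HasDerivAt (tang x) ((z - x) / √(1 - z ^ 2) ^ 3) z := fun z hz =>
    hasDerivAt_tang (by linarith [hz.1]) (by linarith [hz.2])
  refine (convex_Icc β β').image_sub_le_mul_sub_of_deriv_le
    (fun z hz => (hd z hz).continuousAt.continuousWithinAt)
    (fun z hz => (hd z (interior_subset hz)).differentiableAt.differentiableWithinAt)
    (fun z hz => ?_) β (left_mem_Icc.2 h2) β' (right_mem_Icc.2 h2) h2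
  have hz' := interior_subset hz
  rw [(hd z hz').deriv]
  have hs := sqrt_pos_of_lt (by linarith [hz'.1] : (0 : ℝ) ≤ B) hB
  refine div_le_div₀ zero_le_one (by linarith [hz'.2]) (pow_pos hs 3) ?_
  exact pow_le_pow_left₀ hs.le (sqrt_le_sqrt (by nlinarith [hz'.1, hz'.2])) 3

lemma integral_half {h : ℝ → ℝ} (he : ∀ x, h (-x) = h x)
    (hi : IntervalIntegrable h volume 0 1) :
    ∫ x in (-1 : ℝ)..1, h x = 2 * ∫ x in (0 : ℝ)..1, h x := by
  have h1 : IntervalIntegrable h volume (-1) 0 := by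
    have := (hi.comp_sub_left 0).symm
    simpa [he] using this
  have h2 : ∫ x in (-1 : ℝ)..0, h x = ∫ x in (0 : ℝ)..1, h x := by
    have := intervalIntegral.integral_comp_neg (a := (0 : ℝ)) (b := 1) h
    simp only [he, neg_zero] at this
    exact this.symm
  rw [← integral_add_adjacent_intervals h1 hi, h2]
  ring

lemma circle_int : ∫ x in (0 : ℝ)..1, √(1 - x ^ 2) = π / 4 := by
  have h := integral_half (h := fun x => √(1 - x ^ 2)) (fun x => by simp)
    ((continuous_const.sub (continuous_pow 2)).sqrt.intervalIntegrable _ _)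
  rw [integral_sqrt_one_sub_sq] at h
  linarith

/-- The area of a circular segment. -/
lemma cap_eq {b : ℝ} (h0 : 0 ≤ b) (h1 : b < 1) :
    ∫ x in b..1, √(1 - x ^ 2) =
      (∫ x in (0 : ℝ)..√(1 - b ^ 2), √(1 - x ^ 2)) - b * √(1 - b ^ 2) := by
  have hc : Continuous fun x : ℝ => √(1 - x ^ 2) := (continuous_const.sub (continuous_pow 2)).sqrt
  set g : ℝ → ℝ := fun z => (∫ x in z..1, √(1 - x ^ 2)) -
    (∫ x in (0 : ℝ)..√(1 - z ^ 2), √(1 - x ^ 2)) + z * √(1 - z ^ 2) with hg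
  have hd : ∀ z ∈ Icc 0 b, HasDerivAt g 0 z := by
    intro z hz
    have hz1 : z < 1 := hz.2.trans_lt h1
    have hs := sqrt_pos_of_lt hz.1 hz1
    have hq : (0 : ℝ) < 1 - z ^ 2 := by nlinarith [hz.1]
    have hr := ((hasDerivAt_pow 2 z).const_sub 1).sqrt hq.ne'
    have ha := integral_hasDerivAt_left (hc.intervalIntegrable z 1)
      hc.aestronglyMeasurable.stronglyMeasurableAtFilter hc.continuousAt
    have hb := (integral_hasDerivAt_right (hc.intervalIntegrable 0 √(1 - z ^ 2))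
      hc.aestronglyMeasurable.stronglyMeasurableAtFilter hc.continuousAt).comp z hr
    have hzz : √(1 - √(1 - z ^ 2) ^ 2) = z := by rw [sq_sqrt hq.le, sub_sub_cancel, sqrt_sq hz.1]
    refine ((ha.sub hb).add ((hasDerivAt_id z).mul hr)).congr_deriv ?_
    simp only [id_eq, hzz, Nat.cast_ofNat, Nat.add_one_sub_one, pow_one]
    field_simp
    ring
  have hcst : g b = g 0 := by
    refine constant_of_has_deriv_right_zero (fun z hz => (hd z hz).continuousAt.continuousWithinAt)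
      (fun z hz => (hd z (Ico_subset_Icc_self hz)).hasDerivWithinAt) b ⟨h0, le_rfl⟩
  simp only [hg] at hcst
  norm_num [circle_int] at hcst
  linarith

lemma cap_ge {b σ : ℝ} (h0 : 0 ≤ b) (h1 : b < 1) (hσ : σ ∈ Icc (0 : ℝ) 1) :
    (∫ x in (0 : ℝ)..σ, √(1 - x ^ 2)) - σ * b ≤ ∫ x in b..1, √(1 - x ^ 2) := by
  rw [cap_eq h0 h1]
  have hc : Continuous fun x : ℝ => √(1 - x ^ 2) := (continuous_const.sub (continuous_pow 2)).sqrt
  have hi := fun a c : ℝ => hc.intervalIntegrable (μ := volume) a c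
  set s := √(1 - b ^ 2) with hs
  have hs0 : 0 ≤ s := sqrt_nonneg _
  have hb : b = √(1 - s ^ 2) := by rw [hs, sq_sqrt (by nlinarith), sub_sub_cancel, sqrt_sq h0]
  rw [← integral_add_adjacent_intervals (hi 0 σ) (hi σ s)]
  rcases le_total σ s with h | h
  · have := intervalIntegral.integral_mono_on h intervalIntegrable_const (hi σ s)
      (fun x hx => (show b ≤ √(1 - x ^ 2) by
        rw [hb]; exact sqrt_le_sqrt (by nlinarith [hσ.1, hx.1, hx.2])))
    rw [intervalIntegral.integral_const, smul_eq_mul] at this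
    linarith
  · have := intervalIntegral.integral_mono_on h (hi s σ) intervalIntegrable_const
      (fun x hx => (show √(1 - x ^ 2) ≤ b by
        rw [hb]; exact sqrt_le_sqrt (by nlinarith [hx.1, hx.2])))
    rw [intervalIntegral.integral_const, smul_eq_mul] at this
    linarith [intervalIntegral.integral_symm (μ := volume) (f := fun x : ℝ => √(1 - x ^ 2)) s σ]

variable {f : ℝ → ℝ}

/-- The properties of `f` that are used. -/
structure Prof (f : ℝ → ℝ) : Prop where
  conc : ConcaveOn ℝ (Icc (-1 : ℝ) 1) f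
  even : ∀ t, f (-t) = f t
  zero_le : f 0 ≤ 7 / 4
  circle : ∀ t ∈ Icc (-1 : ℝ) 1, √(1 - t ^ 2) ≤ f t

namespace Prof

lemma anti (hf : Prof f) : AntitoneOn f (Icc 0 1) := by
  intro x hx y hy hxy
  have := hf.conc.min_le_of_mem_Icc (x := -y) (y := y) ⟨by linarith [hy.2], by linarith [hy.1]⟩
    ⟨by linarith [hy.1], hy.2⟩ (z := x) ⟨by linarith [hx.1, hy.1], hxy⟩
  simpa [hf.even] using this

lemma le_max' (hf : Prof f) {x : ℝ} (hx : x ∈ Icc (0 : ℝ) 1) : f x ≤ 7 / 4 :=
  (hf.anti ⟨le_rfl, zero_le_one⟩ hx hx.1).trans hf.zero_le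

lemma circle' (hf : Prof f) {x : ℝ} (hx : x ∈ Icc (0 : ℝ) 1) : √(1 - x ^ 2) ≤ f x :=
  hf.circle x ⟨by linarith [hx.1], hx.2⟩

lemma nonneg (hf : Prof f) {x : ℝ} (hx : x ∈ Icc (0 : ℝ) 1) : 0 ≤ f x :=
  (sqrt_nonneg _).trans (hf.circle' hx)

lemma meas (hf : Prof f) : AEStronglyMeasurable f (volume.restrict (Ι (0 : ℝ) 1)) := by
  have h : IntegrableOn f (Icc 0 1) volume := hf.anti.integrableOn_isCompact isCompact_Icc
  exact h.aestronglyMeasurable.mono_measure
    (Measure.restrict_mono (by rw [uIoc_of_le zero_le_one]; exact Ioc_subset_Icc_self) le_rfl)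

lemma hom_mem (hf : Prof f) {b x : ℝ} (hb0 : 0 ≤ b) (hb1 : b < 1) (hx : x ∈ Icc (0 : ℝ) 1) :
    0 ≤ hom f b x ∧ hom f b x ≤ 7 / 4 := by
  refine ⟨le_min (hf.nonneg hx) (div_nonneg ?_ (sqrt_nonneg _)),
    (min_le_left _ _).trans (hf.le_max' hx)⟩
  rcases le_total b x with h | h
  · rw [max_eq_right h]; nlinarith [hx.1, hx.2]
  · rw [max_eq_left h]; nlinarith [hx.1, hx.2]

lemma hom_meas (hf : Prof f) (b : ℝ) :
    AEStronglyMeasurable (hom f b) (volume.restrict (Ι (0 : ℝ) 1)) :=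
  (hf.meas.aemeasurable.min (by unfold tang; fun_prop)).aestronglyMeasurable

lemma integrable_of_bound {g : ℝ → ℝ} {C : ℝ}
    (hm : AEStronglyMeasurable g (volume.restrict (Ι (0 : ℝ) 1)))
    (hb : ∀ x ∈ Icc (0 : ℝ) 1, |g x| ≤ C) : IntervalIntegrable g volume 0 1 := by
  refine (intervalIntegrable_const (c := C)).mono_fun' hm ?_
  refine (ae_restrict_mem measurableSet_uIoc).mono fun x hx => ?_
  rw [uIoc_of_le zero_le_one] at hx
  simpa [Real.norm_eq_abs] using hb x (Ioc_subset_Icc_self hx)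

lemma wt_bound {x : ℝ} (hx : x ∈ Icc (0 : ℝ) 1) : 0 ≤ wt x ∧ wt x ≤ 3 := by
  have h1 := Real.pi_gt_three
  have h2 := Real.pi_lt_d2
  constructor <;> · unfold wt; nlinarith [hx.1, hx.2]

lemma hom_int (hf : Prof f) {b : ℝ} (h0 : 0 ≤ b) (h1 : b < 1) :
    IntervalIntegrable (hom f b) volume 0 1 :=
  integrable_of_bound (C := 7 / 4) (hf.hom_meas b) fun x hx => by
    rw [abs_of_nonneg (hf.hom_mem h0 h1 hx).1]; exact (hf.hom_mem h0 h1 hx).2

lemma wsq_meas (hf : Prof f) (b : ℝ) :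
    AEStronglyMeasurable (fun x => wt x * hom f b x ^ 2) (volume.restrict (Ι (0 : ℝ) 1)) :=
  (Continuous.aestronglyMeasurable (by unfold wt; fun_prop)).mul ((hf.hom_meas b).pow 2)

lemma wsq_int (hf : Prof f) {b : ℝ} (h0 : 0 ≤ b) (h1 : b < 1) :
    IntervalIntegrable (fun x => wt x * hom f b x ^ 2) volume 0 1 :=
  integrable_of_bound (C := 3 * (7 / 4) ^ 2) (hf.wsq_meas b) fun x hx => by
    obtain ⟨h2, h3⟩ := hf.hom_mem h0 h1 hx
    obtain ⟨h4, h5⟩ := wt_bound hx
    rw [abs_of_nonneg (mul_nonneg h4 (sq_nonneg _))]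
    exact mul_le_mul h5 (pow_le_pow_left₀ h2 h3 2) (sq_nonneg _) (by norm_num)

lemma hom_mono {b b' x : ℝ} (hx : x ∈ Icc (0 : ℝ) 1) (h : b ≤ b') (h1 : b' < 1) :
    hom f b x ≤ hom f b' x := by
  refine min_le_min le_rfl ?_
  rcases hx.2.eq_or_lt with e | e
  · subst e; rw [max_eq_right (h.trans h1.le), max_eq_right h1.le]
  · exact tang_mono hx.1 (le_max_right _ _) (max_le_max h le_rfl) (max_lt h1 e)

lemma hom_sub_le {b b' B x : ℝ} (hx : x ∈ Icc (0 : ℝ) 1) (_h0 : 0 ≤ b) (h : b ≤ b') (h2 : b' ≤ B)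
    (hB : B < 1) : |hom f b' x - hom f b x| ≤ 1 / √(1 - B ^ 2) ^ 3 * (b' - b) := by
  rw [abs_of_nonneg (sub_nonneg.2 (hom_mono hx h (h2.trans_lt hB)))]
  have hC : (0 : ℝ) ≤ 1 / √(1 - B ^ 2) ^ 3 := by positivity
  rcases le_or_gt b' x with e | e
  · rw [hom, hom, max_eq_right e, max_eq_right (h.trans e), sub_self]
    exact mul_nonneg hC (by linarith)
  have h3 := tang_sub_le hx.1 (le_max_right b x) (β' := b') (B := B) (max_le h e.le) h2 hB
  have h4 : hom f b' x - hom f b x ≤ max (tang x b' - tang x (max b x)) 0 := by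
    rw [hom, hom, max_eq_left e.le]
    rcases le_total (f x) (tang x (max b x)) with e' | e'
    · rw [min_eq_left e']; exact le_max_of_le_right (by linarith [min_le_left (f x) (tang x b')])
    · rw [min_eq_right e']; exact le_max_of_le_left (by linarith [min_le_right (f x) (tang x b')])
  refine h4.trans (max_le (h3.trans ?_) (mul_nonneg hC (by linarith)))
  exact mul_le_mul_of_nonneg_left (by linarith [le_max_left b x]) hC

lemma wsq_sub_le (hf : Prof f) {b b' B x : ℝ} (hx : x ∈ Icc (0 : ℝ) 1) (h0 : 0 ≤ b) (h : b ≤ b')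
    (h2 : b' ≤ B) (hB : B < 1) :
    |wt x * hom f b' x ^ 2 - wt x * hom f b x ^ 2| ≤ 12 / √(1 - B ^ 2) ^ 3 * (b' - b) := by
  obtain ⟨a1, a2⟩ := hf.hom_mem h0 (lt_of_le_of_lt (h.trans h2) hB) hx
  obtain ⟨a3, a4⟩ := hf.hom_mem (h0.trans h) (h2.trans_lt hB) hx
  obtain ⟨h4, h5⟩ := wt_bound hx
  have hd := hom_sub_le (f := f) hx h0 h h2 hB
  rw [show wt x * hom f b' x ^ 2 - wt x * hom f b x ^ 2 =
    (wt x * (hom f b' x + hom f b x)) * (hom f b' x - hom f b x) by ring, abs_mul,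
    abs_of_nonneg (mul_nonneg h4 (by linarith))]
  refine (mul_le_mul (c := |hom f b' x - hom f b x|) ?_ hd (abs_nonneg _)
    (by norm_num : (0 : ℝ) ≤ 12)).trans (le_of_eq (by ring))
  nlinarith

/-- The pointwise right derivative of `b ↦ hom f b x`. -/
noncomputable def dHom (f : ℝ → ℝ) (b x : ℝ) : ℝ :=
  {z | z < b ∧ tang z b < f z}.indicator (fun z => (b - z) / √(1 - b ^ 2) ^ 3) x

lemma tendsto_slope_hom {b x : ℝ} (h0 : 0 ≤ b) (h1 : b < 1) (hx : 0 ≤ x) (hxb : x ≠ b) :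
    Tendsto (slope (fun z => hom f z x) b) (𝓝[>] b) (𝓝 (dHom f b x)) := by
  rcases lt_or_gt_of_ne hxb with h | h
  · rcases le_or_gt (f x) (tang x b) with e | e
    · rw [dHom, Set.indicator_of_notMem (fun hm => absurd hm.2 (not_lt.2 e))]
      refine tendsto_const_nhds.congr' ?_
      filter_upwards [Ioo_mem_nhdsGT h1] with z hz
      have := e.trans (tang_mono hx h.le hz.1.le hz.2)
      simp [slope_def_field, hom, max_eq_left h.le, max_eq_left (h.le.trans hz.1.le),
        min_eq_left e, min_eq_left this]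
    · rw [dHom, Set.indicator_of_mem (show x ∈ {z | z < b ∧ tang z b < f z} from ⟨h, e⟩)]
      have hd := hasDerivAt_tang (x := x) h0 h1
      have h2 : Tendsto (slope (tang x) b) (𝓝[>] b) (𝓝 ((b - x) / √(1 - b ^ 2) ^ 3)) :=
        (hasDerivAt_iff_tendsto_slope.1 hd).mono_left (nhdsWithin_mono _ fun z hz => ne_of_gt hz)
      refine h2.congr' ?_
      have h3 : ∀ᶠ z in 𝓝[>] b, tang x z < f x :=
        (hd.continuousAt.eventually (eventually_lt_nhds e)).filter_mono nhdsWithin_le_nhds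
      filter_upwards [Ioo_mem_nhdsGT h1, h3] with z hz hz'
      simp [slope_def_field, hom, max_eq_left h.le, max_eq_left (h.le.trans hz.1.le),
        min_eq_right e.le, min_eq_right hz'.le]
  · rw [dHom, Set.indicator_of_notMem (fun hm => absurd hm.1 (not_lt.2 h.le))]
    refine tendsto_const_nhds.congr' ?_
    filter_upwards [Ioo_mem_nhdsGT h] with z hz
    simp [slope_def_field, hom, max_eq_right h.le, max_eq_right hz.2.le]

/-- `∫ hom`. -/
noncomputable def I (f : ℝ → ℝ) (b : ℝ) : ℝ := ∫ x in (0 : ℝ)..1, hom f b x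

/-- `∫ wt * hom²`. -/
noncomputable def W (f : ℝ → ℝ) (b : ℝ) : ℝ := ∫ x in (0 : ℝ)..1, wt x * hom f b x ^ 2

lemma abs_integral_le {g : ℝ → ℝ} {C : ℝ} (h : ∀ x ∈ Icc (0 : ℝ) 1, |g x| ≤ C) :
    |∫ x in (0 : ℝ)..1, g x| ≤ C := by
  have := intervalIntegral.norm_integral_le_of_norm_le_const (a := (0 : ℝ)) (b := 1) (f := g)
    (C := C) fun x hx => by
      rw [uIoc_of_le zero_le_one] at hx
      simpa [Real.norm_eq_abs] using h x (Ioc_subset_Icc_self hx)
  simpa [Real.norm_eq_abs] using this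

lemma lip_cont {J : ℝ → ℝ} {B C : ℝ}
    (h : ∀ b b', 0 ≤ b → b ≤ b' → b' ≤ B → |J b' - J b| ≤ C * (b' - b)) :
    ContinuousOn J (Icc 0 B) := by
  refine (LipschitzOnWith.of_dist_le_mul (K := C.toNNReal) fun b hb b' hb' => ?_).continuousOn
  rw [Real.dist_eq, Real.dist_eq]
  have hC : C ≤ (C.toNNReal : ℝ) := le_coe_toNNReal C
  rcases le_total b b' with e | e
  · rw [abs_sub_comm, abs_sub_comm b, abs_of_nonneg (sub_nonneg.2 e)]
    exact (h b b' hb.1 e hb'.2).trans (mul_le_mul_of_nonneg_right hC (sub_nonneg.2 e))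
  · rw [abs_of_nonneg (sub_nonneg.2 e)]
    exact (h b' b hb'.1 e hb.2).trans (mul_le_mul_of_nonneg_right hC (sub_nonneg.2 e))

lemma continuousOn_H (hf : Prof f) {B : ℝ} (hB : B < 1) :
    ContinuousOn (fun b => 2 * I f b ^ 2 - W f b) (Icc 0 B) := by
  refine ((lip_cont (C := 1 / √(1 - B ^ 2) ^ 3) fun b b' h0 h h2 => ?_).pow 2 |>.const_smul
    (2 : ℝ)).sub (lip_cont (C := 12 / √(1 - B ^ 2) ^ 3) fun b b' h0 h h2 => ?_)
  · rw [I, I, ← integral_sub (hf.hom_int (h0.trans h) (h2.trans_lt hB))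
      (hf.hom_int h0 (by linarith))]
    exact abs_integral_le fun x hx => hom_sub_le hx h0 h h2 hB
  · rw [W, W, ← integral_sub (hf.wsq_int (h0.trans h) (h2.trans_lt hB))
      (hf.wsq_int h0 (by linarith))]
    exact abs_integral_le fun x hx => hf.wsq_sub_le hx h0 h h2 hB

lemma hasDeriv_param {g : ℝ → ℝ → ℝ} {d : ℝ → ℝ} {b B C : ℝ} (hbB : b < B)
    (hi : ∀ z ∈ Icc b B, IntervalIntegrable (g z) volume 0 1)
    (hl : ∀ z ∈ Icc b B, ∀ x ∈ Icc (0 : ℝ) 1, |g z x - g b x| ≤ C * (z - b))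
    (hd : ∀ x ∈ Icc (0 : ℝ) 1, x ≠ b → Tendsto (slope (fun z => g z x) b) (𝓝[>] b) (𝓝 (d x))) :
    HasDerivWithinAt (fun z => ∫ x in (0 : ℝ)..1, g z x) (∫ x in (0 : ℝ)..1, d x) (Ioi b) b := by
  rw [hasDerivWithinAt_iff_tendsto_slope' (show b ∉ Ioi b from lt_irrefl b)]
  have h1 : ∀ᶠ z in 𝓝[>] b, z ∈ Ioo b B := Ioo_mem_nhdsGT hbB
  refine (tendsto_integral_filter_of_dominated_convergence
    (F := fun z x => slope (fun z => g z x) b z) (fun _ => C) ?_ ?_
    intervalIntegrable_const ?_).congr' (h1.mono fun z hz => ?_)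
  · filter_upwards [h1] with z hz
    simp only [slope_def_field]
    exact (intervalIntegrable_iff.1 (((hi z (Ioo_subset_Icc_self hz)).sub
      (hi b (left_mem_Icc.2 hbB.le))).div_const _)).aestronglyMeasurable
  · filter_upwards [h1] with z hz
    refine Eventually.of_forall fun x hx => ?_
    rw [uIoc_of_le zero_le_one] at hx
    rw [slope_def_field, Real.norm_eq_abs, abs_div, abs_of_pos (sub_pos.2 hz.1),
      div_le_iff₀ (sub_pos.2 hz.1)]
    exact hl z (Ioo_subset_Icc_self hz) x (Ioc_subset_Icc_self hx)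
  · filter_upwards [Measure.ae_ne volume b] with x hx hx'
    rw [uIoc_of_le zero_le_one] at hx'
    exact hd x (Ioc_subset_Icc_self hx') hx
  · simp only [slope_def_field]
    rw [intervalIntegral.integral_div, integral_sub (hi z (Ioo_subset_Icc_self hz))
      (hi b (left_mem_Icc.2 hbB.le))]

lemma hasDeriv_I (hf : Prof f) {b : ℝ} (h0 : 0 ≤ b) (h1 : b < 1) :
    HasDerivWithinAt (I f) (∫ x in (0 : ℝ)..1, dHom f b x) (Ioi b) b := by
  obtain ⟨B, hbB, hB⟩ := exists_between h1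
  exact hasDeriv_param hbB (fun z hz => hf.hom_int (h0.trans hz.1) (hz.2.trans_lt hB))
    (fun z hz x hx => hom_sub_le hx h0 hz.1 hz.2 hB)
    (fun x hx hxb => tendsto_slope_hom h0 h1 hx.1 hxb)

lemma hasDeriv_W (hf : Prof f) {b : ℝ} (h0 : 0 ≤ b) (h1 : b < 1) :
    HasDerivWithinAt (W f) (∫ x in (0 : ℝ)..1, 2 * wt x * hom f b x * dHom f b x) (Ioi b) b := by
  obtain ⟨B, hbB, hB⟩ := exists_between h1
  refine hasDeriv_param hbB (fun z hz => hf.wsq_int (h0.trans hz.1) (hz.2.trans_lt hB))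
    (fun z hz x hx => hf.wsq_sub_le hx h0 hz.1 hz.2 hB) fun x hx hxb => ?_
  have hs := tendsto_slope_hom (f := f) h0 h1 hx.1 hxb
  have hF : HasDerivWithinAt (fun z => hom f z x) (dHom f b x) (Ioi b) b :=
    (hasDerivWithinAt_iff_tendsto_slope' (show b ∉ Ioi b from lt_irrefl b)).2 hs
  have := (hasDerivWithinAt_iff_tendsto_slope' (show b ∉ Ioi b from lt_irrefl b)).1 ((hF.pow 2).const_mul (wt x))
  simpa [mul_assoc, mul_comm, mul_left_comm] using this

lemma const_le : 3 * π ^ 2 / 16 - 7 / 15 ≤ 13839 / 10000 := by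
  nlinarith [Real.pi_lt_d4, Real.pi_gt_three]

lemma algebra_final {b s r y A C J : ℝ} (_hb : 0 ≤ b) (hs : 0 < s) (hr : 0 ≤ r)
    (hlo : b * (y - s * b ^ 2 * r ^ 2 / 2) + A + C ≤ J)
    (hΦ : 0 ≤ b * (y - s * b ^ 2 * r ^ 2 / 2) + A + C
      - (13839 / 10000 + 7 / 5 * b ^ 2) * (s / 2 + b ^ 2 * r / 3)
      + 14 / 5 * (s ^ 2 * b ^ 2 * r / 3 + s * (b ^ 2) ^ 2 * r ^ 2 / 4)
      - 7 / 5 * b ^ 2 * (s ^ 3 * r ^ 2 / 4 + b ^ 2 * s ^ 2 * r ^ 3 / 5)) :
    0 ≤ 4 * J * ((b * s * r) ^ 2 / (2 * s ^ 3)) - 2 / s ^ 4 *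
      ((3 * π ^ 2 / 16 - 7 / 15 + 7 / 5 * b ^ 2) *
          (s ^ 2 * (b * s * r) ^ 2 / 2 + b * (b * s * r) ^ 3 / 3)
        - 14 / 5 * b * (s ^ 2 * (b * s * r) ^ 3 / 3 + b * (b * s * r) ^ 4 / 4)
        + 7 / 5 * (s ^ 2 * (b * s * r) ^ 4 / 4 + b * (b * s * r) ^ 5 / 5)) := by
  have h1 := mul_le_mul_of_nonneg_right const_le (show 0 ≤ s / 2 + b ^ 2 * r / 3 by positivity)
  generalize 3 * π ^ 2 / 16 - 7 / 15 = c at h1 ⊢
  have hmain : (c + 7 / 5 * b ^ 2) * (s / 2 + b ^ 2 * r / 3)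
      - 14 / 5 * (s ^ 2 * b ^ 2 * r / 3 + s * b ^ 4 * r ^ 2 / 4)
      + 7 / 5 * b ^ 2 * (s ^ 3 * r ^ 2 / 4 + b ^ 2 * s ^ 2 * r ^ 3 / 5) ≤ J := by
    linarith
  refine le_of_le_of_eq (mul_nonneg (show 0 ≤ 2 * b ^ 2 * r ^ 2 / s by positivity)
    (sub_nonneg.2 hmain)) ?_
  field_simp
  ring

lemma deriv_nonneg (hf : Prof f) {b : ℝ} (h0 : 0 ≤ b) (h1 : b < 1) :
    0 ≤ 4 * I f b * (∫ x in (0 : ℝ)..1, dHom f b x) -
      ∫ x in (0 : ℝ)..1, 2 * wt x * hom f b x * dHom f b x := by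
  set E : Set ℝ := {x | 0 ≤ x ∧ x < b ∧ tang x b < f x} with hE
  set s := √(1 - b ^ 2) with hsd
  have hs : 0 < s := sqrt_pos_of_lt h0 h1
  have hss : s ^ 2 = 1 - b ^ 2 := sq_sqrt (by nlinarith)
  rcases E.eq_empty_or_nonempty with hne | hne
  · have hz : ∀ x ∈ Icc (0 : ℝ) 1, dHom f b x = 0 := fun x hx =>
      Set.indicator_of_notMem (s := {z | z < b ∧ tang z b < f z}) (fun hm => (Set.eq_empty_iff_forall_notMem.1 hne x) ⟨hx.1, hm⟩) _
    have e1 : ∫ x in (0 : ℝ)..1, dHom f b x = 0 := by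
      rw [intervalIntegral.integral_congr (g := fun _ => 0) (by
        rw [uIcc_of_le zero_le_one]; exact fun x hx => hz x hx)]
      simp
    have e2 : ∫ x in (0 : ℝ)..1, 2 * wt x * hom f b x * dHom f b x = 0 := by
      rw [intervalIntegral.integral_congr (g := fun _ => 0) (by
        rw [uIcc_of_le zero_le_one]; exact fun x hx => by simp [hz x hx])]
      simp
    rw [e1, e2]; simp
  set t := sInf E with htd
  have hbd : BddBelow E := ⟨0, fun x hx => hx.1⟩
  obtain ⟨e₀, he₀⟩ := hne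
  have ht0 : 0 ≤ t := le_csInf ⟨e₀, he₀⟩ fun x hx => hx.1
  have htb : t < b := (csInf_le hbd he₀).trans_lt he₀.2.1
  have hup : ∀ x, t < x → x < b → tang x b < f x := by
    intro x hx hxb
    obtain ⟨e, he, hex⟩ := exists_lt_of_csInf_lt ⟨e₀, he₀⟩ hx
    set θ := (b - x) / (b - e) with hθ
    have hbe : 0 < b - e := by linarith
    have hθ0 : 0 < θ := div_pos (by linarith) hbe
    have hθ1 : θ ≤ 1 := (div_le_one hbe).2 (by linarith)
    have hxc : θ • e + (1 - θ) • b = x := by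
      simp only [smul_eq_mul, hθ]; field_simp; ring
    have hc := hf.conc.2 (x := e) (y := b) ⟨by linarith [he.1], by linarith [he.2.1]⟩
      ⟨by linarith, h1.le⟩ hθ0.le (sub_nonneg.2 hθ1) (by ring)
    rw [hxc] at hc
    simp only [smul_eq_mul] at hc hxc
    have hb' : tang b b ≤ f b := by rw [tang_self]; exact hf.circle' ⟨h0, h1.le⟩
    have haff : tang x b = θ * tang e b + (1 - θ) * tang b b := by
      simp only [tang, ← hsd]; rw [← hxc]; field_simp; ring
    have q1 := mul_lt_mul_of_pos_left he.2.2 hθ0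
    have q2 := mul_le_mul_of_nonneg_left hb' (sub_nonneg.2 hθ1)
    linarith
  have hlow : ∀ x, 0 ≤ x → x < t → f x ≤ tang x b := by
    intro x hx hxt
    by_contra hc
    exact absurd (csInf_le hbd ⟨hx, hxt.trans htb, not_le.1 hc⟩) (not_le.2 hxt)
  have hlim : ∀ M, (∀ e ∈ E, tang e b ≤ M) → tang t b ≤ M := by
    intro M hM
    refine le_of_forall_pos_le_add fun ε hε => ?_
    obtain ⟨e, he, het⟩ := exists_lt_of_csInf_lt ⟨e₀, he₀⟩
      (lt_add_of_pos_right t (show (0 : ℝ) < ε * s by positivity))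
    have h3 : tang t b = tang e b + b * (e - t) / s := by
      simp only [tang, ← hsd]; field_simp; ring
    have h4 : b * (e - t) / s ≤ ε := by
      rw [div_le_iff₀ hs]
      calc b * (e - t) ≤ 1 * (e - t) := by
            refine mul_le_mul_of_nonneg_right h1.le ?_
            linarith [csInf_le hbd he]
        _ ≤ ε * s := by linarith
    linarith [hM e he]
  set y := tang t b with hyd
  have hy : y ≤ 7 / 4 := hlim _ fun e he =>
    he.2.2.le.trans (hf.le_max' ⟨he.1, by linarith [he.2.1]⟩)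
  have hfy : ∀ x, 0 ≤ x → x < t → y ≤ f x := fun x hx hxt => hlim _ fun e he =>
    he.2.2.le.trans (hf.anti ⟨hx, by linarith⟩ ⟨he.1, by linarith [he.2.1]⟩
      (hxt.le.trans (csInf_le hbd he)))
  have hDae : ∀ᵐ x ∂volume, x ∈ Ι (0 : ℝ) 1 →
      dHom f b x = (Ioc t b).indicator (fun z => (b - z) / s ^ 3) x ∧
      2 * wt x * hom f b x * dHom f b x =
        (Ioc t b).indicator (fun z => 2 * wt z * ((1 - b * z) / s) * ((b - z) / s ^ 3)) x := by
    filter_upwards [Measure.ae_ne volume t, Measure.ae_ne volume b] with x hxt hxb hx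
    rw [uIoc_of_le zero_le_one] at hx
    by_cases hm : x ∈ Ioc t b
    · have hlt : x < b := lt_of_le_of_ne hm.2 hxb
      have hD : dHom f b x = (b - x) / s ^ 3 :=
        Set.indicator_of_mem (show x ∈ {z | z < b ∧ tang z b < f z} from ⟨hlt, hup x hm.1 hlt⟩) _
      rw [Set.indicator_of_mem hm, Set.indicator_of_mem hm, hD]
      refine ⟨rfl, ?_⟩
      rw [hom, max_eq_left hm.2, min_eq_right (hup x hm.1 hlt).le, tang]
    · have hD : dHom f b x = 0 := Set.indicator_of_notMem (s := {z | z < b ∧ tang z b < f z}) (fun h => hm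
        ⟨lt_of_le_of_ne (csInf_le hbd ⟨hx.1.le, h⟩) (Ne.symm hxt), h.1.le⟩) _
      rw [Set.indicator_of_notMem hm, Set.indicator_of_notMem hm, hD]
      simp
  have hI1 : ∫ x in (0 : ℝ)..1, dHom f b x = (b - t) ^ 2 / (2 * s ^ 3) := by
    rw [integral_congr_ae (hDae.mono fun x hx hm => (hx hm).1),
      integral_of_le zero_le_one, setIntegral_indicator measurableSet_Ioc,
      inter_eq_right.2 (Ioc_subset_Ioc ht0 h1.le), ← integral_of_le htb.le,
      integral_eq_sub_of_hasDerivAt (f := fun x => -(b - x) ^ 2 / (2 * s ^ 3))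
        (fun x _ => ?_) (Continuous.intervalIntegrable (by fun_prop) _ _)]
    · simp; ring
    · refine ((((hasDerivAt_id x).const_sub b).pow 2).neg.div_const _).congr_deriv ?_
      simp; field_simp
  set c := 3 * π ^ 2 / 16 - 7 / 15 with hc
  set L := b - t with hL
  have hI2 : ∫ x in (0 : ℝ)..1, 2 * wt x * hom f b x * dHom f b x =
      2 / s ^ 4 * ((c + 7 / 5 * b ^ 2) * (s ^ 2 * L ^ 2 / 2 + b * L ^ 3 / 3)
        - 14 / 5 * b * (s ^ 2 * L ^ 3 / 3 + b * L ^ 4 / 4)
        + 7 / 5 * (s ^ 2 * L ^ 4 / 4 + b * L ^ 5 / 5)) := by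
    rw [integral_congr_ae (hDae.mono fun x hx hm => (hx hm).2),
      integral_of_le zero_le_one, setIntegral_indicator measurableSet_Ioc,
      inter_eq_right.2 (Ioc_subset_Ioc ht0 h1.le), ← integral_of_le htb.le,
      integral_eq_sub_of_hasDerivAt (f := fun x => -(2 / s ^ 4) *
        ((c + 7 / 5 * b ^ 2) * (s ^ 2 * (b - x) ^ 2 / 2 + b * (b - x) ^ 3 / 3)
        - 14 / 5 * b * (s ^ 2 * (b - x) ^ 3 / 3 + b * (b - x) ^ 4 / 4)
        + 7 / 5 * (s ^ 2 * (b - x) ^ 4 / 4 + b * (b - x) ^ 5 / 5)))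
        (fun x _ => ?_) (Continuous.intervalIntegrable (by unfold wt; fun_prop) _ _)]
    · simp only [sub_self, hL]; ring
    · have hu := (hasDerivAt_id x).const_sub b
      refine (((((hu.pow 2).const_mul (s ^ 2)).div_const 2 |>.add
        (((hu.pow 3).const_mul b).div_const 3)).const_mul (c + 7 / 5 * b ^ 2) |>.sub
        (((((hu.pow 3).const_mul (s ^ 2)).div_const 3).add
          (((hu.pow 4).const_mul b).div_const 4)).const_mul (14 / 5 * b)) |>.add
        (((((hu.pow 4).const_mul (s ^ 2)).div_const 4).add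
          (((hu.pow 5).const_mul b).div_const 5)).const_mul (7 / 5))).const_mul
          (-(2 / s ^ 4))).congr_deriv ?_
      simp only [id_eq, wt, ← hc, hss]
      push_cast
      field_simp
      ring
  -- the certified inequality
  have hbpos : 0 < b := ht0.trans_lt htb
  set r := L / (b * s) with hr
  have hLp : 0 < L := sub_pos.2 htb
  have hLe : L = b * s * r := by rw [hr]; field_simp
  have hyr : y = s + b ^ 2 * r := by
    rw [hyd, tang, ← hsd, hr, hL]; field_simp; rw [hss]; ring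
  have hbs : √(1 - s ^ 2) = b := by rw [hss, sub_sub_cancel, sqrt_sq h0]
  have hyy : yy s r = y := by rw [yy, hyr, hss]; ring
  obtain ⟨e, σ, he, hσ, hΦ⟩ := key_ineq hs.le (by nlinarith) (show 0 ≤ r by positivity)
    (show s * r ≤ 1 by
      rw [hr, show s * (L / (b * s)) = L / b by field_simp, div_le_one hbpos]; linarith)
    (hyy ▸ hy)
  rw [Phi, hbs, hyy, show 1 - s ^ 2 = b ^ 2 by rw [hss]; ring] at hΦ
  have hc0 : Continuous fun x : ℝ => √(1 - x ^ 2) := (continuous_const.sub (continuous_pow 2)).sqrt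
  have hi := fun a c : ℝ => hc0.intervalIntegrable (μ := volume) a c
  have hFi : ∀ a c, a ∈ Icc (0 : ℝ) 1 → c ∈ Icc (0 : ℝ) 1 →
      IntervalIntegrable (hom f b) volume a c := fun a c ha hc => (hf.hom_int h0 h1).mono_set
    (uIcc_subset_uIcc (by rwa [uIcc_of_le zero_le_one]) (by rwa [uIcc_of_le zero_le_one]))
  have hz : (0 : ℝ) ∈ Icc (0 : ℝ) 1 := ⟨le_rfl, zero_le_one⟩
  have ho : (1 : ℝ) ∈ Icc (0 : ℝ) 1 := ⟨zero_le_one, le_rfl⟩
  have htm : t ∈ Icc (0 : ℝ) 1 := ⟨ht0, by linarith⟩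
  have hbm : b ∈ Icc (0 : ℝ) 1 := ⟨h0, h1.le⟩
  have hM : Continuous fun x : ℝ => max √(1 - x ^ 2) y := hc0.max continuous_const
  have hyf : √(1 - t ^ 2) ≤ y := circle_le_tang h0 h1 ht0 htm.2
  have p1 : t * y + ((∫ x in (0 : ℝ)..e, √(1 - x ^ 2)) - e * y) ≤ ∫ x in (0 : ℝ)..t, hom f b x := by
    refine le_trans ?_ (intervalIntegral.integral_mono_on_of_le_Ioo ht0
      (hM.intervalIntegrable 0 t) (hFi 0 t hz htm) fun x hx => ?_)
    swap
    · have hx1 : x ∈ Icc (0 : ℝ) 1 := ⟨hx.1.le, by linarith [hx.2]⟩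
      rw [hom, max_eq_left (hx.2.trans htb).le, min_eq_left (hlow x hx.1.le hx.2)]
      exact max_le (hf.circle' hx1) (hfy x hx.1.le hx.2)
    have hsplit : ∀ a, (∫ x in (0 : ℝ)..a, √(1 - x ^ 2)) - a * y =
        ∫ x in (0 : ℝ)..a, (√(1 - x ^ 2) - y) := by
      intro a; rw [integral_sub (hi 0 a) intervalIntegrable_const]; simp
    rcases le_total e t with het | het
    · rw [← integral_add_adjacent_intervals (hM.intervalIntegrable 0 e) (hM.intervalIntegrable e t)]
      have q1 := intervalIntegral.integral_mono_on he.1 (hi 0 e) (hM.intervalIntegrable 0 e)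
        fun x _ => le_max_left _ y
      have q2 := intervalIntegral.integral_mono_on het (intervalIntegrable_const (μ := volume) (c := y))
        (hM.intervalIntegrable e t) fun x _ => le_max_right _ _
      rw [intervalIntegral.integral_const, smul_eq_mul] at q2
      linarith
    · have q1 := intervalIntegral.integral_mono_on ht0 (hi 0 t) (hM.intervalIntegrable 0 t)
        fun x _ => le_max_left _ y
      have q2 : ∫ x in t..e, √(1 - x ^ 2) ≤ ∫ _x in t..e, y :=
        intervalIntegral.integral_mono_on het (hi t e) intervalIntegrable_const fun x hx =>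
          (sqrt_le_sqrt (by nlinarith [hx.1])).trans hyf
      rw [intervalIntegral.integral_const, smul_eq_mul] at q2
      rw [← integral_add_adjacent_intervals (hi 0 t) (hi t e)]
      linarith
  have p2 : (y + s) / 2 * L = ∫ x in t..b, hom f b x := by
    rw [intervalIntegral.integral_congr_ae (g := fun x => (1 - b * x) / s) ?_]
    · rw [integral_eq_sub_of_hasDerivAt (f := fun x => (x - b * x ^ 2 / 2) / s) (fun x _ => ?_)
        (Continuous.intervalIntegrable (by fun_prop) _ _)]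
      · rw [hyd, tang, ← hsd, hL]; field_simp; rw [hss]; ring
      · refine (((hasDerivAt_id x).sub (((hasDerivAt_pow 2 x).const_mul b).div_const 2)).div_const
          s).congr_deriv ?_
        simp; ring
    · filter_upwards [Measure.ae_ne volume b] with x hxb hx
      rw [uIoc_of_le htb.le] at hx
      rw [hom, max_eq_left hx.2, min_eq_right (hup x hx.1 (lt_of_le_of_ne hx.2 hxb)).le, tang]
  have p3 : (∫ x in (0 : ℝ)..σ, √(1 - x ^ 2)) - σ * b ≤ ∫ x in b..1, hom f b x := by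
    refine (cap_ge h0 h1 hσ).trans (le_of_eq (intervalIntegral.integral_congr fun x hx => ?_))
    rw [uIcc_of_le h1.le] at hx
    rw [hom, max_eq_right hx.1, tang_self,
      min_eq_right (hf.circle' ⟨h0.trans hx.1, hx.2⟩)]
  have hIsum : I f b = (∫ x in (0 : ℝ)..t, hom f b x) + (∫ x in t..b, hom f b x) +
      ∫ x in b..1, hom f b x := by
    rw [I, integral_add_adjacent_intervals (hFi 0 t hz htm) (hFi t b htm hbm),
      integral_add_adjacent_intervals (hFi 0 b hz hbm) (hFi b 1 hbm ho)]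
  have hlo : b * (y - s * b ^ 2 * r ^ 2 / 2) + ((∫ x in (0 : ℝ)..e, √(1 - x ^ 2)) - e * y)
      + ((∫ x in (0 : ℝ)..σ, √(1 - x ^ 2)) - σ * b) ≤ I f b := by
    have : t * y + (y + s) / 2 * L = b * (y - s * b ^ 2 * r ^ 2 / 2) := by
      rw [show t = b - L by rw [hL]; ring, hLe, hyr]; ring
    rw [hIsum, ← p2]; linarith
  rw [hI1, hI2, hLe]
  exact algebra_final h0 hs (show 0 ≤ r by positivity) (hlo := hlo) hΦ

lemma H_mono (hf : Prof f) {B : ℝ} (h0 : 0 ≤ B) (hB : B < 1) :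
    2 * I f 0 ^ 2 - W f 0 ≤ 2 * I f B ^ 2 - W f B := by
  have hd : ∀ b ∈ Ico (0 : ℝ) B, HasDerivWithinAt (fun b => -(2 * I f b ^ 2 - W f b))
      (-(4 * I f b * (∫ x in (0 : ℝ)..1, dHom f b x) -
        ∫ x in (0 : ℝ)..1, 2 * wt x * hom f b x * dHom f b x)) (Ici b) b := by
    intro b hb
    have h1 : b < 1 := hb.2.trans hB
    refine HasDerivWithinAt.Ici_of_Ioi ?_
    refine ((((hasDeriv_I hf hb.1 h1).pow 2).const_mul 2).sub (hasDeriv_W hf hb.1 h1)).neg.congr_deriv ?_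
    simp; ring
  have := image_le_of_deriv_right_le_deriv_boundary (B := fun _ => -(2 * I f 0 ^ 2 - W f 0))
    (B' := fun _ => 0) (hf.continuousOn_H hB).neg hd le_rfl continuousOn_const
    (fun b _ => hasDerivWithinAt_const _ _ _)
    (fun b hb => neg_nonpos.2 (hf.deriv_nonneg hb.1 (hb.2.trans hB))) (right_mem_Icc.2 h0)
  exact neg_le_neg_iff.1 this

lemma half_ineq (hf : Prof f) :
    4 * (7 / 5) / 45 ≤ 2 * (∫ x in (0 : ℝ)..1, f x) ^ 2 - ∫ x in (0 : ℝ)..1, wt x * f x ^ 2 := by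
  have h00 : 2 * I f 0 ^ 2 - W f 0 = 4 * (7 / 5) / 45 := by
    have e : EqOn (hom f 0) (fun x => √(1 - x ^ 2)) (uIcc (0 : ℝ) 1) := by
      rw [uIcc_of_le zero_le_one]
      intro x hx
      rw [hom, max_eq_right hx.1, tang_self, min_eq_right (hf.circle' hx)]
    have e2 : EqOn (fun x => wt x * hom f 0 x ^ 2) (fun x => wt x * (1 - x ^ 2)) (uIcc (0 : ℝ) 1) := by
      intro x hx
      simp only [e hx]
      rw [uIcc_of_le zero_le_one] at hx
      rw [sq_sqrt (by nlinarith [hx.1, hx.2])]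
    rw [I, W, intervalIntegral.integral_congr e, intervalIntegral.integral_congr e2, circle_int,
      integral_eq_sub_of_hasDerivAt (f := fun x => (3 * π ^ 2 / 16 - 7 / 15) * (x - x ^ 3 / 3) +
        7 / 5 * (x ^ 3 / 3 - x ^ 5 / 5)) (fun x _ => ?_)
        (Continuous.intervalIntegrable (by unfold wt; fun_prop) _ _)]
    · simp; ring
    · refine ((((hasDerivAt_id x).sub ((hasDerivAt_pow 3 x).div_const 3)).const_mul _).add
        ((((hasDerivAt_pow 3 x).div_const 3).sub ((hasDerivAt_pow 5 x).div_const 5)).const_mul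
          _)).congr_deriv ?_
      simp [wt]; ring
  set bn : ℕ → ℝ := fun n => 1 - 1 / ((n : ℝ) + 2) with hbn
  have hb : ∀ n, 0 ≤ bn n ∧ bn n < 1 := by
    intro n
    have h2 : (1 : ℝ) / ((n : ℝ) + 2) ≤ 1 := by
      rw [div_le_one (by positivity)]
      linarith [(Nat.cast_nonneg n : (0 : ℝ) ≤ n)]
    have h3 : (0 : ℝ) < 1 / ((n : ℝ) + 2) := by positivity
    constructor <;> simp only [hbn] <;> linarith
  have hlim : Tendsto bn atTop (𝓝 1) := by
    have := ((tendsto_natCast_atTop_atTop (R := ℝ)).atTop_add (tendsto_const_nhds (x := (2 : ℝ)))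
      ).inv_tendsto_atTop
    simpa [hbn, one_div] using this.const_sub 1
  have hpt : ∀ x, 0 ≤ x → x < 1 → ∀ᶠ n in atTop, hom f (bn n) x = f x := by
    intro x hx0 hx1
    have hδ : Tendsto (fun n => √(1 - bn n ^ 2)) atTop (𝓝 0) := by
      simpa using ((hlim.pow 2).const_sub 1).sqrt
    filter_upwards [hlim.eventually (eventually_gt_nhds hx1),
      hδ.eventually (eventually_lt_nhds (show (0 : ℝ) < (1 - x) / 2 by linarith))] with n hn hn'
    rw [hom, max_eq_left hn.le, min_eq_left]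
    rw [tang, le_div_iff₀ (sqrt_pos_of_lt (hb n).1 (hb n).2)]
    nlinarith [hf.le_max' ⟨hx0, hx1.le⟩, hf.nonneg ⟨hx0, hx1.le⟩, sqrt_nonneg (1 - bn n ^ 2),
      (hb n).2]
  have l1 : Tendsto (fun n => I f (bn n)) atTop (𝓝 (∫ x in (0 : ℝ)..1, f x)) := by
    refine tendsto_integral_filter_of_dominated_convergence (fun _ => 7 / 4)
      (Eventually.of_forall fun n => hf.hom_meas _) ?_ intervalIntegrable_const ?_
    · refine Eventually.of_forall fun n => Eventually.of_forall fun x hx => ?_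
      rw [uIoc_of_le zero_le_one] at hx
      obtain ⟨q1, q2⟩ := hf.hom_mem (hb n).1 (hb n).2 (Ioc_subset_Icc_self hx)
      rwa [Real.norm_eq_abs, abs_of_nonneg q1]
    · filter_upwards [Measure.ae_ne volume (1 : ℝ)] with x hx hx'
      rw [uIoc_of_le zero_le_one] at hx'
      exact tendsto_const_nhds.congr'
        ((hpt x hx'.1.le (lt_of_le_of_ne hx'.2 hx)).mono fun n hn => hn.symm)
  have l2 : Tendsto (fun n => W f (bn n)) atTop (𝓝 (∫ x in (0 : ℝ)..1, wt x * f x ^ 2)) := by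
    refine tendsto_integral_filter_of_dominated_convergence (fun _ => 3 * (7 / 4) ^ 2)
      (Eventually.of_forall fun n => hf.wsq_meas _) ?_ intervalIntegrable_const ?_
    · refine Eventually.of_forall fun n => Eventually.of_forall fun x hx => ?_
      rw [uIoc_of_le zero_le_one] at hx
      obtain ⟨q1, q2⟩ := hf.hom_mem (hb n).1 (hb n).2 (Ioc_subset_Icc_self hx)
      obtain ⟨q3, q4⟩ := wt_bound (Ioc_subset_Icc_self hx)
      rw [Real.norm_eq_abs, abs_of_nonneg (mul_nonneg q3 (sq_nonneg _))]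
      exact mul_le_mul q4 (pow_le_pow_left₀ q1 q2 2) (sq_nonneg _) (by norm_num)
    · filter_upwards [Measure.ae_ne volume (1 : ℝ)] with x hx hx'
      rw [uIoc_of_le zero_le_one] at hx'
      exact tendsto_const_nhds.congr'
        ((hpt x hx'.1.le (lt_of_le_of_ne hx'.2 hx)).mono fun n hn => by simp only [hn])
  exact ge_of_tendsto' (((l1.pow 2).const_mul 2).sub l2) fun n =>
    h00 ▸ hf.H_mono (hb n).1 (hb n).2

end Prof

end OneDim

open MeasureTheory Set OneDim in
/-- The one-dimensional inequality. -/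
theorem oneDimSpec : OneDimSpec := by
  intro f hc he h7 hcirc
  have hf : Prof f := ⟨hc, he, h7, hcirc⟩
  have i1 : IntervalIntegrable f volume 0 1 :=
    Prof.integrable_of_bound (C := 7 / 4) hf.meas fun x hx => by
      rw [abs_of_nonneg (hf.nonneg hx)]; exact hf.le_max' hx
  have i2 : IntervalIntegrable (fun x => f x ^ 2) volume 0 1 :=
    Prof.integrable_of_bound (C := (7 / 4) ^ 2) (hf.meas.pow 2) fun x hx => by
      rw [abs_of_nonneg (sq_nonneg _)]
      exact pow_le_pow_left₀ (hf.nonneg hx) (hf.le_max' hx) 2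
  have i3 : IntervalIntegrable (fun x => f x ^ 2 * (x ^ 2 - 1 / 3)) volume 0 1 :=
    i2.mul_continuousOn (by fun_prop)
  rw [integral_half he i1, integral_half (h := fun x => f x ^ 2) (fun x => by rw [he]) i2,
    integral_half (h := fun x => f x ^ 2 * (x ^ 2 - 1 / 3)) (fun x => by rw [he, neg_sq]) i3]
  have h := hf.half_ineq
  have e : ∫ x in (0 : ℝ)..1, wt x * f x ^ 2 =
      3 * Real.pi ^ 2 / 16 * (∫ x in (0 : ℝ)..1, f x ^ 2) +
        7 / 5 * ∫ x in (0 : ℝ)..1, f x ^ 2 * (x ^ 2 - 1 / 3) := by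
    rw [← intervalIntegral.integral_const_mul, ← intervalIntegral.integral_const_mul,
      ← intervalIntegral.integral_add (i2.const_mul _) (i3.const_mul _)]
    refine intervalIntegral.integral_congr fun x _ => ?_
    simp only [wt]; ring
  rw [e] at h
  linarith

end Vale.Agent.P237
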