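import Vale.Agent.P237.Basics
import Vale.Agent.P237.PerpCoord

/-!
# P237, module B: projection volumes

`pv K v = ‖v‖ * projVol K (v/‖v‖)` (segment Fubini), and the cosine-transform representation
`pv K v = n/2 ∫_K |⟪v, ∇ gauge K⟫|` for `0 ∈ interior K`, from which sublinearity and the
properties of the projection body follow.
-/

namespace Vale.Agent.P237

open MeasureTheory Set Filter Topology Metric
open scoped Pointwise RealInnerProductSpace ENNReal NNReal

variable {n : ℕ} {K : Set (E n)} {u : E n}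

/-- The projection of `K` on `u^⊥`. -/
noncomputable abbrev projSet (K : Set (E n)) (u : E n) : Set (Perp u) :=
  (Perp u).orthogonalProjectionOnto '' K

lemma proj_perpCoord (p : ℝ × Perp u) :
    (Perp u).orthogonalProjectionOnto (perpCoord u p) = p.2 := by
  have h : (Perp u).orthogonalProjectionOnto u = 0 :=
    Submodule.orthogonalProjectionOnto_eq_zero_iff.2
      (Submodule.le_orthogonal_orthogonal _ (Submodule.mem_span_singleton_self u))
  simp [perpCoord, h]

lemma exists_perpCoord (hu : ‖u‖ = 1) (x : E n) : ∃ p : ℝ × Perp u, perpCoord u p = x := by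
  refine ⟨(⟪x, u⟫, ⟨x - ⟪x, u⟫ • u, ?_⟩), by simp [perpCoord]⟩
  rw [Submodule.mem_orthogonal_singleton_iff_inner_right, inner_sub_right, real_inner_smul_right,
    real_inner_self_eq_norm_sq, hu, real_inner_comm u x]
  ring

lemma mem_projSet (hu : ‖u‖ = 1) {y : Perp u} :
    y ∈ projSet K u ↔ ∃ t : ℝ, perpCoord u (t, y) ∈ K := by
  constructor
  · rintro ⟨x, hx, rfl⟩
    obtain ⟨p, rfl⟩ := exists_perpCoord hu x
    exact ⟨p.1, by rwa [proj_perpCoord]⟩
  · rintro ⟨t, ht⟩
    exact ⟨_, ht, proj_perpCoord _⟩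

lemma isCompact_projSet (hK : IsCompact K) : IsCompact (projSet K u) :=
  hK.image (Perp u).orthogonalProjectionOnto.continuous

lemma line_slice (hK : Convex ℝ K) (hKc : IsCompact K) (hu : ‖u‖ = 1) {y : Perp u}
    (hne : {t : ℝ | perpCoord u (t, y) ∈ K}.Nonempty) :
    ∃ a b : ℝ, a ≤ b ∧ {t : ℝ | perpCoord u (t, y) ∈ K} = Icc a b := by
  set S := {t : ℝ | perpCoord u (t, y) ∈ K}
  have hcl : IsClosed S := hKc.isClosed.preimage ((continuous_perpCoord u).comp (by fun_prop))
  obtain ⟨r, hr⟩ := hKc.isBounded.subset_closedBall 0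
  have hb : S ⊆ Icc (-r) r := fun t ht => by
    have h1 := norm_sq_perpCoord hu (t, y)
    have h2 : ‖perpCoord u (t, y)‖ ≤ r := mem_closedBall_zero_iff.1 (hr ht)
    have hsq : t ^ 2 ≤ r ^ 2 := by
      have := pow_le_pow_left₀ (norm_nonneg _) h2 2
      have h4 : 0 ≤ ‖(t, y).2‖ ^ 2 := sq_nonneg _
      simp only at h1 h4
      linarith
    have h3 : |t| ≤ r := abs_le_of_sq_le_sq hsq ((norm_nonneg _).trans h2)
    exact abs_le.1 h3
  have hc : Convex ℝ S := fun s hs t ht a b ha hb hab => by
    have := hK hs ht ha hb hab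
    have e : perpCoord u (a • s + b • t, y) = a • perpCoord u (s, y) + b • perpCoord u (t, y) := by
      simp only [perpCoord, smul_add, smul_smul, smul_eq_mul]
      linear_combination (norm := module) -hab • (y : E n)
    show perpCoord u (a • s + b • t, y) ∈ K
    rw [e]; exact this
  have hS : IsCompact S := isCompact_Icc.of_isClosed_subset hcl hb
  exact ⟨sInf S, sSup S, csInf_le_csSup hne hS.bddBelow hS.bddAbove,
    eq_Icc_of_connected_compact ⟨hne, hc.isPreconnected⟩ hS⟩

lemma volume_add_segment (hK : Body K) (hu : ‖u‖ = 1) {s : ℝ} (hs : 0 ≤ s) :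
    volume (K + segment ℝ 0 (s • u)) = volume K + ENNReal.ofReal s * volume (projSet K u) := by
  have hseg : IsCompact (segment ℝ (0 : E n) (s • u)) := by
    rw [segment_eq_image]; exact isCompact_Icc.image (by fun_prop)
  have hme := measurableEmbedding_perpCoord hu
  have hmp := measurePreserving_perpCoord hu
  have key : ∀ A : Set (E n), IsCompact A →
      volume A = ∫⁻ y : Perp u, volume {t : ℝ | perpCoord u (t, y) ∈ A} := by
    intro A hA
    rw [← hmp.measure_preimage_emb hme A, Measure.volume_eq_prod,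
      Measure.prod_apply_symm (hA.isClosed.measurableSet.preimage hme.measurable)]
    rfl
  have hP : MeasurableSet (projSet K u) := (isCompact_projSet hK.compact).isClosed.measurableSet
  have hmeas : Measurable fun y : Perp u => volume {t : ℝ | perpCoord u (t, y) ∈ K} :=
    measurable_measure_prodMk_right (hK.compact.isClosed.measurableSet.preimage hme.measurable)
  rw [key _ (hK.compact.add hseg), key _ hK.compact, ← setLIntegral_const,
    ← lintegral_indicator hP, ← lintegral_add_left hmeas]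
  refine lintegral_congr fun y => ?_
  have hset : {t : ℝ | perpCoord u (t, y) ∈ K + segment ℝ 0 (s • u)} =
      {t : ℝ | perpCoord u (t, y) ∈ K} + Icc 0 s := by
    ext t
    simp only [mem_ofPred_eq, Set.mem_add, segment_eq_image, mem_image, smul_zero, zero_add]
    constructor
    · rintro ⟨x, hx, _, ⟨θ, hθ, rfl⟩, he⟩
      refine ⟨t - θ * s, ?_, θ * s, ⟨mul_nonneg hθ.1 hs, mul_le_of_le_one_left hs hθ.2⟩, by ring⟩
      have : perpCoord u (t - θ * s, y) = x := by
        simp only [perpCoord] at he ⊢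
        linear_combination (norm := module) -he
      rwa [this]
    · rintro ⟨t', ht', τ, hτ, rfl⟩
      refine ⟨_, ht', τ • u, ?_, by simp only [perpCoord, add_smul]; abel⟩
      rcases hs.eq_or_lt with rfl | hs'
      · exact ⟨0, ⟨le_rfl, zero_le_one⟩, by simp [show τ = 0 by linarith [hτ.1, hτ.2]]⟩
      · exact ⟨τ / s, ⟨div_nonneg hτ.1 hs, (div_le_one hs').2 hτ.2⟩, by
          rw [smul_smul, div_mul_cancel₀ _ hs'.ne']⟩
  rw [hset]
  by_cases hy : y ∈ projSet K u
  · obtain ⟨a, b, hab, e⟩ := line_slice hK.convex hK.compact hu ((mem_projSet hu).1 hy)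
    rw [indicator_of_mem hy, e, Icc_add_Icc hab hs, Real.volume_Icc, Real.volume_Icc,
      ← ENNReal.ofReal_add (sub_nonneg.2 hab) hs]
    congr 1; ring
  · have e : {t : ℝ | perpCoord u (t, y) ∈ K} = ∅ :=
      eq_empty_of_forall_notMem fun t ht => hy ((mem_projSet hu).2 ⟨t, ht⟩)
    simp [indicator_of_notMem hy, e]

theorem pvProjSpec : PvProjSpec := by
  intro n K v _ hK
  rcases eq_or_ne v 0 with rfl | hv
  · simp [pv, segment_same]
  have hu : ‖‖v‖⁻¹ • v‖ = 1 := norm_smul_inv_norm hv
  have hv' : ‖v‖ • (‖v‖⁻¹ • v) = v := by rw [smul_smul, mul_inv_cancel₀ (norm_ne_zero_iff.2 hv), one_smul]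
  have h := volume_add_segment hK hu (norm_nonneg v)
  rw [hv'] at h
  rw [pv, vol, vol, h, ENNReal.toReal_add hK.compact.measure_lt_top.ne
    (ENNReal.mul_ne_top ENNReal.ofReal_ne_top (isCompact_projSet hK.compact).measure_lt_top.ne),
    ENNReal.toReal_mul, ENNReal.toReal_ofReal (norm_nonneg v), projVol]
  ring

/-- Total variation of a convex function on one of its sublevel intervals. -/
lemma line_var {f : ℝ → ℝ} {C : ℝ≥0} (hf : ConvexOn ℝ univ f) (hL : LipschitzWith C f) {a b c r : ℝ}
    (hac : a ≤ c) (hcb : c ≤ b) (fa : f a = r) (fb : f b = r) (hc : ∀ t, f c ≤ f t) :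
    ∫ t in a..b, |deriv f t| = 2 * (r - f c) := by
  have hmon : MonotoneOn f (Ici c) := by
    intro x hx y hy hxy
    exact (hf.le_max_of_mem_Icc (mem_univ c) (mem_univ y) ⟨hx, hxy⟩).trans
      (max_le (hc y) le_rfl)
  have hanti : AntitoneOn f (Iic c) := by
    intro x hx y hy hxy
    exact (hf.le_max_of_mem_Icc (mem_univ x) (mem_univ c) ⟨hxy, hy⟩).trans
      (max_le le_rfl (hc x))
  have hac' : AbsolutelyContinuousOnInterval f a c := hL.lipschitzOnWith.absolutelyContinuousOnInterval
  have hcb' : AbsolutelyContinuousOnInterval f c b := hL.lipschitzOnWith.absolutelyContinuousOnInterval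
  have h1 : ∫ t in a..c, |deriv f t| = ∫ t in a..c, -deriv f t := by
    refine intervalIntegral.integral_congr_ae ?_
    filter_upwards [Measure.ae_ne volume c] with t htc ht
    rw [uIoc_of_le hac] at ht
    have htc' : t < c := lt_of_le_of_ne ht.2 htc
    refine abs_of_nonpos ?_
    rw [← derivWithin_of_isOpen isOpen_Iio (mem_Iio.2 htc')]
    exact (hanti.mono Iio_subset_Iic_self).derivWithin_nonpos
  have h2 : ∫ t in c..b, |deriv f t| = ∫ t in c..b, deriv f t := by
    refine intervalIntegral.integral_congr_ae (Filter.Eventually.of_forall fun t ht => ?_)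
    rw [uIoc_of_le hcb] at ht
    refine abs_of_nonneg ?_
    rw [← derivWithin_of_isOpen isOpen_Ioi (mem_Ioi.2 ht.1)]
    exact (hmon.mono Ioi_subset_Ici_self).derivWithin_nonneg
  have hia := hac'.intervalIntegrable_deriv.abs
  have hib := hcb'.intervalIntegrable_deriv.abs
  rw [← intervalIntegral.integral_add_adjacent_intervals hia hib, h1, h2,
    intervalIntegral.integral_neg, hac'.integral_deriv_eq_sub, hcb'.integral_deriv_eq_sub, fa, fb]
  ring

/-- The gradient of the gauge of `K`. -/
noncomputable def ggrad (K : Set (E n)) (x : E n) : E n :=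
  (InnerProductSpace.toDual ℝ (E n)).symm (fderiv ℝ (gauge K) x)

lemma inner_ggrad (K : Set (E n)) (x v : E n) : ⟪ggrad K x, v⟫ = fderiv ℝ (gauge K) x v :=
  InnerProductSpace.toDual_symm_apply

lemma measurable_ggrad (K : Set (E n)) : Measurable (ggrad K) :=
  (InnerProductSpace.toDual ℝ (E n)).symm.continuous.measurable.comp (measurable_fderiv ℝ _)

lemma mem_nhds_zero (h0 : (0 : E n) ∈ interior K) : K ∈ 𝓝 (0 : E n) := mem_interior_iff_mem_nhds.1 h0

lemma gauge_le_iff (hK : Body K) (h0 : (0 : E n) ∈ interior K) {x : E n} :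
    gauge K x ≤ 1 ↔ x ∈ K := by
  rw [gauge_le_one_iff_mem_closure hK.convex (mem_nhds_zero h0), hK.compact.isClosed.closure_eq]

lemma exists_gauge_lipschitz (hK : Body K) (h0 : (0 : E n) ∈ interior K) :
    ∃ C : ℝ≥0, LipschitzWith C (gauge K) := by
  obtain ⟨r, hr, hrK⟩ := Metric.mem_nhds_iff.1 (mem_nhds_zero h0)
  lift r to ℝ≥0 using hr.le
  exact ⟨r⁻¹, hK.convex.lipschitzWith_gauge (by exact_mod_cast hr) hrK⟩

lemma mem_projNhds (h0 : (0 : E n) ∈ interior K) : projSet K u ∈ 𝓝 (0 : Perp u) := by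
  obtain ⟨r, hr, hrK⟩ := Metric.mem_nhds_iff.1 (mem_nhds_zero h0)
  refine Metric.mem_nhds_iff.2 ⟨r, hr, fun y hy => ⟨(y : E n), hrK ?_, ?_⟩⟩
  · simpa using hy
  · exact Submodule.orthogonalProjectionOnto_mem_subspace_eq_self y

lemma convex_projSet (hK : Convex ℝ K) : Convex ℝ (projSet K u) :=
  hK.linear_image (Perp u).orthogonalProjectionOnto.toLinearMap

lemma gauge_proj_le_iff (hK : Body K) (h0 : (0 : E n) ∈ interior K) {y : Perp u} {s : ℝ}
    (hs : 0 ≤ s) : gauge (projSet K u) y ≤ s ↔ y ∈ s • projSet K u := by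
  refine ⟨fun h => ?_, fun h => gauge_le_of_mem hs h⟩
  have hP := isCompact_projSet (u := u) hK.compact
  have hn := mem_projNhds (u := u) h0
  rcases hs.eq_or_lt with rfl | hs'
  · have hy : y = 0 := (gauge_eq_zero (absorbent_nhds_zero hn)
      (NormedSpace.isVonNBounded_of_isBounded ℝ hP.isBounded)).1 (le_antisymm h (gauge_nonneg y))
    subst hy
    exact ⟨0, mem_of_mem_nhds hn, smul_zero _⟩
  · have h1 : gauge (projSet K u) (s⁻¹ • y) ≤ 1 := by
      rw [gauge_smul_of_nonneg (inv_nonneg.2 hs), smul_eq_mul, inv_mul_le_iff₀ hs', mul_one]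
      exact h
    rw [gauge_le_one_iff_mem_closure (convex_projSet hK.convex) hn, hP.isClosed.closure_eq] at h1
    rwa [Set.mem_smul_set_iff_inv_smul_mem₀ hs'.ne']

lemma exists_line_min (hK : Body K) (h0 : (0 : E n) ∈ interior K) (hu : ‖u‖ = 1) (y : Perp u) :
    ∃ c, gauge K (perpCoord u (c, y)) = gauge (projSet K u) y ∧
      ∀ t, gauge (projSet K u) y ≤ gauge K (perpCoord u (t, y)) := by
  have hle : ∀ t, gauge (projSet K u) y ≤ gauge K (perpCoord u (t, y)) := fun t => by
    refine le_of_forall_gt_imp_ge_of_dense fun r hr => ?_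
    obtain ⟨b, hb0, hbr, x, hx, hxe⟩ :=
      exists_lt_of_gauge_lt (absorbent_nhds_zero (mem_nhds_zero h0)) hr
    refine le_trans (gauge_le_of_mem hb0.le ?_) hbr.le
    refine ⟨_, ⟨x, hx, rfl⟩, ?_⟩
    have := congrArg (Perp u).orthogonalProjectionOnto hxe
    simpa [proj_perpCoord] using this
  obtain ⟨p, ⟨x, hx, rfl⟩, hp⟩ := (gauge_proj_le_iff hK h0 (gauge_nonneg y)).1 (le_refl (gauge (projSet K u) y))
  obtain ⟨q, rfl⟩ := exists_perpCoord hu x
  rw [proj_perpCoord] at hp
  set m := gauge (projSet K u) y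
  refine ⟨m * q.1, le_antisymm ?_ (hle _), hle⟩
  refine gauge_le_of_mem (gauge_nonneg _) ⟨_, hx, ?_⟩
  simp [perpCoord, ← hp, smul_add, smul_smul]

lemma convexOn_line (hK : Body K) (h0 : (0 : E n) ∈ interior K) (y : Perp u) :
    ConvexOn ℝ univ fun t : ℝ => gauge K (perpCoord u (t, y)) := by
  refine ⟨convex_univ, fun s _ t _ a b ha hb hab => ?_⟩
  have e : perpCoord u (a • s + b • t, y) = a • perpCoord u (s, y) + b • perpCoord u (t, y) := by
    simp only [perpCoord, smul_add, smul_smul, smul_eq_mul]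
    linear_combination (norm := module) -hab • (y : E n)
  simp only [e]
  refine (gauge_add_le hK.convex (absorbent_nhds_zero (mem_nhds_zero h0)) _ _).trans ?_
  rw [gauge_smul_of_nonneg ha, gauge_smul_of_nonneg hb]

lemma inner_line (hK : Body K) (h0 : (0 : E n) ∈ interior K) (hu : ‖u‖ = 1) (y : Perp u)
    (hd : ∀ᵐ t : ℝ, DifferentiableAt ℝ (gauge K) (perpCoord u (t, y))) :
    ∫ t : ℝ, K.indicator (fun x => |⟪ggrad K x, u⟫|) (perpCoord u (t, y)) =
      2 * max 0 (1 - gauge (projSet K u) y) := by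
  obtain ⟨c, hc, hmin⟩ := exists_line_min hK h0 hu y
  set m := gauge (projSet K u) y
  set f := fun t : ℝ => gauge K (perpCoord u (t, y)) with hf
  set S := {t : ℝ | perpCoord u (t, y) ∈ K}
  have hSm : ∀ t, t ∈ S ↔ f t ≤ 1 := fun t => (gauge_le_iff hK h0).symm
  rcases lt_or_ge 1 m with hm | hm
  · have e : ∀ t, perpCoord u (t, y) ∉ K := fun t ht => by
      have := (hSm t).1 ht
      linarith [hmin t]
    simp [indicator_of_notMem (e _), max_eq_left (show 1 - m ≤ 0 by linarith)]
  obtain ⟨C, hC⟩ := exists_gauge_lipschitz hK h0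
  have hl : LipschitzWith 1 fun t : ℝ => perpCoord u (t, y) := LipschitzWith.of_dist_le_mul fun s t => by
    simp [perpCoord, dist_eq_norm, ← sub_smul, norm_smul, hu]
  have hfL : LipschitzWith (C * 1) f := hC.comp hl
  have hcS : c ∈ S := (hSm c).2 (by rw [hf]; simp only; linarith)
  obtain ⟨a, b, hab, e⟩ := line_slice hK.convex hK.compact hu ⟨c, hcS⟩
  have hca : a ≤ c ∧ c ≤ b := by
    have : c ∈ Icc a b := e ▸ hcS
    exact this
  have hend : ∀ x ∈ S, (∀ δ > 0, x - δ ∉ S) ∨ (∀ δ > 0, x + δ ∉ S) → f x = 1 := by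
    intro x hx h
    refine le_antisymm ((hSm x).1 hx) (le_of_not_gt fun hlt => ?_)
    obtain ⟨δ, hδ, hδ'⟩ := Metric.eventually_nhds_iff.1
      (hfL.continuous.continuousAt.eventually (eventually_lt_nhds hlt))
    rcases h with h | h
    · refine h (δ / 2) (half_pos hδ) ((hSm _).2 (hδ' ?_).le)
      simp [abs_of_pos hδ, hδ]
    · refine h (δ / 2) (half_pos hδ) ((hSm _).2 (hδ' ?_).le)
      simp [abs_of_pos hδ, hδ]
  have fa : f a = 1 := hend a (show a ∈ {t : ℝ | perpCoord u (t, y) ∈ K} by rw [e]; exact ⟨le_rfl, hab⟩) (.inl fun δ hδ h => by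
    have : a - δ ∈ Icc a b := e ▸ h
    linarith [this.1])
  have fb : f b = 1 := hend b (show b ∈ {t : ℝ | perpCoord u (t, y) ∈ K} by rw [e]; exact ⟨hab, le_rfl⟩) (.inr fun δ hδ h => by
    have : b + δ ∈ Icc a b := e ▸ h
    linarith [this.2])
  have key := line_var (convexOn_line hK h0 y) hfL hca.1 hca.2 fa fb (fun t => hc ▸ hmin t)
  rw [max_eq_right (by linarith : (0:ℝ) ≤ 1 - m), ← hc, ← key, intervalIntegral.integral_of_le hab,
    ← integral_Icc_eq_integral_Ioc, ← integral_indicator measurableSet_Icc]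
  refine integral_congr_ae ?_
  filter_upwards [hd] with t ht
  by_cases h : t ∈ S
  · have h' : t ∈ Icc a b := e ▸ h
    rw [indicator_of_mem (show perpCoord u (t, y) ∈ K from h), indicator_of_mem h', inner_ggrad]
    congr 1
    have hline : HasDerivAt (fun t : ℝ => perpCoord u (t, y)) u t := by
      simpa [perpCoord] using ((hasDerivAt_id t).smul_const u).add_const (y : E n)
    exact (ht.hasFDerivAt.comp_hasDerivAt t hline).deriv.symm
  · have h' : t ∉ Icc a b := e ▸ h
    rw [indicator_of_notMem (show perpCoord u (t, y) ∉ K from h), indicator_of_notMem h']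

lemma integral_proj_profile (hK : Body K) (h0 : (0 : E n) ∈ interior K) (hn : 2 ≤ n) (hu : ‖u‖ = 1) :
    ∫ y : Perp u, max 0 (1 - gauge (projSet K u) y) = projVol K u / n := by
  obtain ⟨m, rfl⟩ : ∃ m, n = m + 1 := ⟨n - 1, by omega⟩
  have hd := finrank_perp hu
  set P := projSet K u
  set h := fun y : Perp u => max 0 (1 - gauge P y) with hh
  have hcont : Continuous h :=
    continuous_const.max (continuous_const.sub
      (continuous_gauge (convex_projSet hK.convex) (mem_projNhds h0)))
  have hsupp : ∀ y, y ∉ P → h y = 0 := fun y hy => by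
    refine max_eq_left (sub_nonpos.2 (le_of_not_ge fun hg => hy ?_))
    have := (gauge_proj_le_iff hK h0 zero_le_one).1 hg
    rwa [one_smul] at this
  have hint : Integrable h := by
    refine (hcont.continuousOn.integrableOn_compact (isCompact_projSet hK.compact)).integrable_of_forall_notMem_eq_zero ?_
    exact hsupp
  rw [hint.integral_eq_integral_meas_le (.of_forall fun y => le_max_left _ _)]
  have hset : ∀ t ∈ Ioi (0 : ℝ), volume.real {y | t ≤ h y} =
      (Iic (1 : ℝ)).indicator (fun t => (1 - t) ^ m * projVol K u) t := by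
    intro t ht
    rw [mem_Ioi] at ht
    by_cases h1 : t ≤ 1
    · have e : {y | t ≤ h y} = (1 - t) • P := by
        ext y
        rw [mem_ofPred_eq, ← gauge_proj_le_iff hK h0 (by linarith), hh]
        simp only [le_max_iff]
        constructor
        · rintro (hh | hh) <;> linarith
        · intro hh; right; linarith
      rw [indicator_of_mem (mem_Iic.2 h1), e, Measure.real,
        Measure.addHaar_smul_of_nonneg _ (by linarith), hd, ENNReal.toReal_mul,
        ENNReal.toReal_ofReal (by have : 0 ≤ 1 - t := by linarith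
                                  positivity)]
      rfl
    · have e : {y | t ≤ h y} = ∅ := eq_empty_of_forall_notMem fun y hy => by
        have := gauge_nonneg (s := P) y
        have hy' : t ≤ max 0 (1 - gauge P y) := hy
        rcases le_max_iff.1 hy' with hh | hh <;> linarith
      simp [e, indicator_of_notMem (mt mem_Iic.1 h1)]
  rw [setIntegral_congr_fun measurableSet_Ioi hset, setIntegral_indicator measurableSet_Iic,
    Ioi_inter_Iic, ← intervalIntegral.integral_of_le zero_le_one, intervalIntegral.integral_mul_const,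
    intervalIntegral.integral_comp_sub_left (fun x => x ^ m) 1, sub_zero, sub_self, integral_pow]
  simp [div_eq_mul_inv, mul_comm]

lemma ggrad_bound (hK : Body K) (h0 : (0 : E n) ∈ interior K) : ∃ r : ℝ, ∀ x, ‖ggrad K x‖ ≤ r := by
  obtain ⟨C, hC⟩ := exists_gauge_lipschitz hK h0
  exact ⟨C, fun x => by rw [ggrad, LinearIsometryEquiv.norm_map]; exact norm_fderiv_le_of_lipschitz ℝ hC⟩

lemma integral_abs_ggrad (hK : Body K) (h0 : (0 : E n) ∈ interior K) (hn : 2 ≤ n) (hu : ‖u‖ = 1) :
    ∫ x in K, |⟪ggrad K x, u⟫| = 2 * projVol K u / n := by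
  have hme := measurableEmbedding_perpCoord hu
  have hmp := measurePreserving_perpCoord hu
  obtain ⟨r, hr⟩ := ggrad_bound hK h0
  obtain ⟨C, hC⟩ := exists_gauge_lipschitz hK h0
  have hm : Measurable fun x => |⟪ggrad K x, u⟫| := ((measurable_ggrad K).inner_const).abs
  have hKm := hK.compact.isClosed.measurableSet
  have : IsFiniteMeasure (volume.restrict K) := ⟨by simpa using hK.compact.measure_lt_top⟩
  have hint : Integrable (K.indicator fun x => |⟪ggrad K x, u⟫|) := by
    rw [integrable_indicator_iff hKm]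
    refine Integrable.of_bound hm.aestronglyMeasurable r (.of_forall fun x => ?_)
    rw [Real.norm_eq_abs, abs_abs]
    simpa [hu] using (abs_real_inner_le_norm (ggrad K x) u).trans
      (by rw [hu, mul_one]; exact hr x)
  have hint' := (hmp.integrable_comp_emb hme).2 hint
  rw [← integral_indicator hKm, ← hmp.integral_comp hme, Measure.volume_eq_prod,
    integral_prod_symm (fun p => K.indicator (fun x => |⟪ggrad K x, u⟫|) (perpCoord u p))
      (by simpa [Measure.volume_eq_prod, Function.comp_def] using hint')]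
  have hd : ∀ᵐ y : Perp u, ∀ᵐ t : ℝ, DifferentiableAt ℝ (gauge K) (perpCoord u (t, y)) := by
    have h1 := hmp.quasiMeasurePreserving.ae hC.ae_differentiableAt
    rw [Measure.volume_eq_prod] at h1
    exact Measure.ae_ae_of_ae_prod
      ((Measure.measurePreserving_swap).quasiMeasurePreserving.ae h1)
  rw [integral_congr_ae (hd.mono fun y hy => inner_line hK h0 hu y hy), integral_const_mul,
    integral_proj_profile hK h0 hn hu]
  ring

/-- The representing measure of a body containing the origin in its interior. -/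
noncomputable def repMeasure (K : Set (E n)) : Measure (E n) :=
  (n : ℝ≥0) • (volume.restrict K).map (ggrad K)

lemma repMeasure_spec (hn : 2 ≤ n) (hK : Body K) (h0 : (0 : E n) ∈ interior K) :
    IsFiniteMeasure (repMeasure K) ∧ (∃ r : ℝ, ∀ᵐ w ∂repMeasure K, ‖w‖ ≤ r) ∧
      ∀ v, pv K v = (1 / 2) * ∫ w, |⟪v, w⟫| ∂repMeasure K := by
  have : IsFiniteMeasure (volume.restrict K) := ⟨by simpa using hK.compact.measure_lt_top⟩
  obtain ⟨r, hr⟩ := ggrad_bound hK h0
  refine ⟨by unfold repMeasure; infer_instance, ⟨r, ?_⟩, fun v => ?_⟩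
  · refine Measure.ae_smul_measure ?_ _
    rw [ae_map_iff (measurable_ggrad K).aemeasurable (isClosed_le continuous_norm continuous_const).measurableSet]
    exact .of_forall hr
  · rw [repMeasure, integral_smul_nnreal_measure,
      integral_map (measurable_ggrad K).aemeasurable (by fun_prop), pvProjSpec n K v hn hK]
    rcases eq_or_ne v 0 with rfl | hv
    · simp
    have hu : ‖‖v‖⁻¹ • v‖ = 1 := norm_smul_inv_norm hv
    have h := integral_abs_ggrad hK h0 hn hu
    have e : ∀ x, |⟪v, ggrad K x⟫| = ‖v‖ * |⟪ggrad K x, ‖v‖⁻¹ • v⟫| := fun x => by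
      rw [real_inner_smul_right, abs_mul, abs_inv, abs_norm, real_inner_comm v, ← mul_assoc,
        mul_inv_cancel₀ (norm_ne_zero_iff.2 hv), one_mul]
    simp only [e, integral_const_mul, h, NNReal.smul_def, NNReal.coe_natCast, smul_eq_mul]
    field_simp

theorem pvRepSpec : PvRepSpec := by
  intro n K hn hK
  obtain ⟨a, ha⟩ := hK.interior_nonempty
  have h0 : (0 : E n) ∈ interior ((-a) +ᵥ K) := by
    rw [interior_vadd]
    exact ⟨a, ha, by simp⟩
  obtain ⟨h1, h2, h3⟩ := repMeasure_spec hn (hK.vadd (-a)) h0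
  exact ⟨_, h1, h2, fun v => by rw [← h3 v, pv_vadd]⟩

lemma projVol_pos (hK : Body K) (u : E n) : 0 < projVol K u := by
  refine ENNReal.toReal_pos (ne_of_gt ?_) (isCompact_projSet hK.compact).measure_lt_top.ne
  have ho : IsOpenMap (Perp u).orthogonalProjectionOnto :=
    (Perp u).orthogonalProjectionOnto.isOpenMap fun y => ⟨y, Submodule.orthogonalProjectionOnto_mem_subspace_eq_self y⟩
  exact lt_of_lt_of_le ((ho _ isOpen_interior).measure_pos volume (hK.interior_nonempty.image _))
    (measure_mono (image_mono interior_subset))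

theorem pvBasicSpec : PvBasicSpec := by
  intro n K hn hK
  obtain ⟨μ, hfin, ⟨r, hr⟩, hrep⟩ := pvRepSpec n K hn hK
  have hint : ∀ v : E n, Integrable (fun w => |⟪v, w⟫|) μ := fun v => by
    refine Integrable.of_bound (by fun_prop) (‖v‖ * r) (hr.mono fun w hw => ?_)
    rw [Real.norm_eq_abs, abs_abs]
    exact (abs_real_inner_le_norm v w).trans (mul_le_mul_of_nonneg_left hw (norm_nonneg v))
  refine ⟨fun v hv => ?_, fun v s => ?_, fun v w => ?_, ?_, fun L hL hKL v => ?_⟩
  · rw [pvProjSpec n K v hn hK]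
    exact mul_pos (norm_pos_iff.2 hv) (projVol_pos hK _)
  · simp only [hrep, real_inner_smul_left, abs_mul, integral_const_mul]
    ring
  · simp only [hrep, ← mul_add, ← integral_add (hint v) (hint w)]
    refine mul_le_mul_of_nonneg_left (integral_mono (hint _) ((hint v).add (hint w)) fun x => ?_)
      (by norm_num)
    simp only [inner_add_left]
    exact abs_add_le _ _
  · rw [show pv K = fun v => (1 / 2) * ∫ w, |⟪v, w⟫| ∂μ from funext hrep]
    refine continuous_const.mul (LipschitzWith.continuous (K := (|r| * μ.real univ).toNNReal) ?_)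
    refine LipschitzWith.of_dist_le_mul fun v w => ?_
    rw [Real.dist_eq, ← integral_sub (hint v) (hint w), Real.coe_toNNReal _ (by positivity),
      dist_eq_norm]
    refine (abs_integral_le_integral_abs).trans ?_
    refine (integral_mono_of_nonneg (.of_forall fun x => abs_nonneg _)
      (integrable_const (‖v - w‖ * |r|)) (hr.mono fun x hx => ?_)).trans_eq ?_
    · calc |(|⟪v, x⟫| - |⟪w, x⟫|)| ≤ |⟪v, x⟫ - ⟪w, x⟫| := abs_abs_sub_abs_le_abs_sub _ _
        _ = |⟪v - w, x⟫| := by rw [inner_sub_left]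
        _ ≤ ‖v - w‖ * ‖x‖ := abs_real_inner_le_norm _ _
        _ ≤ ‖v - w‖ * |r| := mul_le_mul_of_nonneg_left (hx.trans (le_abs_self r)) (norm_nonneg _)
    · rw [integral_const, smul_eq_mul]; ring
  · rw [pvProjSpec n K v hn hK, pvProjSpec n L v hn hL]
    exact mul_le_mul_of_nonneg_left (ENNReal.toReal_mono
      (isCompact_projSet hL.compact).measure_lt_top.ne (measure_mono (image_mono hKL))) (norm_nonneg v)

theorem projBodySpec : ProjBodySpec := by
  intro n K hn hK
  obtain ⟨hpos, hhom, hsub, hcont, -⟩ := pvBasicSpec n K hn hK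
  have : NeZero n := ⟨by omega⟩
  have : Nontrivial (E n) := ⟨⟨EuclideanSpace.single (0 : Fin n) 1, 0, by simp⟩⟩
  have hSne : (sphere (0 : E n) 1).Nonempty := NormedSpace.sphere_nonempty.2 zero_le_one
  obtain ⟨vm, hvm, hmin⟩ := (isCompact_sphere (0 : E n) 1).exists_isMinOn hSne hcont.continuousOn
  obtain ⟨vM, hvM, hmax⟩ := (isCompact_sphere (0 : E n) 1).exists_isMaxOn hSne hcont.continuousOn
  have hscale : ∀ v : E n, ‖v‖ * pv K vm ≤ pv K v ∧ pv K v ≤ ‖v‖ * pv K vM := by
    intro v
    rcases eq_or_ne v 0 with rfl | hv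
    · have := hhom 0 0; simp at this; simp [this]
    have hu : ‖v‖⁻¹ • v ∈ sphere (0 : E n) 1 := mem_sphere_zero_iff_norm.2 (norm_smul_inv_norm hv)
    have e : pv K v = ‖v‖ * pv K (‖v‖⁻¹ • v) := by
      rw [hhom, abs_inv, abs_norm, ← mul_assoc, mul_inv_cancel₀ (norm_ne_zero_iff.2 hv), one_mul]
    rw [e]
    exact ⟨mul_le_mul_of_nonneg_left (hmin hu) (norm_nonneg v),
      mul_le_mul_of_nonneg_left (hmax hu) (norm_nonneg v)⟩
  have hcl : IsClosed (projBody K) := by
    simp only [projBody, ofPred_forall]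
    exact isClosed_iInter fun v => isClosed_le (continuous_id.inner continuous_const) continuous_const
  have hbd : projBody K ⊆ closedBall 0 (pv K vM) := by
    intro y hy
    rw [mem_closedBall_zero_iff]
    have h := (hy y).trans (hscale y).2
    rw [real_inner_self_eq_norm_sq] at h
    rcases eq_or_ne y 0 with rfl | hy0
    · simpa using (hpos vM (ne_of_mem_sphere hvM one_ne_zero)).le
    · nlinarith [norm_pos_iff.2 hy0]
  have hball : ball 0 (pv K vm) ⊆ projBody K := by
    intro y hy v
    rw [mem_ball_zero_iff] at hy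
    calc ⟪y, v⟫ ≤ ‖y‖ * ‖v‖ := real_inner_le_norm y v
      _ ≤ pv K vm * ‖v‖ := mul_le_mul_of_nonneg_right hy.le (norm_nonneg v)
      _ ≤ pv K v := by rw [mul_comm]; exact (hscale v).1
  refine ⟨⟨⟨?_, (isCompact_closedBall _ _).of_isClosed_subset hcl hbd, ?_⟩, ?_⟩, fun v => ⟨?_, ?_⟩⟩
  · intro x hx y hy a b ha hb hab v
    rw [inner_add_left, real_inner_smul_left, real_inner_smul_left]
    calc a * ⟪x, v⟫ + b * ⟪y, v⟫ ≤ a * pv K v + b * pv K v :=
          add_le_add (mul_le_mul_of_nonneg_left (hx v) ha) (mul_le_mul_of_nonneg_left (hy v) hb)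
      _ = pv K v := by rw [← add_mul, hab, one_mul]
  · refine ⟨0, interior_maximal hball isOpen_ball (mem_ball_self ?_)⟩
    exact hpos vm (ne_of_mem_sphere hvm one_ne_zero)
  · intro x hx v
    have h := hx ((-1 : ℝ) • v)
    rw [hhom, abs_neg, abs_one, one_mul, real_inner_smul_right] at h
    simpa [inner_neg_left] using h
  · rcases eq_or_ne v 0 with rfl | hv
    · refine ⟨0, fun w => ?_, ?_⟩
      · have := (hscale w).1
        simp only [inner_zero_left]
        exact le_trans (mul_nonneg (norm_nonneg w) (hpos vm (ne_of_mem_sphere hvm one_ne_zero)).le) this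
      · have := hhom 0 0; simp at this; simp [this]
    obtain ⟨g, hg1, hg2⟩ := exists_extension_of_le_sublinear
      (LinearPMap.mkSpanSingleton v (pv K v) hv) (pv K)
      (fun c hc x => by rw [hhom, abs_of_pos hc]) hsub (fun x => by
        obtain ⟨c, hc⟩ := Submodule.mem_span_singleton.1 x.2
        have hx : x = ⟨c • v, Submodule.smul_mem _ c (Submodule.mem_span_singleton_self v)⟩ :=
          Subtype.ext hc.symm
        subst hx
        rw [LinearPMap.mkSpanSingleton'_apply, hhom, RingHom.id_apply, smul_eq_mul]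
        exact mul_le_mul_of_nonneg_right (le_abs_self c) (hpos v hv).le)
    refine ⟨(InnerProductSpace.toDual ℝ (E n)).symm g.toContinuousLinearMap, fun w => ?_, ?_⟩
    · rw [InnerProductSpace.toDual_symm_apply]
      exact hg2 w
    · show ⟪_, v⟫ = pv K v
      rw [InnerProductSpace.toDual_symm_apply]
      have := hg1 ⟨v, Submodule.mem_span_singleton_self v⟩
      exact this.trans (LinearPMap.mkSpanSingleton'_apply_self _ _ _ _)
  · rintro _ ⟨y, hy, rfl⟩
    exact hy v

end Vale.Agent.P237
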