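import Vale.Agent.P237.SliceGen
import Vale.Agent.P237.ProjVol

/-!
# P237: the planar projection inequality and the slicing bound in `E 3`

In the plane `ΠC` contains the rotated difference body, so `4 |C| ≤ |ΠC|` by Brunn–Minkowski.
-/

namespace Vale.Agent.P237

open MeasureTheory Set Metric
open scoped Pointwise RealInnerProductSpace ENNReal

/-- The shadow of a convex set on a line is at least as long as the shadow of any of its chords. -/
theorem norm_le_projVol_two {C : Set (E 2)} (hC : Body C) {u : E 2} (hu : ‖u‖ = 1) {a b : E 2}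
    (ha : a ∈ C) (hb : b ∈ C) :
    ‖(Perp u).orthogonalProjectionOnto (a - b)‖ ≤ projVol C u := by
  set P := (Perp u).orthogonalProjectionOnto with hP
  set d := P (a - b) with hd
  rcases eq_or_ne d 0 with h0 | h0
  · rw [h0, norm_zero]
    exact ENNReal.toReal_nonneg
  have hdim : Module.finrank ℝ (Perp u) = 1 := finrank_perp (n := 1) hu
  set mid := (1 / 2 : ℝ) • (P a + P b) with hmid
  have hsub : closedBall mid (‖d‖ / 2) ⊆ P '' C := by
    intro y hy
    obtain ⟨s, hs⟩ := (finrank_eq_one_iff_of_nonzero' d h0).1 hdim (y - mid)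
    rw [mem_closedBall, dist_eq_norm, ← hs, norm_smul, Real.norm_eq_abs] at hy
    have hs2 : |s| ≤ 1 / 2 :=
      le_of_mul_le_mul_right (by linarith) (norm_pos_iff.2 h0)
    obtain ⟨hs3, hs4⟩ := abs_le.1 hs2
    refine ⟨(1 / 2 + s) • a + (1 / 2 - s) • b,
      hC.convex ha hb (by linarith) (by linarith) (by ring), ?_⟩
    rw [map_add, map_smul, map_smul]
    calc (1 / 2 + s) • P a + (1 / 2 - s) • P b = mid + s • (P a - P b) := by
          rw [hmid]; module
      _ = mid + (y - mid) := by rw [← map_sub, ← hd, hs]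
      _ = y := by abel
  have hfin : volume (P '' C) ≠ ⊤ := (hC.compact.image P.continuous).measure_lt_top.ne
  have hball : volume (closedBall mid (‖d‖ / 2)) = ENNReal.ofReal ‖d‖ := by
    rw [InnerProductSpace.volume_closedBall_of_dim_odd (k := 0) (by rw [hdim]), hdim, pow_one,
      ← ENNReal.ofReal_mul (by positivity)]
    congr 1
    simp
  have h := ENNReal.toReal_mono hfin (measure_mono (μ := volume) hsub)
  rwa [hball, ENNReal.toReal_ofReal (norm_nonneg _)] at h

/-- In the plane the projection body has at least four times the area. -/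
theorem planar_bound (C : Set (E 2)) (hC : Body C) : 4 * vol C ≤ vol (projBody C) := by
  haveI : Fact (Module.finrank ℝ (E 2) = 2) := ⟨finrank_euclideanSpace_fin⟩
  set o := (EuclideanSpace.basisFun (Fin 2) ℝ).toBasis.orientation with ho
  set J := o.rightAngleRotation with hJ
  have hkey : ∀ a ∈ C, ∀ b ∈ C, ∀ v : E 2, ⟪J (a - b), v⟫ ≤ pv C v := by
    intro a ha b hb v
    rw [pvProjSpec 2 C v le_rfl hC]
    rcases eq_or_ne v 0 with rfl | hv
    · simp
    set w := ‖v‖⁻¹ • v with hw
    have hwn : ‖w‖ = 1 := norm_smul_inv_norm hv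
    have hvw : v = ‖v‖ • w := by
      rw [hw, smul_smul, mul_inv_cancel₀ (norm_ne_zero_iff.2 hv), one_smul]
    conv_lhs => rw [hvw, real_inner_smul_right]
    refine mul_le_mul_of_nonneg_left ?_ (norm_nonneg v)
    refine le_trans ?_ (norm_le_projVol_two hC hwn ha hb)
    have hperp : J w ∈ Perp w :=
      Submodule.mem_orthogonal_singleton_iff_inner_left.2 (o.inner_rightAngleRotation_self w)
    have e : ⟪J (a - b), w⟫ =
        -⟪(Perp w).orthogonalProjectionOnto (a - b), (⟨J w, hperp⟩ : Perp w)⟫ := by
      rw [Submodule.inner_orthogonalProjectionOnto_eq_of_mem_right]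
      exact o.inner_rightAngleRotation_swap' _ _
    rw [e]
    refine (neg_le_abs _).trans ((abs_real_inner_le_norm _ _).trans (le_of_eq ?_))
    rw [show ‖(⟨J w, hperp⟩ : Perp w)‖ = ‖J w‖ from rfl, LinearIsometryEquiv.norm_map, hwn,
      mul_one]
  have hsub : J '' (C + -C) ⊆ projBody C := by
    rintro _ ⟨_, ⟨a, ha, b, hb, rfl⟩, rfl⟩ v
    have := hkey a ha (-b) (Set.mem_neg.1 hb) v
    rwa [sub_neg_eq_add] at this
  have hne : C.Nonempty := hC.interior_nonempty.mono interior_subset
  have hvneg : vol (-C) = vol C := by rw [vol, vol, Measure.measure_neg]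
  have hbm := bmSpec 2 C (-C) (by norm_num) hC.convex hC.compact hne hC.convex.neg hC.compact.neg
    hne.neg
  rw [hvneg] at hbm
  simp only [Nat.cast_ofNat, ← Real.sqrt_eq_rpow] at hbm
  have hJvol : vol (J '' (C + -C)) = vol (C + -C) := by
    have := J.symm.measurePreserving.measure_preimage_emb
      J.symm.toHomeomorph.measurableEmbedding (C + -C)
    rw [vol, vol, LinearIsometryEquiv.image_eq_preimage_symm, this]
  have hle : vol (C + -C) ≤ vol (projBody C) := by
    rw [← hJvol]
    exact ENNReal.toReal_mono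
      ((projBodySpec 2 C le_rfl hC).1.compact.measure_lt_top.ne) (measure_mono hsub)
  have h4 : (2 * √(vol C)) ^ 2 ≤ vol (C + -C) := by
    have h2 : 2 * √(vol C) ≤ √(vol (C + -C)) := by linarith
    calc (2 * √(vol C)) ^ 2 ≤ √(vol (C + -C)) ^ 2 := pow_le_pow_left₀ (by positivity) h2 2
      _ = vol (C + -C) := Real.sq_sqrt ENNReal.toReal_nonneg
  rw [mul_pow, Real.sq_sqrt (show 0 ≤ vol C from ENNReal.toReal_nonneg)] at h4
  linarith

/-- The slicing bound in `E 3`. -/
theorem sliceBoundSpec : SliceBoundSpec := by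
  intro K u hK hu h1 hb
  have h := sliceGen_bound pvProjSpec pvBasicSpec projBodySpec (m := 2) le_rfl (r := 4)
    (by norm_num) (fun C hC => by simpa using planar_bound C hC) hK hu h1 hb
  norm_num at h
  simpa [Real.sqrt_eq_rpow] using h

end Vale.Agent.P237
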