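import Mathlib
import Vale.Agent.P237.Spec

/-!
First variation of volume along a zonoid, and Euler's identity for the volume of a zonoid.
-/

namespace Vale.Agent.P237

open MeasureTheory Set Filter Topology Metric
open scoped Pointwise RealInnerProductSpace ENNReal

variable {n : ℕ}

lemma vol_mono_of_compact {A B : Set (E n)} (hB : IsCompact B) (h : A ⊆ B) : vol A ≤ vol B :=
  ENNReal.toReal_mono hB.measure_lt_top.ne (measure_mono h)

lemma vol_vadd_z (a : E n) (A : Set (E n)) : vol (a +ᵥ A) = vol A := by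
  unfold vol
  rw [measure_vadd]

lemma vol_smul_z {s : ℝ} (hs : 0 ≤ s) (A : Set (E n)) : vol (s • A) = s ^ n * vol A := by
  unfold vol
  rw [Measure.addHaar_smul_of_nonneg volume hs, ENNReal.toReal_mul,
    ENNReal.toReal_ofReal (pow_nonneg hs _), finrank_euclideanSpace_fin]

lemma smul_segment_zero (s : ℝ) (v : E n) : s • segment ℝ (0 : E n) v = segment ℝ 0 (s • v) := by
  have := image_segment ℝ (s • (LinearMap.id : E n →ₗ[ℝ] E n)).toAffineMap 0 v
  simpa [image_smul] using this

lemma pv_vadd_z (a : E n) (K : Set (E n)) (v : E n) : pv (a +ᵥ K) v = pv K v := by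
  unfold pv
  rw [vadd_add_assoc, vol_vadd_z, vol_vadd_z]

lemma pv_smul_set {K : Set (E n)} {s : ℝ} (hs : 0 < s)
    (hhom : ∀ v (r : ℝ), pv K (r • v) = |r| * pv K v) (hn : 1 ≤ n) (v : E n) :
    pv (s • K) v = s ^ (n - 1) * pv K v := by
  have e : s • K + segment ℝ 0 v = s • (K + segment ℝ 0 (s⁻¹ • v)) := by
    rw [smul_add, smul_segment_zero, smul_smul, mul_inv_cancel₀ hs.ne', one_smul]
  have h := hhom v s⁻¹
  unfold pv at *
  rw [e, vol_smul_z hs.le, vol_smul_z hs.le, ← mul_sub, h, abs_of_pos (inv_pos.2 hs), ← mul_assoc]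
  congr 1
  rw [pow_sub₀ s hs.ne' hn, pow_one]

/-! ### Finite sums of segments -/

/-- The sum of the segments `[0, v i]`. -/
noncomputable def segSum {ι : Type*} (s : Finset ι) (v : ι → E n) : Set (E n) :=
  ∑ i ∈ s, segment ℝ 0 (v i)

/-- The zonotope generated by the segments `[-v i / 2, v i / 2]`. -/
def zonS {ι : Type*} (s : Finset ι) (v : ι → E n) : Set (E n) :=
  {y | ∀ x, ⟪y, x⟫ ≤ (1 / 2) * ∑ i ∈ s, |⟪x, v i⟫|}

lemma isCompact_segment' (a b : E n) : IsCompact (segment ℝ a b) := by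
  rw [segment_eq_image]
  exact isCompact_Icc.image (by fun_prop)

lemma segSum_props {ι : Type*} (s : Finset ι) (v : ι → E n) :
    Convex ℝ (segSum s v) ∧ IsCompact (segSum s v) ∧ (0 : E n) ∈ segSum s v ∧
      ∀ y ∈ segSum s v, ‖y‖ ≤ ∑ i ∈ s, ‖v i‖ := by
  classical
  induction s using Finset.induction_on with
  | empty =>
    simp only [segSum, Finset.sum_empty]
    exact ⟨convex_singleton 0, isCompact_singleton, rfl, fun y hy => by simp [Set.mem_zero.1 hy]⟩
  | insert a s ha ih =>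
    obtain ⟨hc, hk, h0, hb⟩ := ih
    simp only [segSum, Finset.sum_insert ha] at *
    refine ⟨(convex_segment _ _).add hc, (isCompact_segment' _ _).add hk,
      ⟨0, left_mem_segment ℝ _ _, 0, h0, by simp⟩, ?_⟩
    rintro _ ⟨p, hp, q, hq, rfl⟩
    refine (norm_add_le _ _).trans (add_le_add ?_ (hb q hq))
    rw [segment_eq_image] at hp
    obtain ⟨t, ht, rfl⟩ := hp
    simpa [norm_smul, abs_of_nonneg ht.1] using
      mul_le_of_le_one_left (norm_nonneg (v a)) ht.2

lemma zonS_subset {ι : Type*} (s : Finset ι) (v : ι → E n) :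
    zonS s v ⊆ (-((1 / 2 : ℝ) • ∑ i ∈ s, v i)) +ᵥ segSum s v := by
  classical
  intro y hy
  rw [mem_vadd_set_iff_neg_vadd_mem, neg_neg, vadd_eq_add]
  set z := (1 / 2 : ℝ) • ∑ i ∈ s, v i + y with hz
  by_contra hnot
  obtain ⟨hc, hk, -, -⟩ := segSum_props s v
  obtain ⟨f, b, hfb, hfz⟩ := geometric_hahn_banach_closed_point hc hk.isClosed hnot
  set x := (InnerProductSpace.toDual ℝ (E n)).symm f
  have hf : ∀ p, f p = ⟪x, p⟫ := fun p => (InnerProductSpace.toDual_symm_apply).symm
  let p : ι → E n := fun i => if 0 ≤ ⟪x, v i⟫ then v i else 0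
  have hp : ∑ i ∈ s, p i ∈ segSum s v := Set.finsetSum_mem_finsetSum _ _ _ fun i _ => by
    simp only [p]
    split_ifs
    · exact right_mem_segment ℝ _ _
    · exact left_mem_segment ℝ _ _
  have h1 := hfb _ hp
  rw [hf, inner_sum] at h1
  rw [hf, hz, inner_add_right, real_inner_smul_right, inner_sum, real_inner_comm y x] at hfz
  have h2 : ∀ i, ⟪x, p i⟫ = (1 / 2) * ⟪x, v i⟫ + (1 / 2) * |⟪x, v i⟫| := by
    intro i
    simp only [p]
    split_ifs with h
    · rw [abs_of_nonneg h]; ring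
    · rw [abs_of_neg (not_le.1 h), inner_zero_right]; ring
  simp only [h2, Finset.sum_add_distrib, ← Finset.mul_sum] at h1
  linarith [hy x]

lemma segSum_subset {ι : Type*} (s : Finset ι) (v : ι → E n) :
    (-((1 / 2 : ℝ) • ∑ i ∈ s, v i)) +ᵥ segSum s v ⊆ zonS s v := by
  classical
  rintro _ ⟨z, hz, rfl⟩ x
  obtain ⟨g, hg, rfl⟩ := (Set.mem_finsetSum s _ z).1 hz
  simp only [vadd_eq_add, inner_add_left, inner_neg_left, real_inner_smul_left, sum_inner]
  rw [Finset.mul_sum, Finset.mul_sum, ← Finset.sum_neg_distrib, ← Finset.sum_add_distrib]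
  refine Finset.sum_le_sum fun i hi => ?_
  have := hg hi
  rw [segment_eq_image] at this
  obtain ⟨t, ht, e⟩ := this
  rw [← e, real_inner_comm (v i) x]
  simp only [smul_zero, zero_add, real_inner_smul_left]
  nlinarith [le_abs_self ⟪v i, x⟫, neg_abs_le ⟪v i, x⟫, ht.1, ht.2, abs_nonneg ⟪v i, x⟫]

lemma zonS_eq {ι : Type*} (s : Finset ι) (v : ι → E n) :
    zonS s v = (-((1 / 2 : ℝ) • ∑ i ∈ s, v i)) +ᵥ segSum s v :=
  (zonS_subset s v).antisymm (segSum_subset s v)

/-! ### Growth of the volume under adding segments -/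

lemma body_add_segSum {ι : Type*} {K : Set (E n)} (hK : Body K) (s : Finset ι) (v : ι → E n) :
    Body (K + segSum s v) where
  convex := hK.convex.add (segSum_props s v).1
  compact := hK.compact.add (segSum_props s v).2.1
  interior_nonempty := hK.interior_nonempty.mono (interior_mono
    (subset_add_left K (segSum_props s v).2.2.1))

lemma segSum_growth {ι : Type*} (hb : PvBasicSpec) (hn : 2 ≤ n) {K : Set (E n)} (hK : Body K)
    (v : ι → E n) (s : Finset ι) :
    vol K + ∑ i ∈ s, pv K (v i) ≤ vol (K + segSum s v) ∧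
      ∀ U, Body U → K + segSum s v ⊆ U → vol (K + segSum s v) ≤ vol K + ∑ i ∈ s, pv U (v i) := by
  classical
  induction s using Finset.induction_on with
  | empty =>
    simp only [segSum, Finset.sum_empty, add_zero]
    exact ⟨le_rfl, fun _ _ _ => le_rfl⟩
  | insert a s ha ih =>
    have hS : K + segSum (insert a s) v = (K + segSum s v) + segment ℝ 0 (v a) := by
      rw [segSum, Finset.sum_insert ha, add_comm (segment ℝ _ _), ← add_assoc]; rfl
    have hB := body_add_segSum hK s v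
    have hval : vol (K + segSum (insert a s) v) = vol (K + segSum s v) + pv (K + segSum s v) (v a) := by
      rw [hS]; simp [pv]
    rw [Finset.sum_insert ha, hval]
    refine ⟨?_, fun U hU hsub => ?_⟩
    · have := (hb n K hn hK).2.2.2.2 _ hB (subset_add_left K (segSum_props s v).2.2.1) (v a)
      linarith [ih.1]
    · rw [Finset.sum_insert ha]
      have hsub' : K + segSum s v ⊆ U := by
        refine (subset_add_left _ (left_mem_segment ℝ (0 : E n) (v a))).trans ?_
        rw [← hS]; exact hsub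
      have := (hb n _ hn hB).2.2.2.2 U hU hsub' (v a)
      linarith [ih.2 U hU hsub']

lemma vol_add_zonS {ι : Type*} (hb : PvBasicSpec) (hn : 2 ≤ n) {K : Set (E n)} (hK : Body K)
    {a : E n} {r : ℝ} (hr : 0 < r) (ha : closedBall a r ⊆ K) (v : ι → E n) (s : Finset ι) :
    vol K + ∑ i ∈ s, pv K (v i) ≤ vol (K + zonS s v) ∧
      vol (K + zonS s v) ≤
        vol K + (1 + (∑ i ∈ s, ‖v i‖) / r) ^ (n - 1) * ∑ i ∈ s, pv K (v i) := by
  have e : vol (K + zonS s v) = vol (K + segSum s v) := by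
    rw [zonS_eq, add_comm, vadd_add_assoc, vol_vadd_z, add_comm]
  rw [e]
  refine ⟨(segSum_growth hb hn hK v s).1, ?_⟩
  set c := (∑ i ∈ s, ‖v i‖) / r with hc
  have hc0 : 0 ≤ c := by positivity
  have h1c : (0:ℝ) < 1 + c := by linarith
  have hC : Body ((1 + c) • ((-a) +ᵥ K)) :=
    ⟨(hK.convex.vadd _).smul _, (hK.compact.vadd _).smul _, by
      rw [interior_smul₀ h1c.ne', interior_vadd]; exact hK.interior_nonempty.vadd_set.smul_set⟩
  let U : Set (E n) := a +ᵥ (1 + c) • ((-a) +ᵥ K)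
  have hU : Body U := ⟨hC.convex.vadd _, hC.compact.vadd _, by
    rw [interior_vadd]; exact hC.interior_nonempty.vadd_set⟩
  have hsub : K + segSum s v ⊆ U := by
    rintro _ ⟨k, hk, z, hz, rfl⟩
    show k + z ∈ a +ᵥ (1 + c) • ((-a) +ᵥ K)
    rw [(hK.convex.vadd _).add_smul zero_le_one hc0, one_smul]
    refine ⟨(-a + k) + z, ⟨-a + k, ⟨k, hk, rfl⟩, z, ?_, rfl⟩, by
      show a + (-a + k + z) = k + z
      abel⟩
    rcases eq_or_lt_of_le hc0 with h0 | hcpos
    · have hz0 : z = 0 := by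
        have hle := (segSum_props s v).2.2.2 z hz
        have : (∑ i ∈ s, ‖v i‖) = c * r := by rw [hc, div_mul_cancel₀ _ hr.ne']
        rw [this, ← h0, zero_mul] at hle
        exact norm_le_zero_iff.1 hle
      rw [hz0, ← h0, zero_smul_set (show (-a +ᵥ K).Nonempty from ⟨-a + k, k, hk, rfl⟩)]
      exact rfl
    · refine ⟨c⁻¹ • z, ⟨a + c⁻¹ • z, ha ?_, by simp⟩, smul_inv_smul₀ hcpos.ne' z⟩
      rw [mem_closedBall, dist_eq_norm, add_sub_cancel_left, norm_smul, norm_inv,
        Real.norm_of_nonneg hcpos.le, inv_mul_le_iff₀ hcpos, hc, div_mul_cancel₀ _ hr.ne']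
      exact (segSum_props s v).2.2.2 z hz
  refine ((segSum_growth hb hn hK v s).2 U hU hsub).trans (le_of_eq ?_)
  rw [Finset.mul_sum]
  congr 1
  refine Finset.sum_congr rfl fun i _ => ?_
  have hKa : Body ((-a) +ᵥ K) := ⟨hK.convex.vadd _, hK.compact.vadd _, by
    rw [interior_vadd]; exact hK.interior_nonempty.vadd_set⟩
  rw [pv_vadd_z, pv_smul_set h1c (hb n _ hn hKa).2.1 (by omega), pv_vadd_z]

/-! ### Discretisation of the generating measure -/

lemma exists_lipschitz_bound {g : E n → ℝ} (hhom : ∀ v (s : ℝ), g (s • v) = |s| * g v)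
    (hsub : ∀ v w, g (v + w) ≤ g v + g w) (hcont : Continuous g) :
    ∃ M : ℝ, 0 ≤ M ∧ ∀ v w, |g v - g w| ≤ M * ‖v - w‖ := by
  obtain ⟨M, hM⟩ := (isCompact_sphere (0 : E n) 1).exists_bound_of_continuousOn hcont.continuousOn
  refine ⟨max M 0, le_max_right _ _, ?_⟩
  have hg0 : g 0 = 0 := by simpa using hhom 0 0
  have hbd : ∀ v, g v ≤ max M 0 * ‖v‖ := by
    intro v
    rcases eq_or_ne v 0 with rfl | hv
    · simp [hg0]
    have h := (le_abs_self _).trans (hM _ (mem_sphere_zero_iff_norm.2 (norm_smul_inv_norm (𝕜 := ℝ) hv)))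
    rw [RCLike.ofReal_real_eq_id, id_eq, hhom, abs_inv, abs_norm, inv_mul_le_iff₀ (norm_pos_iff.2 hv)] at h
    rw [mul_comm]
    exact h.trans (mul_le_mul_of_nonneg_left (le_max_left _ _) (norm_nonneg _))
  intro v w
  have h1 := hsub (v - w) w
  have h2 := hsub (w - v) v
  rw [sub_add_cancel] at h1 h2
  have h3 := hbd (v - w)
  have h4 := hbd (w - v)
  rw [norm_sub_rev w v] at h4
  exact abs_sub_le_iff.2 ⟨by linarith, by linarith⟩

lemma exists_discrete (μ : Measure (E n)) [IsFiniteMeasure μ] (hr : ∃ r : ℝ, ∀ᵐ w ∂μ, ‖w‖ ≤ r)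
    {δ : ℝ} (hδ : 0 < δ) :
    ∃ (s : Finset (E n)) (v : E n → E n), ∀ g : E n → ℝ, ∀ M : ℝ,
      (∀ a b, |g a - g b| ≤ M * ‖a - b‖) → (∀ a (t : ℝ), g (t • a) = |t| * g a) → 0 ≤ M →
      |∑ i ∈ s, g (v i) - ∫ w, g w ∂μ| ≤ M * δ := by
  obtain ⟨r, hr⟩ := hr
  let e : ℕ → E n := TopologicalSpace.denseSeq (E n)
  let f : ℕ → SimpleFunc (E n) (E n) := fun N => SimpleFunc.nearestPt e N
  have hpt : ∀ w, Tendsto (fun N => f N w) atTop (𝓝 w) := fun w =>
    SimpleFunc.tendsto_nearestPt (by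
      rw [(TopologicalSpace.denseRange_denseSeq (E n)).closure_range]; trivial)
  have hle : ∀ N w, ‖f N w - w‖ ≤ ‖e 0 - w‖ := by
    intro N w
    have := SimpleFunc.edist_nearestPt_le e w (Nat.zero_le N)
    rw [edist_dist, edist_dist, ENNReal.ofReal_le_ofReal_iff dist_nonneg] at this
    rw [← dist_eq_norm, ← dist_eq_norm]
    exact this
  have hlim : Tendsto (fun N => ∫ w, ‖f N w - w‖ ∂μ) atTop (𝓝 0) := by
    have := tendsto_integral_of_dominated_convergence (μ := μ) (fun _ => ‖e 0‖ + r)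
      (F := fun N w => ‖f N w - w‖) (f := fun _ => (0 : ℝ))
      (fun N => ((f N).measurable.sub measurable_id).norm.aestronglyMeasurable)
      (integrable_const _)
      (fun N => by
        filter_upwards [hr] with w hw
        rw [norm_norm]
        exact (hle N w).trans ((norm_sub_le _ _).trans (by linarith)))
      (Eventually.of_forall fun w => by
        simpa using ((hpt w).sub_const w).norm)
    simpa using this
  obtain ⟨N, hN⟩ := (hlim.eventually (eventually_lt_nhds hδ)).exists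
  refine ⟨(f N).range, fun p => (μ (f N ⁻¹' {p})).toReal • p, fun g M hg hhom hM => ?_⟩
  have hgc : Continuous g := by
    refine (LipschitzWith.of_dist_le_mul (K := ⟨M, hM⟩) fun a b => ?_).continuous
    rw [Real.dist_eq, dist_eq_norm]; exact hg a b
  have hint : ∀ φ : E n → E n, Measurable φ → (∃ B, ∀ᵐ w ∂μ, ‖φ w‖ ≤ B) →
      Integrable (fun w => g (φ w)) μ := by
    rintro φ hφ ⟨B, hB⟩
    refine Integrable.of_bound (hgc.measurable.comp hφ).aestronglyMeasurable (|g 0| + M * B) ?_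
    filter_upwards [hB] with w hw
    rw [Real.norm_eq_abs]
    have := hg (φ w) 0
    rw [sub_zero] at this
    calc |g (φ w)| ≤ |g 0| + |g (φ w) - g 0| := by
          have := abs_add_le (g 0) (g (φ w) - g 0); simpa using this
      _ ≤ |g 0| + M * B := by
          linarith [mul_le_mul_of_nonneg_left hw hM]
  have hfb : ∃ B, ∀ᵐ w ∂μ, ‖f N w‖ ≤ B := ⟨‖e 0‖ + r + r, by
    filter_upwards [hr] with w hw
    have h1 := norm_le_norm_add_norm_sub' (f N w) w
    have h2 := (hle N w).trans (norm_sub_le _ _)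
    linarith⟩
  have hsum : ∑ p ∈ (f N).range, g ((μ (f N ⁻¹' {p})).toReal • p) = ∫ w, g (f N w) ∂μ := by
    calc ∑ p ∈ (f N).range, g ((μ (f N ⁻¹' {p})).toReal • p)
        = ∑ p ∈ (f N).range, ∫ w, (f N ⁻¹' {p}).indicator (fun _ => g p) w ∂μ := by
          refine Finset.sum_congr rfl fun p _ => ?_
          rw [hhom, abs_of_nonneg ENNReal.toReal_nonneg,
            integral_indicator_const _ ((f N).measurableSet_fiber p), smul_eq_mul]
          rfl
      _ = ∫ w, ∑ p ∈ (f N).range, (f N ⁻¹' {p}).indicator (fun _ => g p) w ∂μ :=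
          (integral_finsetSum _ fun p _ =>
            (integrable_const (g p)).indicator ((f N).measurableSet_fiber p)).symm
      _ = ∫ w, g (f N w) ∂μ := by
          refine integral_congr_ae (Eventually.of_forall fun w => ?_)
          simp only
          rw [Finset.sum_eq_single (f N w) (fun p _ hne => Set.indicator_of_notMem (fun h => hne h.symm) _)
            (fun h => absurd (SimpleFunc.mem_range_self _ w) h)]
          exact Set.indicator_of_mem rfl _
  have hid : Integrable (fun w => g w) μ := hint id measurable_id ⟨r, hr⟩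
  have hdiff : Integrable (fun w => ‖f N w - w‖) μ := by
    refine Integrable.of_bound ((f N).measurable.sub measurable_id).norm.aestronglyMeasurable
      (‖e 0‖ + r) ?_
    filter_upwards [hr] with w hw
    rw [norm_norm]
    exact (hle N w).trans ((norm_sub_le _ _).trans (by linarith))
  rw [hsum, ← integral_sub (hint _ (f N).measurable hfb) hid]
  calc |∫ w, g (f N w) - g w ∂μ| ≤ ∫ w, |g (f N w) - g w| ∂μ := abs_integral_le_integral_abs
    _ ≤ ∫ w, M * ‖f N w - w‖ ∂μ :=
        integral_mono ((hint _ (f N).measurable hfb).sub hid).abs (hdiff.const_mul M) fun w => hg _ _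
    _ ≤ M * δ := by rw [integral_const_mul]; exact mul_le_mul_of_nonneg_left hN.le hM

/-! ### The two specifications -/

theorem zonVarSpec_of (hb : PvBasicSpec) : ZonVarSpec := by
  intro n K μ hn hK hμ hr hZ
  obtain ⟨hpos, hhom, hsub, hcont, -⟩ := hb n K hn hK
  obtain ⟨a, ha⟩ := hK.interior_nonempty
  obtain ⟨r, hr0, hra⟩ := nhds_basis_closedBall.mem_iff.1 (mem_interior_iff_mem_nhds.1 ha)
  obtain ⟨M, hM, hlip⟩ := exists_lipschitz_bound hhom hsub hcont
  let h : E n → ℝ := fun x => (1 / 2) * ∫ w, |⟪x, w⟫| ∂μ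
  have hmemZ : ∀ y, y ∈ zon μ ↔ ∀ x, ⟪y, x⟫ ≤ h x := fun y => Iff.rfl
  obtain ⟨z0, hz0⟩ := hZ.interior_nonempty
  obtain ⟨r₀, hr₀, hz⟩ := nhds_basis_closedBall.mem_iff.1 (mem_interior_iff_mem_nhds.1 hz0)
  have hlow : ∀ x, r₀ * ‖x‖ ≤ h x := by
    intro x
    rcases eq_or_ne x 0 with rfl | hx
    · simp [h]
    set w := r₀ • ‖x‖⁻¹ • x with hw
    have hwn : ‖w‖ = r₀ := by
      have h1 : ‖‖x‖⁻¹ • x‖ = 1 := norm_smul_inv_norm hx
      rw [hw, norm_smul, h1, mul_one, Real.norm_of_nonneg hr₀.le]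
    have h1 := (hmemZ _).1 (hz (show z0 + w ∈ closedBall z0 r₀ by simp [hwn])) x
    have h2 := (hmemZ _).1 (hz (show z0 - w ∈ closedBall z0 r₀ by simp [hwn])) (-x)
    have hneg : h (-x) = h x := by simp [h]
    rw [hneg, inner_neg_right, inner_sub_left] at h2
    rw [inner_add_left] at h1
    have e : ⟪w, x⟫ = r₀ * ‖x‖ := by
      rw [hw, real_inner_smul_left, real_inner_smul_left, real_inner_self_eq_norm_sq, sq,
        inv_mul_cancel_left₀ (norm_ne_zero_iff.2 hx)]
    linarith
  have happrox : ∀ η : ℝ, 0 < η → ∃ (s : Finset (E n)) (v : E n → E n),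
      (∀ x, (1 - η) * h x ≤ (1 / 2) * ∑ i ∈ s, |⟪x, v i⟫|) ∧
      (∀ x, (1 / 2) * ∑ i ∈ s, |⟪x, v i⟫| ≤ (1 + η) * h x) ∧
      |∑ i ∈ s, pv K (v i) - ∫ w, pv K w ∂μ| ≤ η := by
    intro η hη
    have hδ : 0 < min (η / (M + 1)) (2 * r₀ * η) := lt_min (by positivity) (by positivity)
    obtain ⟨s, v, hv⟩ := exists_discrete μ hr hδ
    refine ⟨s, v, ?_⟩
    have hx : ∀ x, |(1 / 2) * ∑ i ∈ s, |⟪x, v i⟫| - h x| ≤ η * h x := by
      intro x
      have h1 := hv (fun w => |⟪x, w⟫|) ‖x‖
        (fun p q => (abs_abs_sub_abs_le _ _).trans (by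
          rw [← inner_sub_right]; exact abs_real_inner_le_norm _ _))
        (fun p t => by rw [real_inner_smul_right, abs_mul]) (norm_nonneg _)
      rw [show (1 / 2) * ∑ i ∈ s, |⟪x, v i⟫| - h x
        = (1 / 2) * (∑ i ∈ s, |⟪x, v i⟫| - ∫ w, |⟪x, w⟫| ∂μ) by simp only [h]; ring, abs_mul,
        abs_of_pos (by norm_num : (0:ℝ) < 1 / 2)]
      nlinarith [mul_le_mul_of_nonneg_left (min_le_right (η / (M + 1)) (2 * r₀ * η)) (norm_nonneg x),
        mul_le_mul_of_nonneg_left (hlow x) hη.le]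
    refine ⟨fun x => by linarith [(abs_le.1 (hx x)).1], fun x => by linarith [(abs_le.1 (hx x)).2],
      (hv (pv K) M hlip hhom hM).trans ?_⟩
    have := min_le_left (η / (M + 1)) (2 * r₀ * η)
    calc M * min (η / (M + 1)) (2 * r₀ * η) ≤ (M + 1) * (η / (M + 1)) := by
          exact mul_le_mul (by linarith) this hδ.le (by linarith)
      _ = η := by field_simp
  set D := ∫ w, pv K w ∂μ with hD
  refine tendsto_order.2 ⟨fun b hb' => ?_, fun b hb' => ?_⟩
  · obtain ⟨η, hη, hη1⟩ : ∃ η : ℝ, 0 < η ∧ b < (D - η) / (1 + η) := by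
      have hc : Tendsto (fun η : ℝ => (D - η) / (1 + η)) (𝓝[>] 0) (𝓝 D) := by
        have : ContinuousAt (fun η : ℝ => (D - η) / (1 + η)) 0 := by fun_prop (disch := norm_num)
        simpa using this.tendsto.mono_left nhdsWithin_le_nhds
      obtain ⟨η, h1, h2⟩ :=
        ((hc.eventually (eventually_gt_nhds hb')).and self_mem_nhdsWithin).exists
      exact ⟨η, h2, h1⟩
    obtain ⟨s, v, -, hup, hsum⟩ := happrox η hη
    filter_upwards [self_mem_nhdsWithin] with ε (hε : 0 < ε)
    refine hη1.trans_le ?_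
    rw [le_div_iff₀ hε]
    set c := ε / (1 + η) with hc
    have hcpos : 0 < c := by positivity
    have hsubset : zonS s (fun i => c • v i) ⊆ ε • zon μ := by
      intro y hy
      refine ⟨ε⁻¹ • y, (hmemZ _).2 fun x => ?_, smul_inv_smul₀ hε.ne' y⟩
      rw [real_inner_smul_left, inv_mul_le_iff₀ hε]
      refine (hy x).trans ?_
      simp only [real_inner_smul_right, abs_mul, abs_of_pos hcpos, ← Finset.mul_sum]
      have := mul_le_mul_of_nonneg_left (hup x) hcpos.le
      have e : c * ((1 + η) * h x) = ε * h x := by rw [hc]; field_simp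
      linarith
    have h1 := (vol_add_zonS hb hn hK hr0 hra (fun i => c • v i) s).1
    have h2 : vol (K + zonS s fun i => c • v i) ≤ vol (K + ε • zon μ) :=
      vol_mono_of_compact (hK.compact.add (hZ.compact.smul ε)) (add_subset_add_left hsubset)
    simp only [hhom, abs_of_pos hcpos, ← Finset.mul_sum] at h1
    have h3 := mul_le_mul_of_nonneg_left (show D - η ≤ ∑ i ∈ s, pv K (v i) by
      linarith [(abs_le.1 hsum).1]) hcpos.le
    have e : (D - η) / (1 + η) * ε = c * (D - η) := by rw [hc]; ring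
    rw [e]
    linarith
  · obtain ⟨η, hη, hη', hη1⟩ : ∃ η : ℝ, 0 < η ∧ η < 1 ∧ (D + η) / (1 - η) < b := by
      have hc : Tendsto (fun η : ℝ => (D + η) / (1 - η)) (𝓝[>] 0) (𝓝 D) := by
        have : ContinuousAt (fun η : ℝ => (D + η) / (1 - η)) 0 := by fun_prop (disch := norm_num)
        simpa using this.tendsto.mono_left nhdsWithin_le_nhds
      obtain ⟨η, ⟨h1, h2⟩, h3⟩ := (((hc.eventually (eventually_lt_nhds hb')).and
        ((eventually_lt_nhds (zero_lt_one' ℝ)).filter_mono nhdsWithin_le_nhds)).and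
          self_mem_nhdsWithin).exists
      exact ⟨η, h3, h2, h1⟩
    obtain ⟨s, v, hlo, -, hsum⟩ := happrox η hη
    let L := ∑ i ∈ s, ‖v i‖
    have hlimb : Tendsto (fun ε : ℝ => (1 + ε / (1 - η) * L / r) ^ (n - 1) * ((D + η) / (1 - η)))
        (𝓝[>] 0) (𝓝 ((D + η) / (1 - η))) := by
      have : Continuous fun ε : ℝ => (1 + ε / (1 - η) * L / r) ^ (n - 1) * ((D + η) / (1 - η)) := by
        fun_prop
      simpa using (this.tendsto 0).mono_left nhdsWithin_le_nhds
    filter_upwards [hlimb.eventually (eventually_lt_nhds hη1), self_mem_nhdsWithin]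
      with ε hεb (hε : 0 < ε)
    refine lt_of_le_of_lt ?_ hεb
    rw [div_le_iff₀ hε]
    set c := ε / (1 - η) with hc
    have h1η : 0 < 1 - η := by linarith
    have hcpos : 0 < c := by positivity
    have hsubset : ε • zon μ ⊆ zonS s (fun i => c • v i) := by
      rintro _ ⟨y, hy, rfl⟩ x
      simp only [real_inner_smul_left, real_inner_smul_right, abs_mul, abs_of_pos hcpos,
        ← Finset.mul_sum]
      have := mul_le_mul_of_nonneg_left (hlo x) hcpos.le
      have e : c * ((1 - η) * h x) = ε * h x := by rw [hc]; field_simp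
      linarith [mul_le_mul_of_nonneg_left ((hmemZ y).1 hy x) hε.le]
    have h1 := (vol_add_zonS hb hn hK hr0 hra (fun i => c • v i) s).2
    have h2 : vol (K + ε • zon μ) ≤ vol (K + zonS s fun i => c • v i) := by
      refine vol_mono_of_compact (hK.compact.add ?_) (add_subset_add_left hsubset)
      rw [zonS_eq]; exact (segSum_props _ _).2.1.vadd _
    simp only [hhom, norm_smul, Real.norm_of_nonneg hcpos.le, abs_of_pos hcpos,
      ← Finset.mul_sum] at h1
    have hpow : 0 ≤ (1 + c * L / r) ^ (n - 1) := by positivity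
    have h3 := mul_le_mul_of_nonneg_left (mul_le_mul_of_nonneg_left
      (show ∑ i ∈ s, pv K (v i) ≤ D + η by linarith [(abs_le.1 hsum).2]) hcpos.le) hpow
    have e : (1 + c * L / r) ^ (n - 1) * ((D + η) / (1 - η)) * ε
        = (1 + c * L / r) ^ (n - 1) * (c * (D + η)) := by rw [hc]; ring
    rw [e]
    simp only [L] at h3 ⊢
    linarith

theorem zonEulerSpec_of (hb : PvBasicSpec) : ZonEulerSpec := by
  intro n μ hn hμ hr hZ
  refine tendsto_nhds_unique (zonVarSpec_of hb n (zon μ) μ hn hZ hμ hr hZ) ?_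
  have hder : HasDerivAt (fun ε : ℝ => (1 + ε) ^ n * vol (zon μ)) (n * vol (zon μ)) 0 := by
    simpa using (((hasDerivAt_id (0:ℝ)).const_add 1).pow n).mul_const (vol (zon μ))
  have := hder.tendsto_slope_zero_right
  refine this.congr' ?_
  filter_upwards [self_mem_nhdsWithin] with ε (hε : 0 < ε)
  have e : zon μ + ε • zon μ = (1 + ε) • zon μ := by
    rw [hZ.convex.add_smul zero_le_one hε.le, one_smul]
  rw [e, vol_smul_z (by linarith : (0:ℝ) ≤ 1 + ε)]
  simp only [zero_add, add_zero, one_pow, one_mul, smul_eq_mul]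
  ring

end Vale.Agent.P237
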