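import Vale.Agent.P237.Statement
import Vale.Agent.P237.BrunnMinkowski
import Vale.Agent.P237.ProjVol
import Vale.Agent.P237.Zonoid
import Vale.Agent.P237.JohnPos
import Vale.Agent.P237.SliceBasic
import Vale.Agent.P237.OneDim
import Vale.Agent.P237.PlanarBound

/-! # P237: all module interfaces discharged -/

namespace Vale.Agent.P237

theorem hyps : Hyps where
  bm := bmSpec
  bmEq := bmEqSpec
  basic := pvBasicSpec
  projBody := projBodySpec
  rep := pvRepSpec
  zonVar := zonVarSpec_of pvBasicSpec
  zonEuler := zonEulerSpec_of pvBasicSpec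
  pvProj := pvProjSpec
  slice := sliceSpec
  sliceBound := sliceBoundSpec
  john := johnSpec
  oneDim := oneDimSpec

end Vale.Agent.P237
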