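import Vale.Agent.P237.Existence

/-!
# P237: Petty's projection inequality in dimension three, assembled from the modules
-/

namespace Vale.Agent.P237

open MeasureTheory Set Filter Topology
open scoped Pointwise RealInnerProductSpace ENNReal

/-- Everything that the final theorem uses; each field is proved in its own module. -/
structure Hyps : Prop extends DualityHyps where
  pvProj : PvProjSpec
  slice : SliceSpec
  sliceBound : SliceBoundSpec
  john : JohnSpec
  oneDim : OneDimSpec

lemma vol_ball3 : vol (Metric.closedBall (0 : E 3) 1) = 4 / 3 * Real.pi := by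
  rw [vol, EuclideanSpace.volume_closedBall_fin_three]
  simp [mul_comm]
  ring_nf
  rw [ENNReal.toReal_ofReal (by positivity)]

lemma integral_ball_normSq :
    ∫ x in Metric.closedBall (0 : E 3) 1, (‖x‖ ^ 2 - 1) = -(8 * Real.pi / 15) := by
  have h : ∀ x : E 3, (Metric.closedBall (0 : E 3) 1).indicator (fun x => ‖x‖ ^ 2 - 1) x =
      (fun r : ℝ => (Iic (1 : ℝ)).indicator (fun r => r ^ 2 - 1) r) ‖x‖ := by
    intro x
    by_cases hx : ‖x‖ ≤ 1 <;> simp [hx]
  rw [← integral_indicator Metric.isClosed_closedBall.measurableSet, funext h,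
    integral_fun_norm_addHaar volume (fun r : ℝ => (Iic (1 : ℝ)).indicator (fun r => r ^ 2 - 1) r)]
  simp only [finrank_euclideanSpace_fin, nsmul_eq_mul, smul_eq_mul]
  have h2 : ∀ y : ℝ, y ^ (3 - 1) * (Iic (1 : ℝ)).indicator (fun r => r ^ 2 - 1) y =
      (Iic (1 : ℝ)).indicator (fun r => r ^ 4 - r ^ 2) y := by
    intro y
    by_cases hy : y ≤ 1
    · simp [hy]; ring
    · simp [hy]
  simp only [h2]
  rw [setIntegral_indicator measurableSet_Iic, Ioi_inter_Iic,
    ← intervalIntegral.integral_of_le zero_le_one,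
    intervalIntegral.integral_sub (intervalIntegral.intervalIntegrable_pow 4)
      (intervalIntegral.intervalIntegrable_pow 2), integral_pow, integral_pow]
  have hb : volume.real (Metric.ball (0 : E 3) 1) = 4 / 3 * Real.pi := by
    rw [Measure.real, EuclideanSpace.volume_ball_fin_three]
    simp [mul_comm]
    ring_nf
    rw [ENNReal.toReal_ofReal (by positivity)]
  rw [hb]
  norm_num
  ring

/-- The excess second moment of a body containing the ball. -/
lemma excess {K : Set (E 3)} (hK : Body K) (hb : Metric.closedBall 0 1 ⊆ K) :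
    0 ≤ (∫ x in K, ‖x‖ ^ 2) - vol K + 8 * Real.pi / 15 ∧
    ((∫ x in K, ‖x‖ ^ 2) - vol K + 8 * Real.pi / 15 = 0 → K = Metric.closedBall 0 1) := by
  set B := Metric.closedBall (0 : E 3) 1
  have hKm := hK.compact.isClosed.measurableSet
  have hBm : MeasurableSet B := Metric.isClosed_closedBall.measurableSet
  have hint : IntegrableOn (fun x : E 3 => ‖x‖ ^ 2 - 1) K :=
    (by fun_prop : Continuous fun x : E 3 => ‖x‖ ^ 2 - 1).continuousOn.integrableOn_compact hK.compact
  have e1 : ∫ x in K, (‖x‖ ^ 2 - 1) = (∫ x in K, ‖x‖ ^ 2) - vol K := by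
    rw [integral_sub
      ((by fun_prop : Continuous fun x : E 3 => ‖x‖ ^ 2).continuousOn.integrableOn_compact hK.compact)
      (integrableOn_const hK.compact.measure_lt_top.ne)]
    simp [vol, Measure.real]
  have e2 : ∫ x in K \ B, (‖x‖ ^ 2 - 1) = (∫ x in K, ‖x‖ ^ 2) - vol K + 8 * Real.pi / 15 := by
    rw [setIntegral_diff hBm hint hb, e1, integral_ball_normSq]
    ring
  have hpos : ∀ x ∈ K \ B, 0 < ‖x‖ ^ 2 - 1 := by
    rintro x ⟨-, hx⟩
    simp only [B, mem_closedBall_zero_iff, not_le] at hx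
    nlinarith
  refine ⟨e2 ▸ setIntegral_nonneg (hKm.diff hBm) fun x hx => (hpos x hx).le, fun h0 => ?_⟩
  rw [← e2, setIntegral_eq_zero_iff_of_nonneg_ae
    ((ae_restrict_iff' (hKm.diff hBm)).2 (ae_of_all _ fun x hx => (hpos x hx).le))
    (hint.mono_set diff_subset)] at h0
  have hnull : volume (K \ B) = 0 := by
    rw [EventuallyEq, ae_restrict_iff' (hKm.diff hBm), ae_iff] at h0
    refine measure_mono_null (fun x hx => ?_) h0
    simp only [Pi.zero_apply, mem_ofPred_eq, Classical.not_imp]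
    exact ⟨hx, (hpos x hx).ne'⟩
  refine Subset.antisymm ?_ hb
  have hsub : interior K ⊆ B := by
    intro x hx
    by_contra hxB
    have ho : IsOpen (interior K \ B) := isOpen_interior.sdiff Metric.isClosed_closedBall
    have := ho.measure_pos volume ⟨x, hx, hxB⟩
    exact this.ne' (measure_mono_null (diff_subset_diff_left interior_subset) hnull)
  calc K = closure (interior K) := by
        rw [hK.convex.closure_interior_eq_closure_of_nonempty_interior hK.interior_nonempty,
          hK.compact.isClosed.closure_eq]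
    _ ⊆ B := closure_minimal hsub Metric.isClosed_closedBall

/-- The central section of a body inside the ball of radius `√3` has area at most `3π`. -/
lemma sliceVol_zero_le {K : Set (E 3)} {u : E 3} (hu : ‖u‖ = 1)
    (hK : K ⊆ Metric.closedBall 0 √3) : sliceVol K u 0 ≤ 3 * Real.pi := by
  have hu0 : u ≠ 0 := by intro h; simp [h] at hu
  have hdim : Module.finrank ℝ (Perp u) = 2 := by
    have := Submodule.finrank_add_finrank_orthogonal (ℝ ∙ u)
    rw [finrank_span_singleton hu0, finrank_euclideanSpace_fin] at this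
    change Module.finrank ℝ ((ℝ ∙ u)ᗮ : Submodule ℝ (E 3)) = 2
    omega
  have : Nontrivial (Perp u) := Module.nontrivial_of_finrank_eq_succ hdim
  have hsub : {y : Perp u | (0 : ℝ) • u + (y : E 3) ∈ K} ⊆ Metric.closedBall 0 √3 := by
    intro y hy
    simpa using hK hy
  refine le_trans (ENNReal.toReal_mono measure_closedBall_lt_top.ne (measure_mono hsub)) ?_
  rw [InnerProductSpace.volume_closedBall, hdim]
  norm_num [Real.sq_sqrt Real.pi_pos.le, Real.Gamma_two]
  exact le_of_eq (by rw [ENNReal.toReal_ofReal Real.pi_pos.le])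

/-- A symmetric minimiser in John position: `R ≥ 3π²/4`, and equality only for the ball. -/
lemma john_lower (H : Hyps) {K : Set (E 3)} (hK : SymBody K) (hmin : R K ≤ R (projBody K))
    (hb : Metric.closedBall 0 1 ⊆ K) {N : ℕ} {u : Fin N → E 3} {c : Fin N → ℝ}
    (hc : ∀ i, 0 ≤ c i) (hu : ∀ i, ‖u i‖ = 1) (hle : ∀ i, ∀ x ∈ K, ⟪x, u i⟫ ≤ 1)
    (hsum : ∀ x : E 3, ∑ i, c i * ⟪x, u i⟫ ^ 2 = ‖x‖ ^ 2) :
    3 * Real.pi ^ 2 / 4 ≤ R K ∧ (R K ≤ 3 * Real.pi ^ 2 / 4 → K = Metric.closedBall 0 1) := by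
  set V := vol K with hV
  have hV0 : 0 < V := hK.toBody.vol_pos
  have hM : ∀ i, Integrable (fun x : E 3 => ⟪x, u i⟫ ^ 2) (volume.restrict K) := fun i =>
    (by fun_prop : Continuous fun x : E 3 => ⟪x, u i⟫ ^ 2).continuousOn.integrableOn_compact
      hK.toBody.compact
  have key : ∀ i, 3 * Real.pi ^ 2 / 16 * V +
      7 / 5 * ((∫ x in K, ⟪x, u i⟫ ^ 2) - V / 3 + 8 * Real.pi / 45) ≤ R K * V / 4 := by
    intro i
    obtain ⟨hconc, heven, hnn, hge, hI, hI2⟩ := H.slice K (u i) hK (hu i) (hle i) hb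
    have hsb := H.sliceBound K (u i) hK (hu i) (hle i) hb
    have hpv := pv_proj_le_of_R_le H.toDualityHyps (by norm_num) hK hmin (hle i)
    have hpi := Real.pi_pos
    have h1 := H.oneDim (fun t => (√Real.pi)⁻¹ * √(sliceVol K (u i) t))
      (hconc.smul (inv_nonneg.2 (Real.sqrt_nonneg _))) (fun t => by simp only [heven]) (by
        have h0 := sliceVol_zero_le (hu i) (john_norm_le hK.neg_mem hc hu hle hsum)
        have h74 : √(sliceVol K (u i) 0) ≤ √(3 * Real.pi) := Real.sqrt_le_sqrt h0
        rw [Real.sqrt_mul (by norm_num)] at h74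
        rw [inv_mul_le_iff₀ (Real.sqrt_pos.2 hpi), mul_comm (√Real.pi)]
        refine h74.trans (mul_le_mul_of_nonneg_right ?_ (Real.sqrt_nonneg _))
        rw [Real.sqrt_le_iff]
        norm_num) (by
        intro t ht
        rw [le_inv_mul_iff₀ (Real.sqrt_pos.2 hpi), ← Real.sqrt_mul hpi.le]
        exact Real.sqrt_le_sqrt (hge t ht))
    simp only [mul_pow, inv_pow, Real.sq_sqrt hpi.le, Real.sq_sqrt (hnn _), mul_assoc,
      intervalIntegral.integral_const_mul] at h1
    have e3 : ∫ t in (-1 : ℝ)..1, sliceVol K (u i) t * (t ^ 2 - 1 / 3) =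
        (∫ x in K, ⟪x, u i⟫ ^ 2) - V / 3 := by
      have hint : IntervalIntegrable (sliceVol K (u i)) volume (-1) 1 := by
        by_contra hn
        rw [intervalIntegral.integral_undef hn] at hI
        linarith
      rw [← hI2, hV, ← hI, ← intervalIntegral.integral_div,
        ← intervalIntegral.integral_sub (hint.continuousOn_mul (by fun_prop)) (hint.div_const 3)]
      exact intervalIntegral.integral_congr fun t _ => by ring
    rw [hI, e3] at h1
    have h2 := mul_le_mul_of_nonneg_left h1 hpi.le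
    rw [mul_inv_cancel_left₀ hpi.ne'] at h2
    have e5 : R K * V = vol (projBody K) / V * 1 := by
      rw [R, show (3 - 1) = 2 from rfl, hV]
      field_simp
    have h3 : 4 * (∫ t in (-1 : ℝ)..1, √(sliceVol K (u i) t)) ^ 2 ≤ R K * V :=
      e5 ▸ hsb.trans hpv
    refine le_trans (le_of_eq ?_) (le_trans h2 (by linarith))
    rw [hV]
    field_simp
  have hw := john_weight hu hsum
  have hsumM : ∑ i, c i * ∫ x in K, ⟪x, u i⟫ ^ 2 = ∫ x in K, ‖x‖ ^ 2 := by
    simp only [← hsum, ← integral_const_mul]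
    rw [integral_finsetSum _ fun i _ => (hM i).const_mul _]
  have hS : ∑ i, c i * (3 * Real.pi ^ 2 / 16 * V +
      7 / 5 * ((∫ x in K, ⟪x, u i⟫ ^ 2) - V / 3 + 8 * Real.pi / 45)) ≤
      ∑ i, c i * (R K * V / 4) :=
    Finset.sum_le_sum fun i _ => mul_le_mul_of_nonneg_left (key i) (hc i)
  have e6 : ∀ i, c i * (3 * Real.pi ^ 2 / 16 * V +
      7 / 5 * ((∫ x in K, ⟪x, u i⟫ ^ 2) - V / 3 + 8 * Real.pi / 45)) =
      c i * (3 * Real.pi ^ 2 / 16 * V + 7 / 5 * (-(V / 3) + 8 * Real.pi / 45)) +
      7 / 5 * (c i * ∫ x in K, ⟪x, u i⟫ ^ 2) := fun i => by ring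
  simp only [e6, Finset.sum_add_distrib, ← Finset.sum_mul, ← Finset.mul_sum, hw, hsumM,
    Nat.cast_ofNat] at hS
  obtain ⟨hex, hex0⟩ := excess hK.toBody hb
  refine ⟨le_of_mul_le_mul_right (a := V) (by nlinarith) hV0, fun hR => hex0 ?_⟩
  have := mul_le_mul_of_nonneg_right hR hV0.le
  linarith

/-- Every symmetric minimiser is an ellipsoid, with `R ≥ 3π²/4`. -/
lemma symm_minimizer (H : Hyps) {K : Set (E 3)} (hK : SymBody K)
    (hmin : ∀ L : Set (E 3), Body L → R K ≤ R L) :
    3 * Real.pi ^ 2 / 4 ≤ R K ∧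
    (R K ≤ 3 * Real.pi ^ 2 / 4 → ∃ T : E 3 ≃L[ℝ] E 3, K = T '' Metric.closedBall 0 1) := by
  obtain ⟨T, N, u, c, hb, hc, hu, hle, hsum⟩ := H.john 3 K (by norm_num) hK
  have hR := R_image (by norm_num : 1 ≤ 3) T K
  have hP := (H.projBody 3 _ (by norm_num) (hK.image T).toBody).1
  obtain ⟨h1, h2⟩ := john_lower H (hK.image T) (hR ▸ hmin _ hP.toBody) hb hc hu hle hsum
  refine ⟨hR ▸ h1, fun h => ⟨T.symm, ?_⟩⟩
  rw [← h2 (hR ▸ h), T.symm_image_image]

/-- Petty's inequality in dimension three. -/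
theorem petty_ge (H : Hyps) {K : Set (E 3)} (hK : Body K) : 3 * Real.pi ^ 2 / 4 ≤ R K := by
  obtain ⟨M, hM, hmin⟩ := exists_minimizer H.toDualityHyps H.john (by norm_num : 2 ≤ 3)
  exact (symm_minimizer H hM.1 hmin).1.trans (hmin K hK)

lemma pv_ball (H : Hyps) (v : E 3) : pv (Metric.closedBall 0 1) v = Real.pi * ‖v‖ := by
  have hB : Body (Metric.closedBall (0 : E 3) 1) :=
    body_of_ball_subset (convex_closedBall _ _) (isCompact_closedBall _ _) subset_rfl
  rw [H.pvProj 3 _ v (by norm_num) hB]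
  rcases eq_or_ne v 0 with rfl | hv
  · simp
  set u := ‖v‖⁻¹ • v with hu
  have hu0 : u ≠ 0 := by simp [hu, hv]
  have himg : (Perp u).orthogonalProjectionOnto '' Metric.closedBall (0 : E 3) 1 =
      Metric.closedBall 0 1 := by
    ext y
    constructor
    · rintro ⟨x, hx, rfl⟩
      rw [mem_closedBall_zero_iff] at hx ⊢
      exact ((Perp u).norm_orthogonalProjectionOnto_apply_le x).trans hx
    · intro hy
      refine ⟨(y : E 3), by simpa using hy, ?_⟩
      exact Submodule.orthogonalProjectionOnto_mem_subspace_eq_self y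
  have hdim : Module.finrank ℝ (Perp u) = 2 := by
    have := Submodule.finrank_add_finrank_orthogonal (ℝ ∙ u)
    rw [finrank_span_singleton hu0, finrank_euclideanSpace_fin] at this
    change Module.finrank ℝ ((ℝ ∙ u)ᗮ : Submodule ℝ (E 3)) = 2
    omega
  have : Nontrivial (Perp u) := Module.nontrivial_of_finrank_eq_succ hdim
  rw [projVol, himg, InnerProductSpace.volume_closedBall, hdim]
  norm_num [Real.sq_sqrt Real.pi_pos.le]
  rw [ENNReal.toReal_ofReal Real.pi_pos.le]
  ring

lemma projBody_ball (H : Hyps) :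
    projBody (Metric.closedBall (0 : E 3) 1) = Real.pi • Metric.closedBall 0 1 := by
  ext y
  rw [mem_smul_set_iff_inv_smul_mem₀ Real.pi_pos.ne', mem_closedBall_zero_iff, norm_smul,
    Real.norm_of_nonneg (inv_nonneg.2 Real.pi_pos.le), inv_mul_le_iff₀ Real.pi_pos, mul_one]
  simp only [projBody, mem_ofPred_eq, pv_ball H]
  constructor
  · intro h
    have := h y
    rw [real_inner_self_eq_norm_mul_norm] at this
    rcases eq_or_lt_of_le (norm_nonneg y) with h0 | h0
    · rw [← h0]; exact Real.pi_pos.le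
    · exact le_of_mul_le_mul_right (by linarith) h0
  · intro h v
    exact (real_inner_le_norm y v).trans (mul_le_mul_of_nonneg_right h (norm_nonneg v))

lemma R_ball (H : Hyps) : R (Metric.closedBall (0 : E 3) 1) = 3 * Real.pi ^ 2 / 4 := by
  rw [R, projBody_ball H, vol_smul, vol_ball3, abs_of_pos Real.pi_pos,
    show (3 : ℕ) - 1 = 2 from rfl]
  field_simp

lemma affine_image_eq (a : E 3) (T : E 3 ≃L[ℝ] E 3) (s : Set (E 3)) :
    (fun x => a + T x) '' s = a +ᵥ T '' s := by
  rw [← image_vadd, image_image]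
  rfl

/-- The equality case. -/
theorem petty_eq_iff (H : Hyps) {K : Set (E 3)} (hK : Body K) :
    R K = 3 * Real.pi ^ 2 / 4 ↔
      ∃ (a : E 3) (T : E 3 ≃L[ℝ] E 3), K = (fun x => a + T x) '' Metric.closedBall 0 1 := by
  constructor
  · intro hR
    obtain ⟨hP, -⟩ := H.projBody 3 K (by norm_num) hK
    have hle := R_projBody_le H.toDualityHyps (by norm_num) hK
    have hmin : ∀ L : Set (E 3), Body L → R (projBody K) ≤ R L := fun L hL =>
      hle.trans (hR ▸ petty_ge H hL)
    obtain ⟨T, hT⟩ := (symm_minimizer H hP hmin).2 (hR ▸ hle)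
    obtain ⟨a, ha⟩ := eq_of_R_le H.toDualityHyps (by norm_num) hK
      (hR ▸ petty_ge H hP.toBody)
    have hd : (0 : ℝ) < |LinearMap.det T.toLinearEquiv.toLinearMap| :=
      abs_pos.2 (det_ne_zero' T)
    set L := T.toLinearEquiv.toLinearMap with hL
    let A : E 3 ≃L[ℝ] E 3 := (LinearEquiv.ofIsUnitDet
      (f := LinearMap.adjoint L) (v := (EuclideanSpace.basisFun (Fin 3) ℝ).toBasis)
      (v' := (EuclideanSpace.basisFun (Fin 3) ℝ).toBasis) (by
        rw [LinearMap.det_toMatrix, det_adjoint]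
        exact T.toLinearEquiv.isUnit_det')).toContinuousLinearEquiv
    have hA : A '' projBody (projBody K) =
        (|LinearMap.det L| * Real.pi) • Metric.closedBall (0 : E 3) 1 := by
      rw [hT, show (A : E 3 → E 3) = LinearMap.adjoint L from rfl, hL, projBody_image,
        projBody_ball H, smul_smul]
    have hne : |LinearMap.det L| * Real.pi ≠ 0 := (mul_pos hd Real.pi_pos).ne'
    set s := vol K / vol (projBody K) with hs
    have hs0 : s ≠ 0 := (div_pos hK.vol_pos hP.toBody.vol_pos).ne'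
    refine ⟨a, (dil _ hne).trans (A.symm.trans (dil s hs0)), ?_⟩
    rw [affine_image_eq, ha]
    congr 1
    have hA' := congrArg (A.symm '' ·) hA
    simp only [A.symm_image_image] at hA'
    rw [hA']
    rw [← dil_image _ hne, ← dil_image s hs0, image_image, image_image]
    rfl
  · rintro ⟨a, T, rfl⟩
    rw [affine_image_eq, R_vadd, R_image (by norm_num), R_ball H]

end Vale.Agent.P237
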