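import Vale.Agent.P237.Petty

/-!
# P237: the final statement, in terms of projection volumes only
-/

namespace Vale.Agent.P237

open MeasureTheory Set Filter Topology
open scoped Pointwise RealInnerProductSpace ENNReal

/-- Lebesgue measure of the hyperplane `u^⊥`. -/
noncomputable def perpMeasure {n : ℕ} (u : E n) : Measure (Perp u) := volume

/-- The orthogonal projection on the hyperplane `u^⊥`. -/
noncomputable def perpProj {n : ℕ} (u : E n) : E n → Perp u :=
  (Perp u).orthogonalProjectionOnto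

/-- The `(n-1)`-dimensional volume of the projection of `K` on `u^⊥`. -/
noncomputable def shadow {n : ℕ} (K : Set (E n)) (u : E n) : ℝ :=
  (perpMeasure u (perpProj u '' K)).toReal

lemma shadow_eq {n : ℕ} (K : Set (E n)) (u : E n) : shadow K u = projVol K u := rfl

/-- The projection body `ΠK`: the set cut out by `⟪y, u⟫ ≤ vol_{n-1}(proj_{u^⊥} K)`, `‖u‖ = 1`. -/
def ProjectionBody {n : ℕ} (K : Set (E n)) : Set (E n) :=
  {y | ∀ u : E n, ‖u‖ = 1 → ⟪y, u⟫ ≤ shadow K u}

/-- An ellipsoid `a + T B` with `T` invertible linear. -/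
def IsEllipsoid (K : Set (E 3)) : Prop :=
  ∃ (a : E 3) (T : E 3 ≃L[ℝ] E 3), K = (fun x => a + T x) '' Metric.closedBall 0 1

lemma projectionBody_eq (H : Hyps) {n : ℕ} (hn : 2 ≤ n) {K : Set (E n)} (hK : Body K) :
    ProjectionBody K = projBody K := by
  ext y
  simp only [ProjectionBody, shadow_eq, mem_ofPred_eq]
  constructor
  · intro h v
    rcases eq_or_ne v 0 with rfl | hv
    · rw [H.pvProj n K 0 hn hK]
      simp
    · have hn0 : 0 < ‖v‖ := norm_pos_iff.2 hv
      have := h (‖v‖⁻¹ • v) (norm_smul_inv_norm hv)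
      rw [real_inner_smul_right, inv_mul_le_iff₀ hn0] at this
      rwa [H.pvProj n K v hn hK]
  · intro h u hu
    have := h u
    rwa [H.pvProj n K u hn hK, hu, inv_one, one_smul, one_mul] at this

/-- Petty's conjecture in dimension three. -/
theorem petty_three (H : Hyps) (K : Set (E 3)) (hc : Convex ℝ K) (hk : IsCompact K)
    (hi : (interior K).Nonempty) :
    (∀ u : E 3, ‖u‖ = 1 →
      IsGreatest ((fun y => ⟪y, u⟫) '' ProjectionBody K) (shadow K u)) ∧
    3 * Real.pi ^ 2 / 4 * (volume K).toReal ^ 2 ≤ (volume (ProjectionBody K)).toReal ∧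
    ((volume (ProjectionBody K)).toReal = 3 * Real.pi ^ 2 / 4 * (volume K).toReal ^ 2 ↔
      IsEllipsoid K) := by
  simp only [IsEllipsoid, shadow_eq]
  have hK : Body K := ⟨hc, hk, hi⟩
  have hn : (2 : ℕ) ≤ 3 := by norm_num
  rw [projectionBody_eq H hn hK]
  have hp : (0 : ℝ) < vol K ^ 2 := pow_pos hK.vol_pos 2
  refine ⟨fun u hu => ?_, (le_div_iff₀ hp).1 (petty_ge H hK), ?_⟩
  · have := (H.projBody 3 K hn hK).2 u
    rwa [H.pvProj 3 K u hn hK, hu, inv_one, one_smul, one_mul] at this
  · rw [← petty_eq_iff H hK]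
    exact (div_eq_iff hp.ne').symm

end Vale.Agent.P237
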